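import Vale.Agent.Lib.P254U.Iso

/-!
P254U/Aff: affine invariance of the isotropic constant.
For `T x = A x + b`, `T '' K` has volume `|det A| |K|` (`MeasureTheory.Measure.addHaar_image_linearMap`),
centroid `A c + b`, covariance `A Σ A^T`, so `det Σ/|K|^2` is unchanged.
-/

open MeasureTheory Set

namespace Vale.Agent.P254U

theorem isoConst_affine {n : ℕ} {K : Set (Fin n → ℝ)} (hK : IsCompact K)
    (T : (Fin n → ℝ) ≃ᵃ[ℝ] (Fin n → ℝ)) : isoConst (T '' K) = isoConst K := by
  classical
  set A : (Fin n → ℝ) →ₗ[ℝ] (Fin n → ℝ) := (T.linear : (Fin n → ℝ) →ₗ[ℝ] (Fin n → ℝ)) with hA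
  set M : Matrix (Fin n) (Fin n) ℝ := LinearMap.toMatrix' A with hM
  set b : Fin n → ℝ := T 0 with hb
  have hT : ∀ x, T x = A x + b := by
    intro x
    have h := T.map_vadd 0 x
    simp only [vadd_eq_add, add_zero] at h
    exact h
  have hAx : ∀ x, A x = M.mulVec x := by
    intro x
    rw [hM, LinearMap.toMatrix'_mulVec]
  have hTi : ∀ x i, T x i = ∑ k, M i k * x k + b i := by
    intro x i
    rw [hT, hAx]
    rfl
  have hDA : LinearMap.det A = M.det := (LinearMap.det_toMatrix' A).symm
  have hD0 : M.det ≠ 0 := by
    rw [← hDA]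
    exact (LinearEquiv.isUnit_det' T.linear).ne_zero
  have hTf : (T : (Fin n → ℝ) → (Fin n → ℝ)) =
      fun x => (LinearMap.toContinuousLinearMap A) x + b := funext fun x => hT x
  have hcv : ∀ f : (Fin n → ℝ) → ℝ,
      ∫ y in T '' K, f y = |M.det| * ∫ x in K, f (T x) := by
    intro f
    have h1 := integral_image_eq_integral_abs_det_fderiv_smul
      (volume : Measure (Fin n → ℝ)) hK.measurableSet (f := T)
      (f' := fun _ => LinearMap.toContinuousLinearMap A) (fun x _ => by
        rw [hTf]
        exact ((LinearMap.toContinuousLinearMap A).hasFDerivAt.add_const b).hasFDerivWithinAt)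
      T.injective.injOn f
    rw [h1]
    simp only [LinearMap.det_toContinuousLinearMap, hDA, smul_eq_mul]
    rw [integral_const_mul]
  have hvol : (volume (T '' K)).toReal = |M.det| * (volume K).toReal := by
    have h := hcv (fun _ => 1)
    simpa [measureReal_def] using h
  have hDp : 0 < |M.det| := abs_pos.2 hD0
  by_cases hV : (volume K).toReal = 0
  · unfold isoConst
    rw [hvol, hV]
    simp
  have hint : ∀ f : (Fin n → ℝ) → ℝ, Continuous f → IntegrableOn f K := fun f hf =>
    hf.continuousOn.integrableOn_compact hK
  have hcen : ∀ i, cen (T '' K) i = ∑ k, M i k * cen K k + b i := by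
    intro i
    unfold cen
    rw [hcv (fun y => y i), hvol, mul_div_mul_left _ _ hDp.ne']
    simp only [hTi]
    rw [integral_add, integral_finsetSum]
    · simp only [integral_const_mul, setIntegral_const, measureReal_def, smul_eq_mul]
      rw [add_div, Finset.sum_div, mul_div_cancel_left₀ _ hV]
      congr 1
      refine Finset.sum_congr rfl fun k _ => ?_
      rw [mul_div_assoc]
    · intro k _
      exact hint _ (by fun_prop)
    · exact hint _ (by fun_prop)
    · exact hint _ (by fun_prop)
  have hcov : covM (T '' K) = M * covM K * M.transpose := by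
    ext i j
    have h1 : covM (T '' K) i j =
        (∫ x in K, (T x i - cen (T '' K) i) * (T x j - cen (T '' K) j)) / (volume K).toReal := by
      show (∫ y in T '' K, (y i - cen (T '' K) i) * (y j - cen (T '' K) j)) /
        (volume (T '' K)).toReal = _
      rw [hcv (fun y => (y i - cen (T '' K) i) * (y j - cen (T '' K) j)), hvol,
        mul_div_mul_left _ _ hDp.ne']
    have h2 : ∀ x i, T x i - cen (T '' K) i = ∑ k, M i k * (x k - cen K k) := by
      intro x i
      rw [hTi, hcen]
      simp only [mul_sub, Finset.sum_sub_distrib]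
      ring
    rw [h1]
    simp only [h2, Finset.sum_mul_sum]
    rw [integral_finsetSum]
    · rw [Finset.sum_div]
      simp only [Matrix.mul_apply, Matrix.transpose_apply, Finset.sum_mul]
      rw [Finset.sum_comm]
      refine Finset.sum_congr rfl fun k _ => ?_
      rw [integral_finsetSum]
      · rw [Finset.sum_div]
        refine Finset.sum_congr rfl fun l _ => ?_
        have h3 : ∀ x : Fin n → ℝ, M i k * (x k - cen K k) * (M j l * (x l - cen K l)) =
            (M i k * M j l) * ((x k - cen K k) * (x l - cen K l)) := fun x => by ring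
        simp only [h3, integral_const_mul]
        unfold covM
        ring
      · intro l _
        exact hint _ (by fun_prop)
    · intro k _
      exact hint _ (by fun_prop)
  unfold isoConst
  rw [hcov, hvol, Matrix.det_mul, Matrix.det_mul, Matrix.det_transpose, mul_pow, sq_abs]
  congr 1
  field_simp

end Vale.Agent.P254U
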