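import Vale.Agent.Lib.P254U.Basic

/-!
P254U/Fub: integration over slices (Fubini).  Use
`MeasureTheory.volume_preserving_piFinSuccAbove (fun _ : Fin (n+1) => ℝ) 0` as in
`Vale/Agent/Lib/P347/PLn.lean` (lemmas `symm_cons`, `lintegral_succ`), `integral_prod` and
`slice_eq_empty` (slices outside `[0, top K]` are empty).
-/

open MeasureTheory Set

namespace Vale.Agent.P254U

variable {n : ℕ}

private theorem Fub_symm_cons (n : ℕ) (z : ℝ × (Fin n → ℝ)) :
    (MeasurableEquiv.piFinSuccAbove (fun _ : Fin (n + 1) => ℝ) 0).symm z =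
      (Fin.cons z.1 z.2 : Fin (n + 1) → ℝ) := by
  funext i
  refine Fin.cases ?_ (fun i => ?_) i
  · rfl
  · rfl

private theorem Fub_indicator (K : Set (Fin (n + 1) → ℝ)) (φ : (Fin (n + 1) → ℝ) → ℝ) (t : ℝ)
    (y : Fin n → ℝ) : K.indicator φ (Fin.cons t y) =
      (slice K t).indicator (fun y => φ (Fin.cons t y)) y := by
  by_cases h : (Fin.cons t y : Fin (n + 1) → ℝ) ∈ K
  · rw [indicator_of_mem h, indicator_of_mem (show y ∈ slice K t from h)]
  · rw [indicator_of_notMem h, indicator_of_notMem (show y ∉ slice K t from h)]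

private theorem Fub_inner {K : Set (Fin (n + 1) → ℝ)} (h : Corner (n + 1) K)
    (φ : (Fin (n + 1) → ℝ) → ℝ) (t : ℝ) :
    ∫ y, K.indicator φ (Fin.cons t y) = ∫ y in slice K t, φ (Fin.cons t y) := by
  simp only [Fub_indicator]
  exact integral_indicator (slice_compact h t).measurableSet

private theorem Fub_integrable_prod {K : Set (Fin (n + 1) → ℝ)} (h : Corner (n + 1) K)
    {φ : (Fin (n + 1) → ℝ) → ℝ} (hφ : IntegrableOn φ K) :
    Integrable (fun z : ℝ × (Fin n → ℝ) => K.indicator φ (Fin.cons z.1 z.2))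
      ((volume : Measure ℝ).prod (volume : Measure (Fin n → ℝ))) := by
  have hmp := (volume_preserving_piFinSuccAbove (n := n) (fun _ : Fin (n + 1) => ℝ) 0).symm
  have h1 : Integrable (K.indicator φ) := hφ.integrable_indicator h.measurableSet
  have h2 := hmp.integrable_comp_of_integrable h1
  have h3 : (K.indicator φ) ∘ (MeasurableEquiv.piFinSuccAbove (fun _ : Fin (n + 1) => ℝ) 0).symm =
      fun z : ℝ × (Fin n → ℝ) => K.indicator φ (Fin.cons z.1 z.2) := by
    funext z
    rw [Function.comp_apply, Fub_symm_cons]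
  rw [h3] at h2
  exact h2

private theorem Fub_integrable {K : Set (Fin (n + 1) → ℝ)} (h : Corner (n + 1) K)
    {φ : (Fin (n + 1) → ℝ) → ℝ} (hφ : IntegrableOn φ K) :
    Integrable (fun t => ∫ y in slice K t, φ (Fin.cons t y)) := by
  have h1 := (Fub_integrable_prod h hφ).integral_prod_left
  simp only [Fub_inner h] at h1
  exact h1

theorem integral_slices {K : Set (Fin (n + 1) → ℝ)} (h : Corner (n + 1) K)
    {φ : (Fin (n + 1) → ℝ) → ℝ} (hφ : IntegrableOn φ K) :
    ∫ x in K, φ x = ∫ t in (0 : ℝ)..top K, ∫ y in slice K t, φ (Fin.cons t y) := by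
  have hmp := (volume_preserving_piFinSuccAbove (n := n) (fun _ : Fin (n + 1) => ℝ) 0).symm
  rw [← integral_indicator h.measurableSet]
  have h1 : ∫ x, K.indicator φ x = ∫ z : ℝ × (Fin n → ℝ), K.indicator φ (Fin.cons z.1 z.2)
      ∂((volume : Measure ℝ).prod (volume : Measure (Fin n → ℝ))) := by
    have h2 := hmp.integral_comp' (K.indicator φ)
    rw [← h2]
    simp only [Fub_symm_cons]
    rfl
  rw [h1, integral_prod _ (Fub_integrable_prod h hφ)]
  simp only [Fub_inner h]
  rw [intervalIntegral.integral_of_le (top_pos h).le, ← integral_Icc_eq_integral_Ioc]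
  symm
  apply setIntegral_eq_integral_of_forall_compl_eq_zero
  intro t ht
  have h3 : slice K t = ∅ := by
    apply slice_eq_empty h
    rw [mem_Icc, not_and_or] at ht
    rcases ht with ht | ht
    · left; exact not_le.mp ht
    · right; exact not_le.mp ht
  rw [h3]
  simp

theorem intervalIntegrable_slices {K : Set (Fin (n + 1) → ℝ)} (h : Corner (n + 1) K)
    {φ : (Fin (n + 1) → ℝ) → ℝ} (hφ : IntegrableOn φ K) :
    IntervalIntegrable (fun t => ∫ y in slice K t, φ (Fin.cons t y)) volume 0 (top K) :=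
  (Fub_integrable h hφ).intervalIntegrable

private theorem Fub_const (s : Set (Fin n → ℝ)) : ∫ _y in s, (1 : ℝ) = vol s := by
  simp [vol, Measure.real]

private theorem Fub_one {K : Set (Fin (n + 1) → ℝ)} (h : Corner (n + 1) K) :
    IntegrableOn (fun _ : Fin (n + 1) → ℝ => (1 : ℝ)) K :=
  integrableOn_const h.volume_ne_top

theorem intervalIntegrable_vol_slice {K : Set (Fin (n + 1) → ℝ)} (h : Corner (n + 1) K) :
    IntervalIntegrable (fun t => vol (slice K t)) volume 0 (top K) := by
  have h1 := intervalIntegrable_slices h (Fub_one h)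
  simp only [Fub_const] at h1
  exact h1

theorem vol_eq_integral_slice {K : Set (Fin (n + 1) → ℝ)} (h : Corner (n + 1) K) :
    vol K = ∫ t in (0 : ℝ)..top K, vol (slice K t) := by
  have h1 := integral_slices h (Fub_one h)
  simp only [Fub_const] at h1
  exact h1

end Vale.Agent.P254U
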