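import Vale.Agent.Lib.P254U.Basic

/-!
P254U/LogInt: integrability of powers of logarithms and of small exponential tilts on a corner.
`K` is contained in a box `[0,R]^n`; on the box everything is a product of one dimensional
integrable functions: `|log x|^p` and `x^b` with `b > -1` are integrable on `(0,R]`.
`exp (a * LL θ x) = ∏ i, (x i) ^ (a * θ i)` for positive coordinates (a.e.), and
`(log x)^p` is bounded by a constant times `x^(-1/2) + x`.
For `LL θ x ^ p` use `|sum|^p ≤ C * sum |.|^p` (or Hoelder/`MemLp`).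
-/

open MeasureTheory Set

namespace Vale.Agent.P254U

variable {n : ℕ}

private theorem logInt_one (b R : ℝ) (hb : |b| < 1) :
    IntegrableOn (fun x : ℝ => Real.exp (b * Real.log x)) (Icc 0 R) := by
  rw [integrableOn_Icc_iff_integrableOn_Ioc]
  rcases le_or_gt 0 R with hR | hR
  · have h1 : IntervalIntegrable (fun x : ℝ => x ^ b) volume 0 R :=
      intervalIntegral.intervalIntegrable_rpow' (neg_lt_of_abs_lt hb)
    rw [intervalIntegrable_iff_integrableOn_Ioc_of_le hR] at h1
    refine h1.congr_fun (fun x hx => ?_) measurableSet_Ioc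
    change x ^ b = _
    rw [Real.rpow_def_of_pos hx.1, mul_comm]
  · rw [Ioc_eq_empty (by simpa using hR.le)]
    exact integrableOn_empty

private theorem logInt_exp {K : Set (Fin n → ℝ)} (h : Corner n K) (θ : Fin n → ℝ) {a : ℝ}
    (ha : ∀ i, |a * θ i| < 1) :
    IntegrableOn (fun x : Fin n → ℝ => Real.exp (a * LL θ x)) K := by
  obtain ⟨R, hR⟩ := isBounded_iff_forall_norm_le.1 h.compact.isBounded
  have hsub : K ⊆ Set.pi univ (fun _ => Icc 0 R) := by
    intro x hx i _
    exact ⟨h.nonneg x hx i, ((le_abs_self _).trans (norm_le_pi_norm x i)).trans (hR x hx)⟩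
  refine IntegrableOn.mono_set ?_ hsub
  rw [IntegrableOn, volume_pi, Measure.restrict_pi_pi]
  have h1 : Integrable (fun x : Fin n → ℝ => ∏ i, Real.exp ((a * θ i) * Real.log (x i)))
      (Measure.pi fun _ => (volume : Measure ℝ).restrict (Icc 0 R)) :=
    Integrable.fintype_prod (f := fun i (y : ℝ) => Real.exp ((a * θ i) * Real.log y))
      (μ := fun _ => (volume : Measure ℝ).restrict (Icc 0 R))
      (fun i => logInt_one (a * θ i) R (ha i))
  refine h1.congr (Filter.Eventually.of_forall fun x => ?_)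
  change ∏ i, Real.exp ((a * θ i) * Real.log (x i)) = Real.exp (a * LL θ x)
  rw [← Real.exp_sum, LL, Finset.mul_sum]
  congr 1
  exact Finset.sum_congr rfl fun i _ => by ring

private theorem logInt_meas (θ : Fin n → ℝ) : Measurable (fun x : Fin n → ℝ => LL θ x) := by
  unfold LL
  exact Finset.measurable_sum _ fun i _ =>
    (Real.measurable_log.comp (measurable_pi_apply i)).const_mul (θ i)

private theorem logInt_bound (ε t : ℝ) (hε : 0 < ε) (c : ℝ) (p : ℕ) :
    |t - c| ^ p ≤ (p.factorial / ε ^ p * Real.exp (ε * |c|)) *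
      (Real.exp (ε * t) + Real.exp (-ε * t)) := by
  have h1 : (ε * |t - c|) ^ p / p.factorial ≤ Real.exp (ε * |t - c|) :=
    Real.pow_div_factorial_le_exp _ (by positivity) p
  have h2 : Real.exp (ε * |t - c|) ≤ Real.exp (ε * |c|) *
      (Real.exp (ε * t) + Real.exp (-ε * t)) := by
    have h3 : ε * |t - c| ≤ ε * |c| + ε * |t| := by
      have := abs_sub t c
      nlinarith
    have h4 : Real.exp (ε * |t|) ≤ Real.exp (ε * t) + Real.exp (-ε * t) := by
      rcases abs_cases t with ⟨h5, _⟩ | ⟨h5, _⟩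
      · rw [h5]
        have := Real.exp_pos (-ε * t)
        linarith
      · rw [h5, mul_neg, neg_mul]
        have := Real.exp_pos (ε * t)
        linarith
    calc Real.exp (ε * |t - c|) ≤ Real.exp (ε * |c| + ε * |t|) := Real.exp_le_exp.2 h3
      _ = Real.exp (ε * |c|) * Real.exp (ε * |t|) := Real.exp_add _ _
      _ ≤ _ := mul_le_mul_of_nonneg_left h4 (Real.exp_pos _).le
  have h6 : (0 : ℝ) < p.factorial := by exact_mod_cast p.factorial_pos
  have h7 : (0 : ℝ) < ε ^ p := by positivity
  rw [div_le_iff₀ h6, mul_pow] at h1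
  have h8 : |t - c| ^ p ≤ Real.exp (ε * |t - c|) * p.factorial / ε ^ p := by
    rw [le_div_iff₀ h7]
    linarith
  refine h8.trans ?_
  calc Real.exp (ε * |t - c|) * p.factorial / ε ^ p =
        (p.factorial / ε ^ p) * Real.exp (ε * |t - c|) := by ring
    _ ≤ (p.factorial / ε ^ p) * (Real.exp (ε * |c|) *
        (Real.exp (ε * t) + Real.exp (-ε * t))) :=
      mul_le_mul_of_nonneg_left h2 (by positivity)
    _ = _ := by ring

private theorem logInt_dom {K : Set (Fin n → ℝ)} (h : Corner n K) (θ : Fin n → ℝ) (c : ℝ)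
    (p : ℕ) (F : (Fin n → ℝ) → ℝ) (hF : Measurable F) (hFb : ∀ x, ‖F x‖ ≤ |LL θ x - c| ^ p) :
    IntegrableOn F K := by
  obtain ⟨ε, hε⟩ : ∃ ε : ℝ, ε = (1 + ∑ i, |θ i|)⁻¹ := ⟨_, rfl⟩
  have hs : 0 ≤ ∑ i, |θ i| := Finset.sum_nonneg fun i _ => abs_nonneg _
  have hε0 : 0 < ε := by rw [hε]; positivity
  have hb : ∀ i, |ε * θ i| < 1 := by
    intro i
    have h1 : |θ i| ≤ ∑ i, |θ i| :=
      Finset.single_le_sum (f := fun i => |θ i|) (fun i _ => abs_nonneg _) (Finset.mem_univ i)
    rw [abs_mul, abs_of_pos hε0, hε, inv_mul_lt_iff₀ (by positivity)]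
    linarith
  have hb' : ∀ i, |(-ε) * θ i| < 1 := by
    intro i
    rw [neg_mul, abs_neg]
    exact hb i
  have hI := ((logInt_exp h θ hb).add (logInt_exp h θ hb')).const_mul
    (p.factorial / ε ^ p * Real.exp (ε * |c|))
  refine Integrable.mono' hI hF.aestronglyMeasurable (Filter.Eventually.of_forall fun x => ?_)
  exact (hFb x).trans (logInt_bound ε (LL θ x) hε0 c p)

private theorem logInt_single (i : Fin n) (x : Fin n → ℝ) :
    LL (Pi.single i 1) x = Real.log (x i) := by
  unfold LL
  rw [Finset.sum_eq_single i]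
  · simp
  · intro j _ hj
    rw [Pi.single_eq_of_ne hj, zero_mul]
  · intro hi
    exact absurd (Finset.mem_univ i) hi

theorem Corner.integrableOn_abs_log {K : Set (Fin n → ℝ)} (h : Corner n K) (i : Fin n) (p : ℕ) :
    IntegrableOn (fun x : Fin n → ℝ => |Real.log (x i)| ^ p) K := by
  refine logInt_dom h (Pi.single i 1) 0 p _ ?_ fun x => ?_
  · exact ((Real.measurable_log.comp (measurable_pi_apply i)).abs).pow_const p
  · rw [logInt_single, sub_zero, Real.norm_eq_abs, abs_pow, abs_abs]

theorem Corner.integrableOn_log {K : Set (Fin n → ℝ)} (h : Corner n K) (i : Fin n) (p : ℕ) :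
    IntegrableOn (fun x : Fin n → ℝ => Real.log (x i) ^ p) K := by
  refine logInt_dom h (Pi.single i 1) 0 p _ ?_ fun x => ?_
  · exact (Real.measurable_log.comp (measurable_pi_apply i)).pow_const p
  · rw [logInt_single, sub_zero, Real.norm_eq_abs, abs_pow]

theorem Corner.integrableOn_abs_LL {K : Set (Fin n → ℝ)} (h : Corner n K) (θ : Fin n → ℝ)
    (c : ℝ) (p : ℕ) : IntegrableOn (fun x : Fin n → ℝ => |LL θ x - c| ^ p) K := by
  refine logInt_dom h θ c p _ ?_ fun x => ?_
  · exact (((logInt_meas θ).sub_const c).abs).pow_const p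
  · rw [Real.norm_eq_abs, abs_pow, abs_abs]

theorem Corner.integrableOn_LL {K : Set (Fin n → ℝ)} (h : Corner n K) (θ : Fin n → ℝ) (c : ℝ)
    (p : ℕ) : IntegrableOn (fun x : Fin n → ℝ => (LL θ x - c) ^ p) K := by
  refine logInt_dom h θ c p _ ?_ fun x => ?_
  · exact ((logInt_meas θ).sub_const c).pow_const p
  · rw [Real.norm_eq_abs, abs_pow]

theorem Corner.integrableOn_exp_LL {K : Set (Fin n → ℝ)} (h : Corner n K) (θ : Fin n → ℝ) {a : ℝ}
    (ha : ∀ i, |a * θ i| < 1) :
    IntegrableOn (fun x : Fin n → ℝ => Real.exp (a * LL θ x)) K := by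
  exact logInt_exp h θ ha

end Vale.Agent.P254U
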