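import Vale.Agent.Lib.P254U.SliceConv
import Vale.Agent.Lib.P254U.Fub
import Vale.Agent.Lib.P254U.LogInt

/-!
P254U/BLin: the Cauchy-Schwarz (nestedness) inequality.

Let `H = top K`, `B = slice K t`, `w y = length of {u ∈ [t,H] : y ∈ slice K u}` for `y ∈ B` (this set is
an interval starting at `t`, because slices decrease).  Fubini on `B × [t,H]`
(`slice K u ⊆ B` for `u ≥ t`):
`∫_B w = ∫_t^H vol (slice K u) = vol K * SS K t`,
`∫_B LL θ * w = ∫_t^H ∫_{slice K u} LL θ = vol K * ∫_t^H ff K u * lamL (slice K u) θ`,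
`∫_B w^2 = 2 ∫_t^H (u - t) vol (slice K u) du = 2 vol K * RR K t`
(`w^2 = 2 ∫_t^H (u-t) 1[y ∈ slice K u] du` since the set is the interval `[t, t + w]`; and
`RR K t = ∫_t^H SS = ∫_t^H (u-t) ff u du`).
Hence with `λ = lamL B θ` and `c = SS K t / ff K t` (the mean of `w` over `B`)
`(1/vol K) ∫_B ((LL θ - λ) + k (w - c))^2 = ff * varL B θ + k^2 * GG K t - 2 k EE K θ t ≥ 0`.
(cross term: `(1/vol K) ∫_B (LL - λ) (w - c) = ∫_t^H ff u (lamL (slice u) - λ) du = - EE K θ t`.)
-/

open MeasureTheory Set

namespace Vale.Agent.P254U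

variable {n : ℕ}

private theorem BLin_ff_intervalIntegrable {K : Set (Fin (n + 1) → ℝ)} (h : Corner (n + 1) K)
    {a b : ℝ} (ha : 0 ≤ a) (hb : 0 ≤ b) : IntervalIntegrable (ff K) volume a b := by
  apply AntitoneOn.intervalIntegrable
  refine (ff_anti h).mono fun x hx => ?_
  exact le_trans (le_inf ha hb) hx.1

theorem RR_eq {K : Set (Fin (n + 1) → ℝ)} (h : Corner (n + 1) K) {t : ℝ} (h0 : 0 ≤ t)
    (ht : t ≤ top K) : RR K t = ∫ u in t..top K, (u - t) * ff K u := by
  have hI : Integrable (ff K) (volume.restrict (Ioc t (top K))) :=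
    (intervalIntegrable_iff_integrableOn_Ioc_of_le ht).mp
      (BLin_ff_intervalIntegrable h h0 (h0.trans ht))
  have h1 : RR K t = ∫ u in Ioc t (top K), ∫ v in Ioc t (top K),
      (Ioi u).indicator (ff K) v := by
    unfold RR
    rw [intervalIntegral.integral_of_le ht]
    refine setIntegral_congr_fun measurableSet_Ioc fun u hu => ?_
    unfold SS
    rw [intervalIntegral.integral_of_le hu.2, setIntegral_indicator measurableSet_Ioi]
    congr 1
    congr 1
    ext v
    constructor
    · intro hv
      exact ⟨⟨hu.1.trans hv.1, hv.2⟩, hv.1⟩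
    · intro hv
      exact ⟨hv.2, hv.1.2⟩
  have hS : MeasurableSet {p : ℝ × ℝ | p.1 < p.2} := measurableSet_lt measurable_fst measurable_snd
  have h2 : Integrable (fun p : ℝ × ℝ => (Ioi p.1).indicator (ff K) p.2)
      ((volume.restrict (Ioc t (top K))).prod (volume.restrict (Ioc t (top K)))) := by
    have h3 : Integrable (fun p : ℝ × ℝ => (fun _ : ℝ => (1 : ℝ)) p.1 * ff K p.2)
        ((volume.restrict (Ioc t (top K))).prod (volume.restrict (Ioc t (top K)))) :=
      Integrable.mul_prod (integrable_const (1 : ℝ)) hI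
    have h4 := h3.indicator hS
    refine h4.congr (Filter.Eventually.of_forall fun p => ?_)
    by_cases hp : p.1 < p.2
    · simp [indicator, hp]
    · simp [indicator, hp]
  rw [h1, integral_integral_swap h2, intervalIntegral.integral_of_le ht]
  refine setIntegral_congr_fun measurableSet_Ioc fun v hv => ?_
  have h5 : ∀ u, (Ioi u).indicator (ff K) v = (Iio v).indicator (fun _ => ff K v) u := by
    intro u
    by_cases hp : u < v
    · simp [indicator, hp]
    · simp [indicator, hp]
  simp only [h5]
  rw [setIntegral_indicator measurableSet_Iio]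
  have h6 : Ioc t (top K) ∩ Iio v = Ioo t v := by
    ext u
    constructor
    · intro hu
      exact ⟨hu.1.1, hu.2⟩
    · intro hu
      exact ⟨⟨hu.1, hu.2.le.trans hv.2⟩, hu.2⟩
  rw [h6, setIntegral_const, smul_eq_mul, measureReal_def, Real.volume_Ioo,
    ENNReal.toReal_ofReal (by linarith [hv.1])]

/-- the set of pairs -/
private theorem BLin_closed {K : Set (Fin (n + 1) → ℝ)} (h : Corner (n + 1) K) :
    IsClosed {p : (Fin n → ℝ) × ℝ | (Fin.cons p.2 p.1 : Fin (n + 1) → ℝ) ∈ K} := by
  refine h.compact.isClosed.preimage ?_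
  refine continuous_pi fun i => ?_
  refine Fin.cases ?_ (fun j => ?_) i
  · simp only [Fin.cons_zero]
    exact continuous_snd
  · simp only [Fin.cons_succ]
    exact (continuous_apply j).comp continuous_fst

/-- Fubini on `B × [t,H]` -/
private theorem BLin_swap {K : Set (Fin (n + 1) → ℝ)} (h : Corner (n + 1) K) {t : ℝ}
    (h0 : 0 ≤ t) (ht : t < top K) {φ : (Fin n → ℝ) → ℝ} (hφ : IntegrableOn φ (slice K t))
    {a : ℝ → ℝ} (ha : IntegrableOn a (Ioc t (top K))) :
    Integrable (fun y => φ y * ∫ u in Ioc t (top K), a u * (slice K u).indicator 1 y)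
      (volume.restrict (slice K t)) ∧
    ∫ y in slice K t, φ y * ∫ u in Ioc t (top K), a u * (slice K u).indicator 1 y
      = ∫ u in Ioc t (top K), a u * ∫ y in slice K u, φ y := by
  have h1 : Integrable (fun p : (Fin n → ℝ) × ℝ => φ p.1 * (a p.2 * (slice K p.2).indicator 1 p.1))
      ((volume.restrict (slice K t)).prod (volume.restrict (Ioc t (top K)))) := by
    have h3 : Integrable (fun p : (Fin n → ℝ) × ℝ => φ p.1 * a p.2)
        ((volume.restrict (slice K t)).prod (volume.restrict (Ioc t (top K)))) :=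
      Integrable.mul_prod hφ ha
    have h4 := h3.indicator (BLin_closed h).measurableSet
    refine h4.congr (Filter.Eventually.of_forall fun p => ?_)
    by_cases hp : (Fin.cons p.2 p.1 : Fin (n + 1) → ℝ) ∈ K
    · have hp' : p.1 ∈ slice K p.2 := hp
      simp only [indicator, mem_setOf_eq, hp, hp', if_true, Pi.one_apply, mul_one]
    · have hp' : p.1 ∉ slice K p.2 := hp
      simp only [indicator, mem_setOf_eq, hp, hp', if_false, mul_zero]
  have h2 : ∀ y, φ y * ∫ u in Ioc t (top K), a u * (slice K u).indicator 1 y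
      = ∫ u in Ioc t (top K), φ y * (a u * (slice K u).indicator 1 y) := by
    intro y
    rw [integral_const_mul]
  refine ⟨?_, ?_⟩
  · simp only [h2]
    exact h1.integral_prod_left
  · simp only [h2]
    rw [integral_integral_swap h1]
    refine setIntegral_congr_fun measurableSet_Ioc fun u hu => ?_
    have hsub : slice K u ⊆ slice K t := slice_anti h h0 hu.1.le
    have h5 : ∀ y, φ y * (a u * (slice K u).indicator 1 y) = a u * (slice K u).indicator φ y := by
      intro y
      by_cases hy : y ∈ slice K u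
      · simp only [indicator, hy, if_true, Pi.one_apply]
        ring
      · simp only [indicator, hy, if_false]
        ring
    simp only [h5]
    rw [integral_const_mul, setIntegral_indicator (slice_compact h u).measurableSet,
      inter_eq_self_of_subset_right hsub]

private theorem BLin_sq {K : Set (Fin (n + 1) → ℝ)} (h : Corner (n + 1) K) {t : ℝ}
    (h0 : 0 ≤ t) {y : Fin n → ℝ} (hy : y ∈ slice K t) :
    ∃ c : ℝ, 0 ≤ c ∧ c ≤ top K - t ∧
      ∫ u in Ioc t (top K), (1 : ℝ) * (slice K u).indicator 1 y = c ∧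
      ∫ u in Ioc t (top K), (u - t) * (slice K u).indicator 1 y = c ^ 2 / 2 := by
  set A : Set ℝ := {u | (Fin.cons u y : Fin (n + 1) → ℝ) ∈ K} with hA
  have hclosed : IsClosed A := by
    refine h.compact.isClosed.preimage ?_
    refine continuous_pi fun i => ?_
    refine Fin.cases ?_ (fun j => ?_) i
    · simp only [Fin.cons_zero]
      exact continuous_id
    · simp only [Fin.cons_succ]
      exact continuous_const
  have hne : A.Nonempty := ⟨t, hy⟩
  have hbdd : BddAbove A := by
    refine ⟨top K, fun u hu => ?_⟩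
    have := le_top h hu
    rwa [Fin.cons_zero] at this
  set H := sSup A with hH
  have hHA : H ∈ A := hclosed.csSup_mem hne hbdd
  have htH : t ≤ H := le_csSup hbdd hy
  have hHtop : H ≤ top K := by
    have := le_top h hHA
    rwa [Fin.cons_zero] at this
  have hiff : ∀ u, 0 ≤ u → (y ∈ slice K u ↔ u ≤ H) := by
    intro u hu
    constructor
    · intro hyu
      exact le_csSup hbdd hyu
    · intro huH
      exact slice_anti h hu huH hHA
  have hind : ∀ (a : ℝ → ℝ), ∫ u in Ioc t (top K), a u * (slice K u).indicator 1 y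
      = ∫ u in t..H, a u := by
    intro a
    rw [intervalIntegral.integral_of_le htH]
    have h1 : ∫ u in Ioc t (top K), a u * (slice K u).indicator 1 y
        = ∫ u in Ioc t (top K), (Iic H).indicator a u := by
      refine setIntegral_congr_fun measurableSet_Ioc fun u hu => ?_
      have h2 := hiff u (h0.trans hu.1.le)
      by_cases hy' : y ∈ slice K u
      · have h3 : u ≤ H := h2.mp hy'
        simp only [indicator, hy', mem_Iic, h3, if_true, Pi.one_apply, mul_one]
      · have h3 : ¬ u ≤ H := fun h4 => hy' (h2.mpr h4)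
        simp only [indicator, hy', mem_Iic, h3, if_false, mul_zero]
    rw [h1, setIntegral_indicator measurableSet_Iic]
    congr 2
    ext u
    constructor
    · intro hu
      exact ⟨hu.1.1, hu.2⟩
    · intro hu
      exact ⟨⟨hu.1, hu.2.trans hHtop⟩, hu.2⟩
  refine ⟨H - t, by linarith, by linarith, ?_, ?_⟩
  · rw [hind (fun _ => 1)]
    simp
  · rw [hind (fun u => u - t)]
    rw [intervalIntegral.integral_sub (by simp) (by simp)]
    simp only [integral_id, intervalIntegral.integral_const, smul_eq_mul]
    ring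

private theorem BLin_mean {m : ℕ} {B : Set (Fin m → ℝ)} (hB : volume B ≠ ⊤)
    (φ : (Fin m → ℝ) → ℝ) : vol B * mean B φ = ∫ y in B, φ y := by
  unfold mean
  by_cases h0 : vol B = 0
  · rw [h0, zero_mul]
    have h1 : volume B = 0 := by
      unfold vol at h0
      rcases (ENNReal.toReal_eq_zero_iff _).mp h0 with h2 | h2
      · exact h2
      · exact absurd h2 hB
    rw [Measure.restrict_eq_zero.mpr h1, integral_zero_measure]
  · field_simp

theorem blin {K : Set (Fin (n + 1) → ℝ)} (h : Corner (n + 1) K) {t : ℝ} (h0 : 0 ≤ t)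
    (ht : t < top K) (θ : Fin n → ℝ) (k : ℝ) :
    0 ≤ ff K t * varL (slice K t) θ + k ^ 2 * GG K t - 2 * k * EE K θ t := by
  have hB : Corner n (slice K t) := slice_corner h h0 ht
  have hvK : 0 < vol K := h.vol_pos
  have hvB : 0 < vol (slice K t) := hB.vol_pos
  have hffB : vol (slice K t) = ff K t * vol K := by
    unfold ff
    field_simp
  have hffpos : 0 < ff K t := ff_pos h ⟨h0, ht⟩
  have hffu : ∀ u, vol (slice K u) = ff K u * vol K := by
    intro u
    unfold ff
    field_simp
  set ν := volume.restrict (slice K t) with hν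
  have hfin : IsFiniteMeasure ν := ⟨by
    rw [hν, Measure.restrict_apply_univ]
    exact hB.volume_ne_top.lt_top⟩
  set l := lamL (slice K t) θ with hl
  set w : (Fin n → ℝ) → ℝ := fun y => ∫ u in Ioc t (top K), (1 : ℝ) * (slice K u).indicator 1 y
    with hw
  set c := SS K t / ff K t with hc
  have ha1 : IntegrableOn (fun _ : ℝ => (1 : ℝ)) (Ioc t (top K)) := by
    simp
  have ha2 : IntegrableOn (fun u : ℝ => u - t) (Ioc t (top K)) :=
    (Continuous.integrableOn_Ioc (by fun_prop))
  have hφi : Integrable (fun y => LL θ y - l) ν := by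
    have := hB.integrableOn_LL θ l 1
    simp only [pow_one] at this
    exact this
  have hφ2 : Integrable (fun y => (LL θ y - l) ^ 2) ν := hB.integrableOn_LL θ l 2
  have h1i : Integrable (fun _ : Fin n → ℝ => (1 : ℝ)) ν := integrable_const 1
  -- the integral of `w`
  obtain ⟨hwi', hwI'⟩ := BLin_swap h h0 ht (φ := fun _ => 1) h1i ha1
  have hwi : Integrable w ν := by
    refine hwi'.congr (Filter.Eventually.of_forall fun y => ?_)
    exact one_mul _
  have hSS : ∫ y, w y ∂ν = vol K * SS K t := by
    have e1 : ∫ y, w y ∂ν = ∫ y in slice K t, (1 : ℝ) * ∫ u in Ioc t (top K),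
        (1 : ℝ) * (slice K u).indicator 1 y :=
      integral_congr_ae (Filter.Eventually.of_forall fun y => (one_mul _).symm)
    rw [e1, hwI']
    unfold SS
    rw [intervalIntegral.integral_of_le ht.le, ← integral_const_mul]
    refine setIntegral_congr_fun measurableSet_Ioc fun u _ => ?_
    simp only [one_mul, integral_const, smul_eq_mul, mul_one]
    rw [measureReal_def, Measure.restrict_apply_univ]
    change vol (slice K u) = _
    rw [hffu u]
    ring
  -- the integral of `w ^ 2`
  have hwsq : ∀ y ∈ slice K t, w y ^ 2 = (2 : ℝ) * ∫ u in Ioc t (top K),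
      (u - t) * (slice K u).indicator 1 y := by
    intro y hy
    obtain ⟨d, _, _, hd1, hd2⟩ := BLin_sq h h0 hy
    have : w y = d := hd1
    rw [this, hd2]
    ring
  obtain ⟨hw2i', hw2I'⟩ := BLin_swap h h0 ht (φ := fun _ => 2) (integrable_const 2) ha2
  have hmB : MeasurableSet (slice K t) := hB.measurableSet
  have hw2i : Integrable (fun y => w y ^ 2) ν := by
    refine hw2i'.congr ?_
    filter_upwards [ae_restrict_mem hmB] with y hy
    exact (hwsq y hy).symm
  have hRR : ∫ y, w y ^ 2 ∂ν = vol K * (2 * RR K t) := by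
    have e1 : ∫ y, w y ^ 2 ∂ν = ∫ y in slice K t, (2 : ℝ) * ∫ u in Ioc t (top K),
        (u - t) * (slice K u).indicator 1 y := by
      rw [hν]
      exact setIntegral_congr_fun hmB fun y hy => hwsq y hy
    rw [e1, hw2I', RR_eq h h0 ht.le, intervalIntegral.integral_of_le ht.le,
      ← integral_const_mul, ← integral_const_mul]
    refine setIntegral_congr_fun measurableSet_Ioc fun u _ => ?_
    simp only [integral_const, smul_eq_mul]
    rw [measureReal_def, Measure.restrict_apply_univ]
    change (u - t) * (vol (slice K u) * 2) = _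
    rw [hffu u]
    ring
  -- the cross term
  obtain ⟨hcri, hcrI⟩ := BLin_swap h h0 ht (φ := fun y => LL θ y - l) hφi ha1
  have hffint : IntervalIntegrable (ff K) volume t (top K) :=
    BLin_ff_intervalIntegrable h h0 (h0.trans ht.le)
  obtain ⟨hLLi, hLLI⟩ := BLin_swap h h0 ht (φ := fun y => LL θ y)
    (by
      have := hB.integrableOn_LL θ 0 1
      simp only [sub_zero, pow_one] at this
      exact this) ha1
  have hcross : ∫ y, (LL θ y - l) * w y ∂ν = - (vol K * EE K θ t) := by
    have e0 : ∀ y, (LL θ y - l) * w y = LL θ y * w y - l * w y := fun y => by ring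
    simp only [e0]
    rw [integral_sub hLLi (hwi.const_mul l), integral_const_mul, hSS]
    have e1 : ∫ y, LL θ y * w y ∂ν = vol K * ∫ u in t..top K, ff K u * lamL (slice K u) θ := by
      rw [intervalIntegral.integral_of_le ht.le, ← integral_const_mul]
      refine Eq.trans hLLI ?_
      refine setIntegral_congr_fun measurableSet_Ioc fun u _ => ?_
      have e2 := BLin_mean (slice_compact h u).measure_lt_top.ne (LL θ)
      simp only [one_mul]
      rw [← e2, hffu u]
      unfold lamL
      ring
    rw [e1]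
    unfold EE
    ring
  have hφ0 : ∫ y, (LL θ y - l) ∂ν = 0 := by
    have e1 : Integrable (fun y => LL θ y) ν := by
      have := hB.integrableOn_LL θ 0 1
      simp only [sub_zero, pow_one] at this
      exact this
    rw [integral_sub e1 (integrable_const l)]
    have e2 := BLin_mean hB.volume_ne_top (LL θ)
    have e3 : ∫ y, LL θ y ∂ν = vol (slice K t) * l := by
      rw [hl]
      exact e2.symm
    rw [e3, integral_const, smul_eq_mul, measureReal_def, hν, Measure.restrict_apply_univ]
    change vol (slice K t) * l - vol (slice K t) * l = 0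
    ring
  have hvar : ∫ y, (LL θ y - l) ^ 2 ∂ν = vol (slice K t) * varL (slice K t) θ := by
    have e2 := BLin_mean hB.volume_ne_top (fun y => (LL θ y - l) ^ 2)
    exact e2.symm
  have hone : ∫ _y, (1 : ℝ) ∂ν = vol (slice K t) := by
    rw [integral_const, smul_eq_mul, mul_one, measureReal_def, hν, Measure.restrict_apply_univ]
    rfl
  -- the square
  have hsq : 0 ≤ ∫ y, ((LL θ y - l) + k * (w y - c)) ^ 2 ∂ν :=
    integral_nonneg fun y => sq_nonneg _
  have hexp : ∫ y, ((LL θ y - l) + k * (w y - c)) ^ 2 ∂ν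
      = vol (slice K t) * varL (slice K t) θ + (2 * k) * (- (vol K * EE K θ t))
        + k ^ 2 * (vol K * (2 * RR K t)) + (-(2 * k * c)) * 0
        + (-(2 * k ^ 2 * c)) * (vol K * SS K t) + (k ^ 2 * c ^ 2) * vol (slice K t) := by
    have e1 : ∀ y, ((LL θ y - l) + k * (w y - c)) ^ 2
        = (LL θ y - l) ^ 2 + (2 * k) * ((LL θ y - l) * w y) + k ^ 2 * w y ^ 2
          + (-(2 * k * c)) * (LL θ y - l) + (-(2 * k ^ 2 * c)) * w y
          + (k ^ 2 * c ^ 2) * (1 : ℝ) := fun y => by ring
    simp only [e1]
    have i1 := hφ2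
    have i2 : Integrable (fun y => (2 * k) * ((LL θ y - l) * w y)) ν := hcri.const_mul (2 * k)
    have i3 : Integrable (fun y => k ^ 2 * w y ^ 2) ν := hw2i.const_mul (k ^ 2)
    have i4 : Integrable (fun y => (-(2 * k * c)) * (LL θ y - l)) ν := hφi.const_mul _
    have i5 : Integrable (fun y => (-(2 * k ^ 2 * c)) * w y) ν := hwi.const_mul _
    have i6 : Integrable (fun _ : Fin n → ℝ => (k ^ 2 * c ^ 2) * (1 : ℝ)) ν :=
      h1i.const_mul _
    have j2 : Integrable (fun y => (LL θ y - l) ^ 2 + (2 * k) * ((LL θ y - l) * w y)) ν :=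
      i1.add i2
    have j3 : Integrable (fun y => (LL θ y - l) ^ 2 + (2 * k) * ((LL θ y - l) * w y)
        + k ^ 2 * w y ^ 2) ν := j2.add i3
    have j4 : Integrable (fun y => (LL θ y - l) ^ 2 + (2 * k) * ((LL θ y - l) * w y)
        + k ^ 2 * w y ^ 2 + (-(2 * k * c)) * (LL θ y - l)) ν := j3.add i4
    have j5 : Integrable (fun y => (LL θ y - l) ^ 2 + (2 * k) * ((LL θ y - l) * w y)
        + k ^ 2 * w y ^ 2 + (-(2 * k * c)) * (LL θ y - l) + (-(2 * k ^ 2 * c)) * w y) ν :=
      j4.add i5
    rw [integral_add j5 i6, integral_add j4 i5, integral_add j3 i4, integral_add j2 i3,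
      integral_add i1 i2,
      integral_const_mul, integral_const_mul, integral_const_mul, integral_const_mul,
      integral_const_mul, hone, hvar, hcross, hRR, hφ0, hSS]
  rw [hexp, hffB] at hsq
  have hfin2 : ff K t * vol K * varL (slice K t) θ + (2 * k) * (- (vol K * EE K θ t))
        + k ^ 2 * (vol K * (2 * RR K t)) + (-(2 * k * c)) * 0
        + (-(2 * k ^ 2 * c)) * (vol K * SS K t) + (k ^ 2 * c ^ 2) * (ff K t * vol K)
      = vol K * (ff K t * varL (slice K t) θ + k ^ 2 * GG K t - 2 * k * EE K θ t) := by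
    unfold GG
    rw [hc]
    field_simp
    ring
  rw [hfin2] at hsq
  exact nonneg_of_mul_nonneg_right hsq hvK

end Vale.Agent.P254U
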