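import Vale.Agent.Lib.P254U.Basic

/-!
P254U/Base: dimension one.  A corner in dimension one is `{x | 0 ≤ x 0 ≤ a}` with `a > 0`;
`vol = a`, mean of `log x` is `log a - 1`, mean of `(log x)^2` is `(log a)^2 - 2 log a + 2`.
-/

open MeasureTheory Set

namespace Vale.Agent.P254U

theorem base_int_log_sq {a : ℝ} (ha : 0 < a) :
    ∫ t in (0 : ℝ)..a, Real.log t ^ 2 =
      a * Real.log a ^ 2 - 2 * (a * Real.log a) + 2 * a := by
  set F : ℝ → ℝ := fun x => x * Real.log x ^ 2 - 2 * (x * Real.log x) + 2 * x with hF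
  have hcont : ContinuousOn F (Icc 0 a) := by
    have h1 : ContinuousOn (fun x : ℝ => x * Real.log x ^ 2) (Icc 0 a) := by
      have h2 : ContinuousOn
          (fun x : ℝ => 4 * (Real.sqrt x * Real.log (Real.sqrt x)) ^ 2) (Icc 0 a) := by
        have h3 : Continuous (fun x : ℝ => Real.sqrt x * Real.log (Real.sqrt x)) :=
          Real.continuous_mul_log.comp Real.continuous_sqrt
        exact ((h3.pow 2).const_mul 4 |>.continuousOn)
      refine h2.congr ?_
      intro x hx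
      show x * Real.log x ^ 2 = 4 * (Real.sqrt x * Real.log (Real.sqrt x)) ^ 2
      have hx0 : 0 ≤ x := hx.1
      rw [Real.log_sqrt hx0, mul_pow, Real.sq_sqrt hx0]
      ring
    have h4 : Continuous (fun x : ℝ => x * Real.log x) := Real.continuous_mul_log
    exact (h1.sub (h4.const_mul 2 |>.continuousOn)).add (continuous_id.const_mul 2 |>.continuousOn)
  have hderiv : ∀ x ∈ Ioo 0 a, HasDerivAt F (Real.log x ^ 2) x := by
    intro x hx
    have hx0 : x ≠ 0 := hx.1.ne'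
    have hl := Real.hasDerivAt_log hx0
    have h1 : HasDerivAt (fun x : ℝ => x * Real.log x ^ 2)
        (1 * Real.log x ^ 2 + x * ((2 : ℕ) * Real.log x ^ (2 - 1) * x⁻¹)) x :=
      (hasDerivAt_id x).mul (hl.pow 2)
    have h2 : HasDerivAt (fun x : ℝ => 2 * (x * Real.log x))
        (2 * (1 * Real.log x + x * x⁻¹)) x := ((hasDerivAt_id x).mul hl).const_mul 2
    have h3 : HasDerivAt (fun x : ℝ => 2 * x) (2 * 1) x := (hasDerivAt_id x).const_mul 2
    have := (h1.sub h2).add h3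
    have hxx : x * x⁻¹ = 1 := mul_inv_cancel₀ hx0
    have e : 1 * Real.log x ^ 2 + x * ((2 : ℕ) * Real.log x ^ (2 - 1) * x⁻¹) -
        2 * (1 * Real.log x + x * x⁻¹) + 2 * 1 = Real.log x ^ 2 := by
      have e2 : x * ((2 : ℕ) * Real.log x ^ (2 - 1) * x⁻¹) = 2 * Real.log x * (x * x⁻¹) := by
        push_cast
        ring
      rw [e2, hxx]
      ring
    rw [e] at this
    exact this
  have hint : IntervalIntegrable (fun t => Real.log t ^ 2) volume 0 a := by
    rw [intervalIntegrable_iff_integrableOn_Ioc_of_le ha.le]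
    exact intervalIntegral.integrableOn_deriv_of_nonneg hcont hderiv (fun x _ => sq_nonneg _)
  rw [intervalIntegral.integral_eq_sub_of_hasDerivAt_of_le ha.le hcont hderiv hint]
  simp [hF]

theorem base_shape {K : Set (Fin 1 → ℝ)} (h : Corner 1 K) :
    ∃ a : ℝ, 0 < a ∧ K = (MeasurableEquiv.funUnique (Fin 1) ℝ) ⁻¹' (Icc 0 a) := by
  obtain ⟨ε, hε, hεK⟩ := h.pos
  obtain ⟨z, hzK, hz⟩ := h.compact.exists_isMaxOn ⟨_, hεK⟩
    (f := fun x : Fin 1 → ℝ => x 0) (continuous_apply 0).continuousOn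
  refine ⟨z 0, lt_of_lt_of_le hε (hz hεK), ?_⟩
  ext x
  simp only [mem_preimage, mem_Icc]
  have hx : (MeasurableEquiv.funUnique (Fin 1) ℝ) x = x 0 := rfl
  rw [hx]
  constructor
  · intro hxK
    exact ⟨h.nonneg x hxK 0, hz hxK⟩
  · rintro ⟨h0, h1⟩
    refine h.down z hzK x ?_ ?_
    · intro i; rw [Subsingleton.elim i 0]; exact h0
    · intro i; rw [Subsingleton.elim i 0]; exact h1

theorem base_int {a : ℝ} (ha : 0 < a) (ψ : ℝ → ℝ) :
    ∫ x in (MeasurableEquiv.funUnique (Fin 1) ℝ) ⁻¹' (Icc 0 a), ψ (x 0) =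
      ∫ t in (0 : ℝ)..a, ψ t := by
  have hmp := volume_preserving_funUnique (Fin 1) ℝ
  have h1 := hmp.setIntegral_preimage_emb
    (MeasurableEquiv.funUnique (Fin 1) ℝ).measurableEmbedding ψ (Icc 0 a)
  have h2 : (fun x : Fin 1 → ℝ => ψ ((MeasurableEquiv.funUnique (Fin 1) ℝ) x)) =
      fun x => ψ (x 0) := rfl
  rw [intervalIntegral.integral_of_le ha.le, ← integral_Icc_eq_integral_Ioc, ← h1]
  rfl

theorem base_vol {a : ℝ} (ha : 0 < a) :
    vol ((MeasurableEquiv.funUnique (Fin 1) ℝ) ⁻¹' (Icc 0 a)) = a := by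
  have hmp := volume_preserving_funUnique (Fin 1) ℝ
  unfold vol
  have h1 : volume ((MeasurableEquiv.funUnique (Fin 1) ℝ) ⁻¹' (Icc 0 a)) =
      volume (Icc (0 : ℝ) a) :=
    hmp.measure_preimage measurableSet_Icc.nullMeasurableSet
  rw [h1, Real.volume_Icc]
  rw [ENNReal.toReal_ofReal (by linarith)]
  ring

theorem base_lm {a : ℝ} (ha : 0 < a) (i : Fin 1) :
    lm ((MeasurableEquiv.funUnique (Fin 1) ℝ) ⁻¹' (Icc 0 a)) i = Real.log a - 1 := by
  rw [Subsingleton.elim i 0]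
  unfold lm mean
  rw [base_int ha Real.log, base_vol ha, integral_log]
  field_simp
  simp
  ring

theorem base_lm2 {a : ℝ} (ha : 0 < a) (i : Fin 1) :
    lm2 ((MeasurableEquiv.funUnique (Fin 1) ℝ) ⁻¹' (Icc 0 a)) i =
      Real.log a ^ 2 - 2 * Real.log a + 2 := by
  rw [Subsingleton.elim i 0]
  unfold lm2 mean
  rw [base_int ha (fun t => Real.log t ^ 2), base_vol ha, base_int_log_sq ha]
  field_simp

theorem DTC_one {K : Set (Fin 1 → ℝ)} (h : Corner 1 K) : DTC K = 0 := by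
  obtain ⟨a, ha, rfl⟩ := base_shape h
  unfold DTC
  rw [base_vol ha]
  simp only [base_lm ha]
  simp

theorem VV_one {K : Set (Fin 1 → ℝ)} (h : Corner 1 K) (i : Fin 1) : VV K i = 0 := by
  obtain ⟨a, ha, rfl⟩ := base_shape h
  unfold VV
  rw [base_lm ha, base_lm2 ha]
  ring

end Vale.Agent.P254U
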