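import Vale.Agent.Lib.P254U.Defs

/-!
P254U/Basic: elementary facts on corners and their slices.
All statements are short; `top K` is attained because `K` is compact.
`slice_scale`: with `H = top K` the point `(t, r y)`, `r = (H - t)/(H - s)`, is the convex combination
`r (s, y) + (1 - r) (H, 0)`.
`slice_corner`: `slice K t` is compact (preimage of `K` under the closed embedding `y ↦ cons t y`);
positive point: combine a positive point `(ε,...,ε)` of `K` with `(top K, 0)` and go down.
-/

open MeasureTheory Set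

namespace Vale.Agent.P254U

variable {n : ℕ}

theorem Corner.measurableSet {K : Set (Fin n → ℝ)} (h : Corner n K) : MeasurableSet K :=
  h.compact.measurableSet

theorem Corner.volume_ne_top {K : Set (Fin n → ℝ)} (h : Corner n K) : volume K ≠ ⊤ :=
  h.compact.measure_lt_top.ne

theorem Corner.vol_pos {K : Set (Fin n → ℝ)} (h : Corner n K) : 0 < vol K := by
  obtain ⟨ε, hε, hK⟩ := h.pos
  have hsub : Set.Icc (0 : Fin n → ℝ) (fun _ => ε) ⊆ K := by
    intro y hy
    exact h.down _ hK y (fun i => hy.1 i) (fun i => hy.2 i)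
  have h1 : 0 < volume (Set.Icc (0 : Fin n → ℝ) (fun _ => ε)) := by
    rw [Real.volume_Icc_pi]
    refine CanonicallyOrderedAdd.prod_pos.mpr ?_
    intro i _
    simp [hε]
  have h2 : 0 < volume K := lt_of_lt_of_le h1 (measure_mono hsub)
  exact ENNReal.toReal_pos h2.ne' h.volume_ne_top

theorem Corner.zero_mem {K : Set (Fin n → ℝ)} (h : Corner n K) : (0 : Fin n → ℝ) ∈ K := by
  obtain ⟨ε, hε, hK⟩ := h.pos
  exact h.down _ hK 0 (fun i => le_rfl) (fun i => hε.le)

theorem basic_cont : Continuous
    (fun p : ℝ × (Fin n → ℝ) => (Fin.cons p.1 p.2 : Fin (n + 1) → ℝ)) := by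
  refine continuous_pi ?_
  intro i
  refine Fin.cases ?_ (fun j => ?_) i
  · simpa using continuous_fst
  · simp only [Fin.cons_succ]
    exact (continuous_apply j).comp continuous_snd

theorem basic_bdd {K : Set (Fin (n + 1) → ℝ)} (h : Corner (n + 1) K) :
    BddAbove {t : ℝ | (Fin.cons t (0 : Fin n → ℝ) : Fin (n + 1) → ℝ) ∈ K} := by
  obtain ⟨M, hM⟩ := (h.compact.image (continuous_apply (0 : Fin (n + 1)))).bddAbove
  refine ⟨M, ?_⟩
  intro t ht
  have := hM (Set.mem_image_of_mem _ ht)
  simpa using this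

theorem basic_slice_compact {K : Set (Fin (n + 1) → ℝ)} (h : Corner (n + 1) K) (t : ℝ) :
    IsCompact (slice K t) := by
  have e : slice K t = (fun x : Fin (n + 1) → ℝ => Fin.tail x) '' (K ∩ {x | x 0 = t}) := by
    ext y
    constructor
    · intro hy
      exact ⟨Fin.cons t y, ⟨hy, by simp⟩, by simp⟩
    · rintro ⟨x, ⟨hx, hx0⟩, rfl⟩
      have hx0' : x 0 = t := hx0
      change (Fin.cons t (Fin.tail x) : Fin (n + 1) → ℝ) ∈ K
      rw [← hx0', Fin.cons_self_tail]
      exact hx
  rw [e]
  refine IsCompact.image ?_ ?_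
  · exact h.compact.inter_right (isClosed_eq (continuous_apply 0) continuous_const)
  · exact continuous_pi (fun i => continuous_apply i.succ)

theorem top_pos {K : Set (Fin (n + 1) → ℝ)} (h : Corner (n + 1) K) : 0 < top K := by
  obtain ⟨ε, hε, hK⟩ := h.pos
  refine lt_of_lt_of_le hε (le_csSup (basic_bdd h) ?_)
  refine h.down _ hK _ ?_ ?_
  · intro i
    refine Fin.cases ?_ (fun j => ?_) i
    · simpa using hε.le
    · simp
  · intro i
    refine Fin.cases ?_ (fun j => ?_) i
    · simp
    · simpa using hε.le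

theorem cons_top_mem {K : Set (Fin (n + 1) → ℝ)} (h : Corner (n + 1) K) :
    (Fin.cons (top K) (0 : Fin n → ℝ) : Fin (n + 1) → ℝ) ∈ K := by
  have hne : ({t : ℝ | (Fin.cons t (0 : Fin n → ℝ) : Fin (n + 1) → ℝ) ∈ K}).Nonempty := by
    refine ⟨0, ?_⟩
    have e : (Fin.cons (0 : ℝ) (0 : Fin n → ℝ) : Fin (n + 1) → ℝ) = 0 := by
      funext i
      refine Fin.cases ?_ (fun j => ?_) i
      · simp
      · simp
    change (Fin.cons (0 : ℝ) (0 : Fin n → ℝ) : Fin (n + 1) → ℝ) ∈ K
    rw [e]
    exact h.zero_mem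
  have hcl : IsClosed {t : ℝ | (Fin.cons t (0 : Fin n → ℝ) : Fin (n + 1) → ℝ) ∈ K} := by
    refine IsClosed.preimage ?_ h.compact.isClosed
    exact basic_cont.comp (continuous_id.prodMk continuous_const)
  exact hcl.csSup_mem hne (basic_bdd h)

theorem le_top {K : Set (Fin (n + 1) → ℝ)} (h : Corner (n + 1) K) {x : Fin (n + 1) → ℝ}
    (hx : x ∈ K) : x 0 ≤ top K := by
  refine le_csSup (basic_bdd h) ?_
  refine h.down x hx _ ?_ ?_
  · intro i
    refine Fin.cases ?_ (fun j => ?_) i
    · simpa using h.nonneg x hx 0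
    · simp
  · intro i
    refine Fin.cases ?_ (fun j => ?_) i
    · simp
    · simpa using h.nonneg x hx j.succ

theorem slice_corner {K : Set (Fin (n + 1) → ℝ)} (h : Corner (n + 1) K) {t : ℝ} (h0 : 0 ≤ t)
    (ht : t < top K) : Corner n (slice K t) := by
  have hH : 0 < top K := lt_of_le_of_lt h0 ht
  refine ⟨basic_slice_compact h t, ?_, ?_, ?_, ?_⟩
  · intro y hy z hz a b ha hb hab
    have h1 := h.convex hy hz ha hb hab
    have e : a • (Fin.cons t y : Fin (n + 1) → ℝ) + b • (Fin.cons t z : Fin (n + 1) → ℝ)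
        = Fin.cons t (a • y + b • z) := by
      funext i
      refine Fin.cases ?_ (fun j => ?_) i
      · simp only [Pi.add_apply, Pi.smul_apply, Fin.cons_zero, smul_eq_mul]
        rw [← add_mul, hab, one_mul]
      · simp only [Pi.add_apply, Pi.smul_apply, Fin.cons_succ]
    rw [e] at h1
    exact h1
  · intro y hy i
    simpa using h.nonneg _ hy i.succ
  · intro y hy z hz hzy
    refine h.down _ hy _ ?_ ?_
    · intro i
      refine Fin.cases ?_ (fun j => ?_) i
      · simpa using h0
      · simpa using hz j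
    · intro i
      refine Fin.cases ?_ (fun j => ?_) i
      · simp
      · simpa using hzy j
  · obtain ⟨ε, hε, hK⟩ := h.pos
    set l : ℝ := (top K - t) / top K with hl
    have hl0 : 0 < l := div_pos (by linarith) hH
    have hl1 : l ≤ 1 := by
      rw [hl, div_le_one hH]; linarith
    have hlt : (1 - l) * top K = t := by
      rw [hl]; field_simp; ring
    refine ⟨l * ε, mul_pos hl0 hε, ?_⟩
    have h1 := h.convex hK (cons_top_mem h) hl0.le (sub_nonneg.mpr hl1) (by ring)
    refine h.down _ h1 _ ?_ ?_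
    · intro i
      refine Fin.cases ?_ (fun j => ?_) i
      · simpa using h0
      · simpa using (mul_pos hl0 hε).le
    · intro i
      refine Fin.cases ?_ (fun j => ?_) i
      · simp only [Pi.add_apply, Pi.smul_apply, Fin.cons_zero, smul_eq_mul]
        rw [hlt]
        have := mul_pos hl0 hε
        linarith
      · simp only [Pi.add_apply, Pi.smul_apply, Fin.cons_succ, smul_eq_mul, Pi.zero_apply,
          mul_zero, add_zero]
        exact le_rfl

theorem slice_eq_empty {K : Set (Fin (n + 1) → ℝ)} (h : Corner (n + 1) K) {t : ℝ}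
    (ht : t < 0 ∨ top K < t) : slice K t = ∅ := by
  ext y
  simp only [Set.mem_empty_iff_false, iff_false]
  intro hy
  rcases ht with ht | ht
  · have := h.nonneg _ hy 0
    simp only [Fin.cons_zero] at this
    linarith
  · have := le_top h hy
    simp only [Fin.cons_zero] at this
    linarith

theorem slice_compact {K : Set (Fin (n + 1) → ℝ)} (h : Corner (n + 1) K) (t : ℝ) :
    IsCompact (slice K t) := by
  exact basic_slice_compact h t

theorem slice_anti {K : Set (Fin (n + 1) → ℝ)} (h : Corner (n + 1) K) {s t : ℝ} (h0 : 0 ≤ s)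
    (hst : s ≤ t) : slice K t ⊆ slice K s := by
  intro y hy
  refine h.down _ hy _ ?_ ?_
  · intro i
    refine Fin.cases ?_ (fun j => ?_) i
    · simpa using h0
    · simpa using h.nonneg _ hy j.succ
  · intro i
    refine Fin.cases ?_ (fun j => ?_) i
    · simpa using hst
    · simp

theorem slice_scale {K : Set (Fin (n + 1) → ℝ)} (h : Corner (n + 1) K) {s t : ℝ} (h0 : 0 ≤ s)
    (hst : s ≤ t) (ht : t < top K) {y : Fin n → ℝ} (hy : y ∈ slice K s) :
    ((top K - t) / (top K - s)) • y ∈ slice K t := by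
  have hs : 0 < top K - s := by linarith
  set r : ℝ := (top K - t) / (top K - s) with hr
  have hr0 : 0 ≤ r := div_nonneg (by linarith) hs.le
  have hr1 : r ≤ 1 := by
    rw [hr, div_le_one hs]; linarith
  have hrs : r * (top K - s) = top K - t := by
    rw [hr]; field_simp
  have h1 := h.convex hy (cons_top_mem h) hr0 (sub_nonneg.mpr hr1) (by ring)
  have e : r • (Fin.cons s y : Fin (n + 1) → ℝ)
      + (1 - r) • (Fin.cons (top K) (0 : Fin n → ℝ) : Fin (n + 1) → ℝ)
        = Fin.cons t (r • y) := by
    funext i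
    refine Fin.cases ?_ (fun j => ?_) i
    · simp only [Pi.add_apply, Pi.smul_apply, Fin.cons_zero, smul_eq_mul]
      linarith
    · simp only [Pi.add_apply, Pi.smul_apply, Fin.cons_succ, smul_eq_mul, Pi.zero_apply,
        mul_zero, add_zero]
  rw [e] at h1
  exact h1

end Vale.Agent.P254U
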