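import Mathlib

/-!
P254U/LC1: the second moment of a log-concave tail.

Proof: with `f = F` on `(0,∞)` and `0` elsewhere, the claim is
`∫ (s^2 f) ⋆ f ≤ 2 ∫ (s f) ⋆ (s f)`, and this holds pointwise at every `m`: the product
`φ s = F s * F (m - s)` is symmetric about `m/2` and increasing on `(0, m/2)`, and
`∫_0^m (6 s (m - s) - m^2) ds = 0`.
-/

open MeasureTheory Set

namespace Vale.Agent.P254U

/-- the pointwise inequality on the diagonal `s + t = m` -/
theorem LC1_diag {F : ℝ → ℝ} (hm : Measurable F) (hnn : ∀ t, 0 ≤ t → 0 ≤ F t)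
    (four : ∀ x y t : ℝ, 0 ≤ x → x ≤ y → 0 ≤ t → F x * F (y + t) ≤ F y * F (x + t))
    (m : ℝ) (hm0 : 0 < m) :
    ∫ s in (0 : ℝ)..m, s ^ 2 * (F s * F (m - s)) ≤
      2 * ∫ s in (0 : ℝ)..m, s * (m - s) * (F s * F (m - s)) := by
  have hφm : Measurable fun s => F s * F (m - s) :=
    hm.mul (hm.comp (measurable_const.sub measurable_id))
  have hφb : ∀ s ∈ Ioc 0 m, ‖F s * F (m - s)‖ ≤ F (m / 2) * F (m / 2) := by
    intro s hs
    have h1 : 0 ≤ F s := hnn s hs.1.le
    have h2 : 0 ≤ F (m - s) := hnn _ (by linarith [hs.2])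
    rw [Real.norm_of_nonneg (mul_nonneg h1 h2)]
    rcases le_total s (m / 2) with h | h
    · have := four s (m / 2) (m / 2 - s) hs.1.le h (by linarith)
      rw [show m / 2 + (m / 2 - s) = m - s by ring, show s + (m / 2 - s) = m / 2 by ring] at this
      exact this
    · have := four (m - s) (m / 2) (s - m / 2) (by linarith [hs.2]) (by linarith) (by linarith)
      rw [show m / 2 + (s - m / 2) = s by ring, show m - s + (s - m / 2) = m / 2 by ring] at this
      rw [mul_comm (F s)]
      exact this
  have hφi : ∀ p : ℝ → ℝ, Continuous p →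
      IntervalIntegrable (fun s => p s * (F s * F (m - s))) volume 0 m := by
    intro p hp
    have h0 : IntervalIntegrable (fun s => F s * F (m - s)) volume 0 m := by
      rw [intervalIntegrable_iff_integrableOn_Ioc_of_le hm0.le]
      refine Measure.integrableOn_of_bounded (M := F (m / 2) * F (m / 2)) (by simp)
        hφm.aestronglyMeasurable ?_
      exact (ae_restrict_mem measurableSet_Ioc).mono fun s hs => hφb s hs
    exact h0.continuousOn_mul hp.continuousOn
  -- reflection
  have hr : ∫ s in (0 : ℝ)..m, (2 * s * (m - s) - s ^ 2) * (F s * F (m - s)) =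
      ∫ s in (0 : ℝ)..m, (2 * s * (m - s) - (m - s) ^ 2) * (F s * F (m - s)) := by
    have h := intervalIntegral.integral_comp_sub_left
      (fun s => (2 * s * (m - s) - s ^ 2) * (F s * F (m - s))) (a := 0) (b := m) m
    rw [sub_self, sub_zero] at h
    rw [← h]
    refine intervalIntegral.integral_congr fun s _ => ?_
    simp only [sub_sub_cancel]
    ring
  have hi1 := hφi (fun s => 2 * s * (m - s) - s ^ 2) (by fun_prop)
  have hi2 := hφi (fun s => 2 * s * (m - s) - (m - s) ^ 2) (by fun_prop)
  have hsum : 2 * ∫ s in (0 : ℝ)..m, (2 * s * (m - s) - s ^ 2) * (F s * F (m - s)) =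
      ∫ s in (0 : ℝ)..m, (6 * s * (m - s) - m ^ 2) * (F s * F (m - s)) := by
    rw [two_mul]
    nth_rewrite 2 [hr]
    rw [← intervalIntegral.integral_add hi1 hi2]
    refine intervalIntegral.integral_congr fun s _ => ?_
    ring
  -- comparison with the value at s₀
  obtain ⟨a, ha0, ham, ha⟩ : ∃ a : ℝ, 0 ≤ a ∧ a ≤ m / 2 ∧ 6 * a * (m - a) = m ^ 2 := by
    have h3 : √3 ^ 2 = 3 := Real.sq_sqrt (by norm_num)
    have h3p : 1 ≤ √3 := by
      rw [Real.le_sqrt (by norm_num) (by norm_num)]
      norm_num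
    have h3' : 0 < √3 := by linarith
    refine ⟨m * (1 - 1 / √3) / 2, ?_, ?_, ?_⟩
    · have : 1 / √3 ≤ 1 := by
        rw [div_le_one h3']
        exact h3p
      have : 0 ≤ 1 - 1 / √3 := by linarith
      positivity
    · have : 0 < 1 / √3 := by positivity
      nlinarith
    · have h4 : (1 / √3) ^ 2 = 1 / 3 := by
        rw [div_pow, h3, one_pow]
      have : 6 * (m * (1 - 1 / √3) / 2) * (m - m * (1 - 1 / √3) / 2) =
          m ^ 2 * (3 / 2 * (1 - (1 / √3) ^ 2)) := by ring
      rw [this, h4]
      ring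
  have hpt : ∀ s ∈ Icc 0 m, (6 * s * (m - s) - m ^ 2) * (F a * F (m - a)) ≤
      (6 * s * (m - s) - m ^ 2) * (F s * F (m - s)) := by
    intro s hs
    have hfac : 6 * s * (m - s) - m ^ 2 = 6 * ((s - a) * (m - s - a)) := by
      rw [← ha]
      ring
    rw [hfac]
    rcases le_total s a with h | h
    · have h1 := four s a (m - s - a) hs.1 h (by linarith)
      rw [show a + (m - s - a) = m - s by ring, show s + (m - s - a) = m - a by ring] at h1
      have h2 : 6 * ((s - a) * (m - s - a)) ≤ 0 := by
        have : 0 ≤ (a - s) * (m - s - a) := mul_nonneg (by linarith) (by linarith)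
        linarith
      exact mul_le_mul_of_nonpos_left h1 h2
    · rcases le_total s (m - a) with h' | h'
      · have h1 := four a s (m - a - s) ha0 h (by linarith)
        rw [show s + (m - a - s) = m - a by ring, show a + (m - a - s) = m - s by ring] at h1
        have h2 : 0 ≤ 6 * ((s - a) * (m - s - a)) := by
          have : 0 ≤ (s - a) * (m - s - a) := mul_nonneg (by linarith) (by linarith)
          linarith
        exact mul_le_mul_of_nonneg_left h1 h2
      · have h1 := four (m - s) a (s - a) (by linarith [hs.2]) (by linarith) (by linarith)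
        rw [show a + (s - a) = s by ring, show m - s + (s - a) = m - a by ring,
          mul_comm (F (m - s))] at h1
        have h2 : 6 * ((s - a) * (m - s - a)) ≤ 0 := by
          have : 0 ≤ (s - a) * (a - (m - s)) := mul_nonneg (by linarith) (by linarith)
          linarith
        exact mul_le_mul_of_nonpos_left h1 h2
  have hzero : ∫ s in (0 : ℝ)..m, (6 * s * (m - s) - m ^ 2) * (F a * F (m - a)) = 0 := by
    rw [intervalIntegral.integral_mul_const]
    have : ∫ s in (0 : ℝ)..m, (6 * s * (m - s) - m ^ 2) = 0 := by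
      have h : ∀ s : ℝ, HasDerivAt (fun s => 3 * m * s ^ 2 - 2 * s ^ 3 - m ^ 2 * s)
          (6 * s * (m - s) - m ^ 2) s := by
        intro s
        have h1 := (((hasDerivAt_pow 2 s).const_mul (3 * m)).sub
          ((hasDerivAt_pow 3 s).const_mul 2)).sub ((hasDerivAt_id s).const_mul (m ^ 2))
        refine h1.congr_deriv ?_
        norm_num
        ring
      rw [intervalIntegral.integral_eq_sub_of_hasDerivAt (fun s _ => h s)
        (by apply Continuous.intervalIntegrable; fun_prop)]
      ring
    rw [this, zero_mul]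
  have hfin : 0 ≤ ∫ s in (0 : ℝ)..m, (6 * s * (m - s) - m ^ 2) * (F s * F (m - s)) := by
    refine hzero.symm.le.trans (intervalIntegral.integral_mono_on hm0.le ?_
      (hφi (fun s => 6 * s * (m - s) - m ^ 2) (by fun_prop)) hpt)
    apply Continuous.intervalIntegrable
    fun_prop
  have hsplit : ∫ s in (0 : ℝ)..m, (2 * s * (m - s) - s ^ 2) * (F s * F (m - s)) =
      2 * (∫ s in (0 : ℝ)..m, s * (m - s) * (F s * F (m - s))) -
        ∫ s in (0 : ℝ)..m, s ^ 2 * (F s * F (m - s)) := by
    rw [← intervalIntegral.integral_const_mul, ← intervalIntegral.integral_sub]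
    · refine intervalIntegral.integral_congr fun s _ => ?_
      ring
    · exact (hφi (fun s => s * (m - s)) (by fun_prop)).const_mul 2
    · exact hφi (fun s => s ^ 2) (by fun_prop)
  linarith

theorem logconcave_second_moment {F : ℝ → ℝ} (hm : Measurable F) (hnn : ∀ t, 0 ≤ t → 0 ≤ F t)
    (four : ∀ x y t : ℝ, 0 ≤ x → x ≤ y → 0 ≤ t → F x * F (y + t) ≤ F y * F (x + t))
    (h0 : IntegrableOn F (Ioi 0)) (h1 : IntegrableOn (fun t => t * F t) (Ioi 0))
    (h2 : IntegrableOn (fun t => t ^ 2 * F t) (Ioi 0)) :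
    (∫ t in Ioi (0 : ℝ), F t) * (∫ t in Ioi (0 : ℝ), t ^ 2 * F t) ≤
      2 * (∫ t in Ioi (0 : ℝ), t * F t) ^ 2 := by
  have i0 : Integrable ((Ioi (0 : ℝ)).indicator F) :=
    (integrable_indicator_iff measurableSet_Ioi).mpr h0
  have i1 : Integrable ((Ioi (0 : ℝ)).indicator fun t => t * F t) :=
    (integrable_indicator_iff measurableSet_Ioi).mpr h1
  have i2 : Integrable ((Ioi (0 : ℝ)).indicator fun t => t ^ 2 * F t) :=
    (integrable_indicator_iff measurableSet_Ioi).mpr h2
  have c11 := integral_convolution (ContinuousLinearMap.mul ℝ ℝ) i1 i1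
  have c20 := integral_convolution (ContinuousLinearMap.mul ℝ ℝ) i2 i0
  have j11 := i1.integrable_convolution (ContinuousLinearMap.mul ℝ ℝ) i1
  have j20 := i2.integrable_convolution (ContinuousLinearMap.mul ℝ ℝ) i0
  rw [ContinuousLinearMap.mul_apply', integral_indicator measurableSet_Ioi] at c11
  rw [ContinuousLinearMap.mul_apply', integral_indicator measurableSet_Ioi,
    integral_indicator measurableSet_Ioi] at c20
  rw [sq, mul_comm (∫ t in Ioi (0 : ℝ), F t), ← c11, ← c20, ← integral_const_mul]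
  refine integral_mono j20 (j11.const_mul 2) fun m => ?_
  have e20 : ∀ t, (ContinuousLinearMap.mul ℝ ℝ)
      ((Ioi (0 : ℝ)).indicator (fun t => t ^ 2 * F t) t) ((Ioi (0 : ℝ)).indicator F (m - t)) =
      (Ioo 0 m).indicator (fun s => s ^ 2 * (F s * F (m - s))) t := by
    intro t
    rw [ContinuousLinearMap.mul_apply']
    by_cases ht : t ∈ Ioo 0 m
    · rw [indicator_of_mem ht, indicator_of_mem (show t ∈ Ioi (0 : ℝ) from ht.1),
        indicator_of_mem (show m - t ∈ Ioi (0 : ℝ) from sub_pos.mpr ht.2)]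
      ring
    · rw [indicator_of_notMem ht]
      by_cases h1 : 0 < t
      · have h2 : ¬ (m - t ∈ Ioi (0 : ℝ)) := fun h => ht ⟨h1, sub_pos.mp h⟩
        rw [indicator_of_notMem h2, mul_zero]
      · rw [indicator_of_notMem (show t ∉ Ioi (0 : ℝ) from h1), zero_mul]
  have e11 : ∀ t, (ContinuousLinearMap.mul ℝ ℝ)
      ((Ioi (0 : ℝ)).indicator (fun t => t * F t) t)
      ((Ioi (0 : ℝ)).indicator (fun t => t * F t) (m - t)) =
      (Ioo 0 m).indicator (fun s => s * (m - s) * (F s * F (m - s))) t := by
    intro t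
    rw [ContinuousLinearMap.mul_apply']
    by_cases ht : t ∈ Ioo 0 m
    · rw [indicator_of_mem ht, indicator_of_mem (show t ∈ Ioi (0 : ℝ) from ht.1),
        indicator_of_mem (show m - t ∈ Ioi (0 : ℝ) from sub_pos.mpr ht.2)]
      ring
    · rw [indicator_of_notMem ht]
      by_cases h1 : 0 < t
      · have h2 : ¬ (m - t ∈ Ioi (0 : ℝ)) := fun h => ht ⟨h1, sub_pos.mp h⟩
        rw [indicator_of_notMem h2, mul_zero]
      · rw [indicator_of_notMem (show t ∉ Ioi (0 : ℝ) from h1), zero_mul]
  simp only [convolution_def, e20, e11]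
  rw [integral_indicator measurableSet_Ioo, integral_indicator measurableSet_Ioo,
    ← integral_Ioc_eq_integral_Ioo, ← integral_Ioc_eq_integral_Ioo]
  rcases le_or_gt m 0 with hm0 | hm0
  · rw [Ioc_eq_empty (not_lt.mpr hm0)]
    simp
  · rw [← intervalIntegral.integral_of_le hm0.le, ← intervalIntegral.integral_of_le hm0.le]
    exact LC1_diag hm hnn four m hm0

end Vale.Agent.P254U
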