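import Vale.Agent.Lib.P254U.Basic

/-!
P254U/Perm: permutation of coordinates (`volume_measurePreserving_piCongrLeft` or
`MeasureTheory.volume_preserving_piCongrLeft`; the map `y ↦ y ∘ σ` preserves Lebesgue measure).
-/

open MeasureTheory Set

namespace Vale.Agent.P254U

variable {n : ℕ}

def permSet (σ : Equiv.Perm (Fin n)) (K : Set (Fin n → ℝ)) : Set (Fin n → ℝ) :=
  {y | (fun i => y (σ i)) ∈ K}

theorem Corner.perm {K : Set (Fin n → ℝ)} (h : Corner n K) (σ : Equiv.Perm (Fin n)) :
    Corner n (permSet σ K) := by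
  refine ⟨?_, ?_, ?_, ?_, ?_⟩
  · have h1 : permSet σ K = (fun (x : Fin n → ℝ) (i : Fin n) => x (σ.symm i)) '' K := by
      ext y
      constructor
      · intro hy
        exact ⟨fun i => y (σ i), hy, by funext i; simp⟩
      · rintro ⟨x, hx, rfl⟩
        simpa [permSet] using hx
    rw [h1]
    exact h.compact.image (by fun_prop)
  · intro x hx y hy a b ha hb hab
    exact h.convex hx hy ha hb hab
  · intro x hx i
    have := h.nonneg _ hx (σ.symm i)
    simpa using this
  · intro x hx y hy0 hyx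
    exact h.down _ hx _ (fun i => hy0 (σ i)) (fun i => hyx (σ i))
  · obtain ⟨ε, hε, h1⟩ := h.pos
    exact ⟨ε, hε, h1⟩

theorem Perm_mp (σ : Equiv.Perm (Fin n)) :
    MeasurePreserving (MeasurableEquiv.piCongrLeft (fun _ : Fin n => ℝ) σ.symm)
      volume volume :=
  volume_measurePreserving_piCongrLeft (fun _ : Fin n => ℝ) σ.symm

theorem Perm_apply (σ : Equiv.Perm (Fin n)) (y : Fin n → ℝ) :
    MeasurableEquiv.piCongrLeft (fun _ : Fin n => ℝ) σ.symm y = fun i => y (σ i) := by
  funext i
  have h1 : i = σ.symm (σ i) := (σ.symm_apply_apply i).symm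
  conv_lhs => rw [h1]
  exact Equiv.piCongrLeft_apply_apply (fun _ : Fin n => ℝ) σ.symm y (σ i)

theorem Perm_preimage (σ : Equiv.Perm (Fin n)) (K : Set (Fin n → ℝ)) :
    permSet σ K = MeasurableEquiv.piCongrLeft (fun _ : Fin n => ℝ) σ.symm ⁻¹' K := by
  ext y
  rw [mem_preimage, Perm_apply]
  rfl

theorem vol_perm {K : Set (Fin n → ℝ)} (h : Corner n K) (σ : Equiv.Perm (Fin n)) :
    vol (permSet σ K) = vol K := by
  unfold vol
  rw [Perm_preimage, (Perm_mp σ).measure_preimage h.measurableSet.nullMeasurableSet]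

theorem mean_perm {K : Set (Fin n → ℝ)} (h : Corner n K) (σ : Equiv.Perm (Fin n))
    (φ : (Fin n → ℝ) → ℝ) :
    mean (permSet σ K) φ = mean K (fun x => φ (fun i => x (σ.symm i))) := by
  unfold mean
  rw [vol_perm h σ, Perm_preimage,
    ← (Perm_mp σ).setIntegral_preimage_emb (MeasurableEquiv.measurableEmbedding _)
      (fun x => φ (fun i => x (σ.symm i))) K]
  congr 1
  refine setIntegral_congr_fun ?_ fun y _ => ?_
  · exact (Perm_mp σ).measurable h.measurableSet
  · rw [Perm_apply]
    simp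

end Vale.Agent.P254U
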