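import Vale.Agent.Lib.P254U.Cone
import Vale.Agent.Lib.P254U.LC1
import Vale.Agent.Lib.P254U.Perm

/-!
P254U/Ber: Berwald type moment comparison for all coordinates.

By `logconcave_second_moment` for `coneF K` and `coneF_moment`:
`(n+1)! vol K * (n+3)! ∫_K x_0^2 ≤ 2 ((n+2)! ∫_K x_0)^2`, i.e.
`mean (x_0^2) ≤ 2 (n+2)/(n+3) * (mean x_0)^2`.  Other coordinates by `permSet (swap 0 i)`.
-/

open MeasureTheory Set

namespace Vale.Agent.P254U

variable {n : ℕ}

private theorem Ber_zero {K : Set (Fin (n + 1) → ℝ)} (h : Corner (n + 1) K) :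
    mean K (fun x => x 0 ^ 2) ≤
      2 * ((n : ℝ) + 2) / ((n : ℝ) + 3) * mean K (fun x => x 0) ^ 2 := by
  obtain ⟨i0, m0⟩ := coneF_moment h 0
  obtain ⟨i1, m1⟩ := coneF_moment h 1
  obtain ⟨i2, m2⟩ := coneF_moment h 2
  simp only [pow_zero, one_mul] at i0 m0
  simp only [pow_one] at i1 m1
  have key := logconcave_second_moment (coneF_measurable h) (fun t _ => coneF_nonneg h t)
    (fun x y t hx hxy ht => coneF_four h hx hxy ht) i0 i1 i2
  rw [m0, m1, m2] at key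
  have hV := h.vol_pos
  have hc : ∫ _x in K, (1 : ℝ) = vol K := by
    simp [vol, Measure.real]
  rw [hc] at key
  set V := vol K with hVd
  set a := ∫ x in K, x 0 with ha
  set b := ∫ x in K, x 0 ^ 2 with hb
  have f1 : (((n + 1 + 1).factorial : ℕ) : ℝ) = ((n : ℝ) + 2) * ((n + 1).factorial : ℝ) := by
    rw [Nat.factorial_succ]; push_cast; ring
  have f2 : (((n + 1 + 2).factorial : ℕ) : ℝ) =
      ((n : ℝ) + 3) * (((n : ℝ) + 2) * ((n + 1).factorial : ℝ)) := by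
    rw [show n + 1 + 2 = (n + 1 + 1) + 1 from rfl, Nat.factorial_succ]
    push_cast
    rw [f1]; ring
  rw [Nat.add_zero, f1, f2] at key
  set c : ℝ := ((n + 1).factorial : ℝ) with hcd
  have hc0 : 0 < c := by rw [hcd]; exact_mod_cast Nat.factorial_pos _
  have hn2 : (0 : ℝ) < (n : ℝ) + 2 := by positivity
  have hn3 : (0 : ℝ) < (n : ℝ) + 3 := by positivity
  have h2 : (c ^ 2 * ((n : ℝ) + 2)) * (((n : ℝ) + 3) * (V * b)) ≤
      (c ^ 2 * ((n : ℝ) + 2)) * (2 * ((n : ℝ) + 2) * a ^ 2) := by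
    calc (c ^ 2 * ((n : ℝ) + 2)) * (((n : ℝ) + 3) * (V * b))
        = c * V * (((n : ℝ) + 3) * (((n : ℝ) + 2) * c) * b) := by ring
      _ ≤ 2 * (((n : ℝ) + 2) * c * a) ^ 2 := key
      _ = _ := by ring
  have h3 := le_of_mul_le_mul_left h2 (by positivity)
  change b / V ≤ 2 * ((n : ℝ) + 2) / ((n : ℝ) + 3) * (a / V) ^ 2
  have h4 : 2 * ((n : ℝ) + 2) / ((n : ℝ) + 3) * (a / V) ^ 2 =
      (2 * ((n : ℝ) + 2) * a ^ 2) / (((n : ℝ) + 3) * V ^ 2) := by
    field_simp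
  rw [h4, div_le_div_iff₀ hV (by positivity)]
  have h5 := mul_le_mul_of_nonneg_right h3 hV.le
  calc b * (((n : ℝ) + 3) * V ^ 2) = ((n : ℝ) + 3) * (V * b) * V := by ring
    _ ≤ 2 * ((n : ℝ) + 2) * a ^ 2 * V := h5

theorem berwald {K : Set (Fin (n + 1) → ℝ)} (h : Corner (n + 1) K) (i : Fin (n + 1)) :
    mean K (fun x => x i ^ 2) ≤
      2 * ((n : ℝ) + 2) / ((n : ℝ) + 3) * mean K (fun x => x i) ^ 2 := by
  have h1 := Ber_zero (h.perm (Equiv.swap 0 i))
  rw [mean_perm h, mean_perm h, Equiv.symm_swap] at h1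
  simpa using h1

end Vale.Agent.P254U
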