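import Vale.Agent.Lib.P254U.Basic

/-!
P254U/CV: the change of variables `x_i = exp (v_i / β_i)` on `ℝ^n`.
Either induction on `n` with Fubini (one dimensional case:
`∫⁻ v, φ (exp (v/β)) * exp v = β ∫⁻ x in Ioi 0, φ x * x^(β-1)`), or
`lintegral_image_eq_lintegral_abs_det_fderiv_mul` for the coordinatewise map.
-/

open MeasureTheory Set
open scoped ENNReal

namespace Vale.Agent.P254U

private theorem CV_det (n : ℕ) (d : Fin n → ℝ) :
    (ContinuousLinearMap.pi fun i : Fin n =>
      d i • ContinuousLinearMap.proj (R := ℝ) (φ := fun _ : Fin n => ℝ) i).det = ∏ i, d i := by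
  have h1 : ((ContinuousLinearMap.pi fun i : Fin n =>
      d i • ContinuousLinearMap.proj (R := ℝ) (φ := fun _ : Fin n => ℝ) i :
        (Fin n → ℝ) →L[ℝ] (Fin n → ℝ)) : (Fin n → ℝ) →ₗ[ℝ] (Fin n → ℝ)) =
      Matrix.toLin' (Matrix.diagonal d) := by
    refine LinearMap.ext fun v => ?_
    funext i
    rw [Matrix.toLin'_apply, Matrix.mulVec_diagonal]
    rfl
  rw [ContinuousLinearMap.det, h1, LinearMap.det_toLin', Matrix.det_diagonal]

private theorem CV_gen (n : ℕ) (c β : Fin n → ℝ) (hc : ∀ i, 0 < c i) (hβ : ∀ i, 0 < β i)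
    (g : (Fin n → ℝ) → ℝ≥0∞) :
    ∫⁻ x in {x : Fin n → ℝ | ∀ i, 0 < x i}, g x =
      ∫⁻ v : Fin n → ℝ, ENNReal.ofReal (∏ i, c i * (Real.exp (v i / β i) * (1 / β i))) *
        g (fun i => c i * Real.exp (v i / β i)) := by
  have himg : (fun (v : Fin n → ℝ) (i : Fin n) => c i * Real.exp (v i / β i)) '' univ =
      {x : Fin n → ℝ | ∀ i, 0 < x i} := by
    ext x
    constructor
    · rintro ⟨v, _, rfl⟩ i
      exact mul_pos (hc i) (Real.exp_pos _)
    · intro hx
      refine ⟨fun i => β i * Real.log (x i / c i), mem_univ _, ?_⟩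
      funext i
      have h1 : β i * Real.log (x i / c i) / β i = Real.log (x i / c i) :=
        mul_div_cancel_left₀ _ (hβ i).ne'
      show c i * Real.exp (β i * Real.log (x i / c i) / β i) = x i
      rw [h1, Real.exp_log (div_pos (hx i) (hc i)), mul_div_cancel₀ _ (hc i).ne']
  have hinj : InjOn (fun (v : Fin n → ℝ) (i : Fin n) => c i * Real.exp (v i / β i)) univ := by
    intro v _ w _ hvw
    funext i
    have h1 : c i * Real.exp (v i / β i) = c i * Real.exp (w i / β i) := congrFun hvw i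
    have h2 := Real.exp_injective (mul_left_cancel₀ (hc i).ne' h1)
    exact (div_left_inj' (hβ i).ne').mp h2
  have hder : ∀ v ∈ (univ : Set (Fin n → ℝ)), HasFDerivWithinAt
      (fun (v : Fin n → ℝ) (i : Fin n) => c i * Real.exp (v i / β i))
      (ContinuousLinearMap.pi fun i : Fin n =>
        (c i * (Real.exp (v i / β i) * (1 / β i))) •
          ContinuousLinearMap.proj (R := ℝ) (φ := fun _ : Fin n => ℝ) i) univ v := by
    intro v _
    refine HasFDerivAt.hasFDerivWithinAt (hasFDerivAt_pi.mpr fun i => ?_)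
    have h1 : HasDerivAt (fun t : ℝ => c i * Real.exp (t / β i))
        (c i * (Real.exp (v i / β i) * (1 / β i))) (v i) :=
      (((hasDerivAt_id (v i)).div_const (β i)).exp).const_mul (c i)
    have h2 : HasFDerivAt (fun v : Fin n → ℝ => v i)
        (ContinuousLinearMap.proj (R := ℝ) (φ := fun _ : Fin n => ℝ) i) v :=
      (ContinuousLinearMap.proj (R := ℝ) (φ := fun _ : Fin n => ℝ) i).hasFDerivAt
    exact HasDerivAt.comp_hasFDerivAt (h₂ := fun t : ℝ => c i * Real.exp (t / β i))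
      (f := fun v : Fin n → ℝ => v i) v h1 h2
  have h1 := lintegral_image_eq_lintegral_abs_det_fderiv_mul volume MeasurableSet.univ hder hinj g
  rw [himg, Measure.restrict_univ] at h1
  rw [h1]
  refine lintegral_congr fun v => ?_
  rw [CV_det, abs_of_pos (Finset.prod_pos fun i _ => mul_pos (hc i) (mul_pos (Real.exp_pos _)
    (one_div_pos.mpr (hβ i))))]

theorem cv (n : ℕ) (β : Fin n → ℝ) (hβ : ∀ i, 0 < β i) {φ : (Fin n → ℝ) → ℝ≥0∞}
    (hφ : Measurable φ) :
    ∫⁻ v : Fin n → ℝ, φ (fun i => Real.exp (v i / β i)) * ENNReal.ofReal (Real.exp (∑ i, v i)) =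
      ENNReal.ofReal (∏ i, β i) *
        ∫⁻ x in {x : Fin n → ℝ | ∀ i, 0 < x i},
          φ x * ENNReal.ofReal (∏ i, x i ^ (β i - 1)) := by
  have _ := hφ
  rw [CV_gen n (fun _ => 1) β (fun _ => one_pos) hβ, ← lintegral_const_mul' _ _ ENNReal.ofReal_ne_top]
  refine lintegral_congr fun v => ?_
  simp only [one_mul]
  have hβp : (0 : ℝ) ≤ ∏ i, β i := Finset.prod_nonneg fun i _ => (hβ i).le
  have h1 : (0 : ℝ) ≤ ∏ i, Real.exp (v i / β i) * (1 / β i) :=
    Finset.prod_nonneg fun i _ => mul_nonneg (Real.exp_pos _).le (one_div_pos.mpr (hβ i)).le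
  have h2 : (∏ i, β i) * ((∏ i, Real.exp (v i / β i) * (1 / β i)) *
      ∏ i, Real.exp (v i / β i) ^ (β i - 1)) = Real.exp (∑ i, v i) := by
    rw [← Finset.prod_mul_distrib, ← Finset.prod_mul_distrib, Real.exp_sum]
    refine Finset.prod_congr rfl fun i _ => ?_
    rw [← Real.exp_mul]
    have h3 : Real.exp (v i) = Real.exp (v i / β i) * Real.exp (v i / β i * (β i - 1)) := by
      rw [← Real.exp_add]
      congr 1
      have := (hβ i).ne'
      field_simp
      ring
    rw [h3]
    have := (hβ i).ne'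
    field_simp
  rw [← h2, ENNReal.ofReal_mul hβp, ENNReal.ofReal_mul h1]
  ring

/-- the special case of exponents one with scaling factors `c_i` -/
theorem cv_scaled (n : ℕ) (c : Fin n → ℝ) (hc : ∀ i, 0 < c i) {A : Set (Fin n → ℝ)}
    (hA : MeasurableSet A) (hpos : ∀ x ∈ A, ∀ i, 0 ≤ x i) :
    ∫⁻ v : Fin n → ℝ, A.indicator 1 (fun i => c i * Real.exp (v i)) *
        ENNReal.ofReal (Real.exp (∑ i, v i)) =
      ENNReal.ofReal (∏ i, (c i)⁻¹) * volume A := by
  have h1 : ∫⁻ x in {x : Fin n → ℝ | ∀ i, 0 < x i}, A.indicator 1 x = volume A := by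
    rw [lintegral_indicator_one₀ hA.nullMeasurableSet, Measure.restrict_apply hA]
    refine measure_inter_conull' (measure_mono_null (t := ⋃ i, {x : Fin n → ℝ | x i = 0}) ?_
      (measure_iUnion_null fun i => Measure.pi_hyperplane (fun _ : Fin n => (volume : Measure ℝ)) i 0))
    rintro x ⟨hxA, hx⟩
    by_contra hcon
    refine hx fun i => lt_of_le_of_ne (hpos x hxA i) fun h0 => hcon ?_
    exact mem_iUnion.mpr ⟨i, h0.symm⟩
  have h2 := CV_gen n c (fun _ => 1) hc (fun _ => one_pos) (A.indicator 1)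
  rw [h1] at h2
  rw [h2, ← lintegral_const_mul' _ _ ENNReal.ofReal_ne_top]
  refine lintegral_congr fun v => ?_
  have hcp : (0 : ℝ) ≤ ∏ i, (c i)⁻¹ := Finset.prod_nonneg fun i _ => (inv_pos.mpr (hc i)).le
  have h3 : Real.exp (∑ i, v i) = (∏ i, (c i)⁻¹) * ∏ i, c i * (Real.exp (v i / 1) * (1 / 1)) := by
    rw [← Finset.prod_mul_distrib, Real.exp_sum]
    refine Finset.prod_congr rfl fun i _ => ?_
    have := (hc i).ne'
    rw [div_one, div_one, mul_one]
    field_simp
  rw [h3, ENNReal.ofReal_mul hcp]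
  simp only [div_one]
  ring

end Vale.Agent.P254U
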