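import Vale.Agent.Lib.P254U.PLG
import Vale.Agent.Lib.P254U.Fub

/-!
P254U/Cone: the exponential cone measure over a corner `K` of dimension `n + 1`.

`coneF K t = ∫_{r>0} exp(-r) * vol (slice (r • K) t) dr` is the density at `x_0 = t` of the measure
`∫_{r>0} exp(-r) 1[x ∈ r • K] dr dx`.

`coneF_four`: by `pl_gen` on `Fin (n+1) → ℝ` (coordinates `(r, y)`) applied to
`(r,y) ↦ exp(-r) 1[r > 0, (t,y) ∈ r • K]`: if `(t,y) ∈ r • K`, `(s,y') ∈ r' • K` then the convex
combination lies in `((1-l) r + l r') • K`.  So `coneF` is log-concave on `[0,∞)` with all weights,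
and the four point form follows (`w = y+t > x`, `l = (y-x)/(w-x)`:
`F y ≥ F x^(1-l) F w^l`, `F (x+t) ≥ F x^l F w^(1-l)`).

`coneF_moment`: `∫ t^k coneF = ∫_{r>0} exp(-r) ∫_{r • K} x_0^k = ∫_{r>0} exp(-r) r^(n+1+k) dr ∫_K x_0^k
= (n+1+k)! ∫_K x_0^k` (`k = 0,1,2`; Tonelli, `integral_slices` for `r • K`, scaling of Lebesgue
measure, `Real.Gamma_nat_eq_factorial`).
-/

open MeasureTheory Set
open scoped Pointwise ENNReal

namespace Vale.Agent.P254U

variable {n : ℕ}

noncomputable def coneF (K : Set (Fin (n + 1) → ℝ)) (t : ℝ) : ℝ :=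
  ∫ r in Ioi (0 : ℝ), Real.exp (-r) * vol (slice (r • K) t)

/-- the cone over `K` -/
private def ConeC (K : Set (Fin (n + 1) → ℝ)) : Set (ℝ × (Fin (n + 1) → ℝ)) :=
  {p | 0 < p.1 ∧ p.1⁻¹ • p.2 ∈ K}

private theorem Cone_cons (n : ℕ) :
    Measurable (fun z : ℝ × (Fin n → ℝ) => (Fin.cons z.1 z.2 : Fin (n + 1) → ℝ)) := by
  refine measurable_pi_lambda _ fun i => ?_
  refine Fin.cases ?_ (fun i => ?_) i
  · simp only [Fin.cons_zero]
    exact measurable_fst
  · simp only [Fin.cons_succ]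
    exact (measurable_pi_apply i).comp measurable_snd

private theorem Cone_meas {K : Set (Fin (n + 1) → ℝ)} (h : Corner (n + 1) K) :
    MeasurableSet (ConeC K) := by
  refine (measurableSet_lt measurable_const measurable_fst).inter ?_
  have h1 : Measurable (fun p : ℝ × (Fin (n + 1) → ℝ) => p.1⁻¹ • p.2) :=
    (measurable_fst.inv).smul measurable_snd
  exact h1 h.measurableSet

private theorem Cone_mem {K : Set (Fin (n + 1) → ℝ)} {r : ℝ} (hr : 0 < r)
    (x : Fin (n + 1) → ℝ) : (r, x) ∈ ConeC K ↔ x ∈ r • K := by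
  rw [mem_smul_set_iff_inv_smul_mem₀ hr.ne']
  exact ⟨fun h => h.2, fun h => ⟨hr, h⟩⟩

private theorem Cone_comb {K : Set (Fin (n + 1) → ℝ)} (h : Corner (n + 1) K) {l : ℝ}
    (h0 : 0 < l) (h1 : l < 1) {r r' : ℝ} {x x' : Fin (n + 1) → ℝ} (hx : (r, x) ∈ ConeC K)
    (hx' : (r', x') ∈ ConeC K) :
    ((1 - l) * r + l * r', (1 - l) • x + l • x') ∈ ConeC K := by
  have hr : 0 < r := hx.1
  have hr' : 0 < r' := hx'.1
  have hl : 0 < 1 - l := by linarith
  have hR : 0 < (1 - l) * r + l * r' := by positivity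
  refine ⟨hR, ?_⟩
  have h2 := h.convex hx.2 hx'.2 (a := (1 - l) * r / ((1 - l) * r + l * r'))
    (b := l * r' / ((1 - l) * r + l * r')) (by positivity) (by positivity)
    (by rw [← add_div, div_self hR.ne'])
  have h3 : ((1 - l) * r / ((1 - l) * r + l * r')) • (r⁻¹ • x) +
      (l * r' / ((1 - l) * r + l * r')) • (r'⁻¹ • x') =
      ((1 - l) * r + l * r')⁻¹ • ((1 - l) • x + l • x') := by
    rw [smul_smul, smul_smul, smul_add, smul_smul, smul_smul]
    congr 2
    · field_simp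
    · field_simp
  rw [← h3]
  exact h2

private noncomputable def ConeJ (K : Set (Fin (n + 1) → ℝ)) (t r : ℝ) : ℝ≥0∞ :=
  ∫⁻ y : Fin n → ℝ, (ConeC K).indicator 1 (r, (Fin.cons t y : Fin (n + 1) → ℝ))

private noncomputable def ConePhi (K : Set (Fin (n + 1) → ℝ)) (t : ℝ) : ℝ≥0∞ :=
  ∫⁻ r : ℝ, ENNReal.ofReal (Real.exp (-r)) * ConeJ K t r

private theorem ConeJ_eq {K : Set (Fin (n + 1) → ℝ)} (h : Corner (n + 1) K) (t : ℝ) {r : ℝ}
    (hr : 0 < r) : ConeJ K t r = volume (slice (r • K) t) := by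
  have h1 : ∀ y : Fin n → ℝ, (ConeC K).indicator (1 : ℝ × (Fin (n + 1) → ℝ) → ℝ≥0∞)
      (r, (Fin.cons t y : Fin (n + 1) → ℝ)) = (slice (r • K) t).indicator 1 y := by
    intro y
    by_cases hy : y ∈ slice (r • K) t
    · rw [indicator_of_mem hy, indicator_of_mem ((Cone_mem hr _).mpr hy)]
      rfl
    · rw [indicator_of_notMem hy, indicator_of_notMem fun h2 => hy ((Cone_mem hr _).mp h2)]
  have hm : MeasurableSet (slice (r • K) t) := by
    have h2 : slice (r • K) t = (fun y : Fin n → ℝ => (r, (Fin.cons t y : Fin (n + 1) → ℝ))) ⁻¹'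
        ConeC K := by
      ext y
      exact (Cone_mem hr _).symm
    rw [h2]
    exact (measurable_const.prodMk ((Cone_cons n).comp measurable_prodMk_left)) (Cone_meas h)
  unfold ConeJ
  simp only [h1]
  exact lintegral_indicator_one hm

private theorem ConeJ_zero {K : Set (Fin (n + 1) → ℝ)} (t : ℝ) {r : ℝ}
    (hr : ¬ 0 < r) : ConeJ K t r = 0 := by
  have h1 : ∀ y : Fin n → ℝ, (ConeC K).indicator (1 : ℝ × (Fin (n + 1) → ℝ) → ℝ≥0∞)
      (r, (Fin.cons t y : Fin (n + 1) → ℝ)) = 0 := by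
    intro y
    exact indicator_of_notMem (fun h2 => hr h2.1) _
  unfold ConeJ
  simp only [h1]
  exact lintegral_zero

private theorem ConeJ_meas {K : Set (Fin (n + 1) → ℝ)} (h : Corner (n + 1) K) :
    Measurable (fun p : ℝ × ℝ => ConeJ K p.1 p.2) := by
  have h1 : Measurable (fun q : (ℝ × ℝ) × (Fin n → ℝ) =>
      (ConeC K).indicator (1 : ℝ × (Fin (n + 1) → ℝ) → ℝ≥0∞)
        (q.1.2, (Fin.cons q.1.1 q.2 : Fin (n + 1) → ℝ))) := by
    refine (measurable_one.indicator (Cone_meas h)).comp ?_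
    exact (measurable_snd.comp measurable_fst).prodMk
      ((Cone_cons n).comp ((measurable_fst.comp measurable_fst).prodMk measurable_snd))
  exact h1.lintegral_prod_right'

private theorem ConePhi_meas {K : Set (Fin (n + 1) → ℝ)} (h : Corner (n + 1) K) :
    Measurable (ConePhi K) := by
  have h1 : Measurable (fun p : ℝ × ℝ => ENNReal.ofReal (Real.exp (-p.2)) * ConeJ K p.1 p.2) :=
    (ENNReal.measurable_ofReal.comp (Real.measurable_exp.comp measurable_snd.neg)).mul
      (ConeJ_meas h)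
  exact h1.lintegral_prod_right'

private theorem Cone_bdd {K : Set (Fin (n + 1) → ℝ)} (h : Corner (n + 1) K) :
    ∃ M : ℝ, 0 ≤ M ∧ ∀ x ∈ K, ∀ i, x i ≤ M := by
  obtain ⟨M, hM⟩ := isBounded_iff_forall_norm_le.mp h.compact.isBounded
  refine ⟨M, (norm_nonneg _).trans (hM _ h.zero_mem), fun x hx i => ?_⟩
  exact (le_abs_self _).trans ((norm_le_pi_norm x i).trans (hM x hx))

private theorem ConeJ_le {K : Set (Fin (n + 1) → ℝ)} (h : Corner (n + 1) K) {M : ℝ} (hM0 : 0 ≤ M)
    (hM : ∀ x ∈ K, ∀ i, x i ≤ M) (t : ℝ) {r : ℝ} (hr : 0 < r) :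
    ConeJ K t r ≤ ENNReal.ofReal (r ^ n * M ^ n) := by
  rw [ConeJ_eq h t hr]
  have h1 : slice (r • K) t ⊆ Icc (0 : Fin n → ℝ) (fun _ => r * M) := by
    intro y hy
    obtain ⟨x, hx, hxy⟩ := hy
    have hxy' : ∀ i : Fin n, r * x i.succ = y i := by
      intro i
      have := congrFun hxy i.succ
      simpa using this
    constructor
    · intro i
      rw [← hxy' i]
      exact mul_nonneg hr.le (h.nonneg x hx _)
    · intro i
      rw [← hxy' i]
      exact mul_le_mul_of_nonneg_left (hM x hx _) hr.le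
  refine (measure_mono h1).trans (le_of_eq ?_)
  rw [Real.volume_Icc_pi]
  simp only [Pi.zero_apply, sub_zero, Finset.prod_const, Finset.card_univ, Fintype.card_fin]
  rw [← ENNReal.ofReal_pow (by positivity), mul_pow]

/-- the Gamma integral -/
private theorem Cone_gamma (N : ℕ) :
    ∫⁻ r in Ioi (0 : ℝ), ENNReal.ofReal (Real.exp (-r) * r ^ N) =
      ENNReal.ofReal (N.factorial : ℝ) := by
  have h1 : ∀ r ∈ Ioi (0 : ℝ), Real.exp (-r) * r ^ ((N : ℝ) + 1 - 1) = Real.exp (-r) * r ^ N := by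
    intro r _
    rw [add_sub_cancel_right, Real.rpow_natCast]
  have h2 := Real.Gamma_eq_integral (s := (N : ℝ) + 1) (by positivity)
  have h3 := Real.GammaIntegral_convergent (s := (N : ℝ) + 1) (by positivity)
  rw [setIntegral_congr_fun measurableSet_Ioi h1, Real.Gamma_nat_eq_factorial] at h2
  have h4 : IntegrableOn (fun r : ℝ => Real.exp (-r) * r ^ N) (Ioi 0) :=
    h3.congr_fun h1 measurableSet_Ioi
  rw [h2, ofReal_integral_eq_lintegral_ofReal h4]
  filter_upwards [ae_restrict_mem measurableSet_Ioi] with r hr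
  exact mul_nonneg (Real.exp_pos _).le (pow_nonneg (le_of_lt hr) _)

private theorem ConePhi_set {K : Set (Fin (n + 1) → ℝ)} (t : ℝ) :
    ConePhi K t = ∫⁻ r in Ioi (0 : ℝ), ENNReal.ofReal (Real.exp (-r)) * ConeJ K t r := by
  unfold ConePhi
  rw [← lintegral_indicator measurableSet_Ioi]
  refine lintegral_congr fun r => ?_
  by_cases hr : r ∈ Ioi (0 : ℝ)
  · rw [indicator_of_mem hr]
  · rw [indicator_of_notMem hr, ConeJ_zero t hr, mul_zero]

private theorem ConePhi_lt {K : Set (Fin (n + 1) → ℝ)} (h : Corner (n + 1) K) (t : ℝ) :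
    ConePhi K t < ⊤ := by
  obtain ⟨M, hM0, hM⟩ := Cone_bdd h
  rw [ConePhi_set]
  have h1 : ∫⁻ r in Ioi (0 : ℝ), ENNReal.ofReal (Real.exp (-r)) * ConeJ K t r ≤
      ∫⁻ r in Ioi (0 : ℝ), ENNReal.ofReal (M ^ n) * ENNReal.ofReal (Real.exp (-r) * r ^ n) := by
    refine setLIntegral_mono' measurableSet_Ioi fun r hr => ?_
    refine (mul_le_mul_right (ConeJ_le h hM0 hM t hr) _).trans (le_of_eq ?_)
    rw [← ENNReal.ofReal_mul (Real.exp_pos _).le, ← ENNReal.ofReal_mul (by positivity)]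
    congr 1
    ring
  refine lt_of_le_of_lt h1 ?_
  rw [lintegral_const_mul' _ _ ENNReal.ofReal_ne_top, Cone_gamma]
  exact ENNReal.mul_lt_top ENNReal.ofReal_lt_top ENNReal.ofReal_lt_top

private theorem coneF_eq {K : Set (Fin (n + 1) → ℝ)} (h : Corner (n + 1) K) (t : ℝ) :
    coneF K t = (ConePhi K t).toReal := by
  have hm : Measurable (fun r : ℝ => ENNReal.ofReal (Real.exp (-r)) * ConeJ K t r) :=
    (ENNReal.measurable_ofReal.comp (Real.measurable_exp.comp measurable_neg)).mul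
      ((ConeJ_meas h).comp measurable_prodMk_left)
  rw [ConePhi_set, ← integral_toReal hm.aemeasurable]
  · unfold coneF
    refine setIntegral_congr_fun measurableSet_Ioi fun r hr => ?_
    rw [ConeJ_eq h t hr, ENNReal.toReal_mul, ENNReal.toReal_ofReal (Real.exp_pos _).le]
    rfl
  · obtain ⟨M, hM0, hM⟩ := Cone_bdd h
    filter_upwards [ae_restrict_mem measurableSet_Ioi] with r hr
    exact ENNReal.mul_lt_top ENNReal.ofReal_lt_top
      (lt_of_le_of_lt (ConeJ_le h hM0 hM t hr) ENNReal.ofReal_lt_top)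

theorem coneF_measurable {K : Set (Fin (n + 1) → ℝ)} (h : Corner (n + 1) K) :
    Measurable (coneF K) := by
  have h1 : coneF K = fun t => (ConePhi K t).toReal := funext fun t => coneF_eq h t
  rw [h1]
  exact (ConePhi_meas h).ennreal_toReal

theorem coneF_nonneg {K : Set (Fin (n + 1) → ℝ)} (h : Corner (n + 1) K) (t : ℝ) :
    0 ≤ coneF K t := by
  rw [coneF_eq h]
  exact ENNReal.toReal_nonneg

/-- the integrand in the coordinates `(r, y)` -/
private noncomputable def ConeG (K : Set (Fin (n + 1) → ℝ)) (t : ℝ) (z : Fin (n + 1) → ℝ) : ℝ≥0∞ :=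
  ENNReal.ofReal (Real.exp (-(z 0))) *
    (ConeC K).indicator 1 (z 0, (Fin.cons t (Fin.tail z) : Fin (n + 1) → ℝ))

private theorem ConeG_meas {K : Set (Fin (n + 1) → ℝ)} (h : Corner (n + 1) K) (t : ℝ) :
    Measurable (ConeG K t) := by
  have h0 : Measurable (fun z : Fin (n + 1) → ℝ => Fin.tail z) :=
    measurable_pi_lambda _ fun i => measurable_pi_apply _
  refine (ENNReal.measurable_ofReal.comp
    (Real.measurable_exp.comp (measurable_pi_apply 0).neg)).mul ?_
  refine (measurable_one.indicator (Cone_meas h)).comp ?_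
  exact (measurable_pi_apply 0).prodMk ((Cone_cons n).comp (measurable_const.prodMk h0))

private theorem ConeG_int {K : Set (Fin (n + 1) → ℝ)} (h : Corner (n + 1) K) (t : ℝ) :
    ∫⁻ z, ConeG K t z = ConePhi K t := by
  rw [plg_lintegral_succ n (ConeG_meas h t)]
  unfold ConePhi
  refine lintegral_congr fun r => ?_
  unfold ConeG ConeJ
  simp only [Fin.cons_zero, Fin.tail_cons]
  exact lintegral_const_mul' _ _ ENNReal.ofReal_ne_top

private theorem ConePhi_lc {K : Set (Fin (n + 1) → ℝ)} (h : Corner (n + 1) K) {l : ℝ}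
    (h0 : 0 < l) (h1 : l < 1) (s t : ℝ) :
    ConePhi K s ^ (1 - l) * ConePhi K t ^ l ≤ ConePhi K ((1 - l) * s + l * t) := by
  have hl : 0 < 1 - l := by linarith
  rw [← ConeG_int h s, ← ConeG_int h t, ← ConeG_int h ((1 - l) * s + l * t)]
  refine pl_gen (n + 1) (ConeG_meas h s) (ConeG_meas h t) (ConeG_meas h _) h0 h1 fun x y => ?_
  unfold ConeG
  by_cases hx : (x 0, (Fin.cons s (Fin.tail x) : Fin (n + 1) → ℝ)) ∈ ConeC K
  · by_cases hy : (y 0, (Fin.cons t (Fin.tail y) : Fin (n + 1) → ℝ)) ∈ ConeC K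
    · have h2 := Cone_comb h h0 h1 hx hy
      have h3 : (1 - l) • (Fin.cons s (Fin.tail x) : Fin (n + 1) → ℝ) +
          l • (Fin.cons t (Fin.tail y) : Fin (n + 1) → ℝ) =
          Fin.cons ((1 - l) * s + l * t) (Fin.tail ((1 - l) • x + l • y)) := by
        funext i
        refine Fin.cases ?_ (fun j => ?_) i
        · rfl
        · rfl
      rw [h3] at h2
      have h4 : ((1 - l) • x + l • y) 0 = (1 - l) * x 0 + l * y 0 := rfl
      rw [h4, indicator_of_mem hx, indicator_of_mem hy, indicator_of_mem h2]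
      simp only [Pi.one_apply, mul_one]
      rw [ENNReal.ofReal_rpow_of_pos (Real.exp_pos _), ENNReal.ofReal_rpow_of_pos (Real.exp_pos _),
        ← ENNReal.ofReal_mul (by positivity), ← Real.exp_mul, ← Real.exp_mul, ← Real.exp_add]
      refine ENNReal.ofReal_le_ofReal (le_of_eq ?_)
      congr 1
      ring
    · rw [indicator_of_notMem hy, mul_zero, ENNReal.zero_rpow_of_pos h0, mul_zero]
      exact zero_le
  · rw [indicator_of_notMem hx, mul_zero, ENNReal.zero_rpow_of_pos hl, zero_mul]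
    exact zero_le

private theorem coneF_lc {K : Set (Fin (n + 1) → ℝ)} (h : Corner (n + 1) K) {l : ℝ}
    (h0 : 0 < l) (h1 : l < 1) (s t : ℝ) :
    coneF K s ^ (1 - l) * coneF K t ^ l ≤ coneF K ((1 - l) * s + l * t) := by
  rw [coneF_eq h, coneF_eq h, coneF_eq h, ENNReal.toReal_rpow, ENNReal.toReal_rpow,
    ← ENNReal.toReal_mul]
  exact ENNReal.toReal_mono (ConePhi_lt h _).ne (ConePhi_lc h h0 h1 s t)

theorem coneF_four {K : Set (Fin (n + 1) → ℝ)} (h : Corner (n + 1) K) {x y t : ℝ} (hx : 0 ≤ x)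
    (hxy : x ≤ y) (ht : 0 ≤ t) :
    coneF K x * coneF K (y + t) ≤ coneF K y * coneF K (x + t) := by
  have _ := hx
  rcases hxy.eq_or_lt with h2 | h2
  · rw [h2]
  rcases ht.eq_or_lt with h3 | h3
  · rw [← h3, add_zero, add_zero, mul_comm]
  set w := y + t with hw
  have hwx : 0 < w - x := by linarith
  set l := (y - x) / (w - x) with hl
  have hl0 : 0 < l := div_pos (by linarith) hwx
  have hl1 : l < 1 := by
    rw [hl, div_lt_one hwx]
    linarith
  have hlw : l * (w - x) = y - x := by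
    rw [hl, div_mul_cancel₀ _ hwx.ne']
  have e1 : (1 - l) * x + l * w = y := by linarith
  have e2 : (1 - (1 - l)) * x + (1 - l) * w = x + t := by
    have : t = w - y := by rw [hw]; ring
    linarith
  have k1 := coneF_lc h hl0 hl1 x w
  have k2 := coneF_lc h (l := 1 - l) (by linarith) (by linarith) x w
  rw [e1] at k1
  rw [e2, sub_sub_cancel] at k2
  have fx := coneF_nonneg h x
  have fw := coneF_nonneg h w
  have k3 := mul_le_mul k1 k2 (by positivity) (coneF_nonneg h _)
  refine le_trans (le_of_eq ?_) k3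
  have e3 : coneF K x ^ (1 - l) * coneF K x ^ l = coneF K x := by
    rw [← Real.rpow_add' fx (by norm_num), sub_add_cancel, Real.rpow_one]
  have e4 : coneF K w ^ l * coneF K w ^ (1 - l) = coneF K w := by
    rw [← Real.rpow_add' fw (by norm_num), add_sub_cancel, Real.rpow_one]
  calc coneF K x * coneF K w =
        (coneF K x ^ (1 - l) * coneF K x ^ l) * (coneF K w ^ l * coneF K w ^ (1 - l)) := by
        rw [e3, e4]
    _ = _ := by ring

/-! ### moments -/

/-- scaling -/
private theorem Cone_scale {K : Set (Fin (n + 1) → ℝ)} (h : Corner (n + 1) K) (k : ℕ) {r : ℝ}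
    (hr : 0 < r) :
    ∫⁻ t : ℝ, ENNReal.ofReal (t ^ k) * ConeJ K t r =
      ENNReal.ofReal (r ^ (n + 1 + k)) * ∫⁻ x in K, ENNReal.ofReal (x 0 ^ k) := by
  -- unfold to an integral over `ℝ^(n+1)`
  have hgm : Measurable (fun x : Fin (n + 1) → ℝ =>
      ENNReal.ofReal (x 0 ^ k) * (ConeC K).indicator (1 : ℝ × (Fin (n + 1) → ℝ) → ℝ≥0∞) (r, x)) :=
    (ENNReal.measurable_ofReal.comp ((measurable_pi_apply 0).pow_const k)).mul
      ((measurable_one.indicator (Cone_meas h)).comp measurable_prodMk_left)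
  have h1 := plg_lintegral_succ n hgm
  simp only [Fin.cons_zero] at h1
  have h2 : ∀ a : ℝ, ∫⁻ b : Fin n → ℝ, ENNReal.ofReal (a ^ k) *
      (ConeC K).indicator (1 : ℝ × (Fin (n + 1) → ℝ) → ℝ≥0∞)
        (r, (Fin.cons a b : Fin (n + 1) → ℝ)) = ENNReal.ofReal (a ^ k) * ConeJ K a r := by
    intro a
    exact lintegral_const_mul' _ _ ENNReal.ofReal_ne_top
  simp only [h2] at h1
  rw [← h1]
  -- scaling of Lebesgue measure
  have h3 := Measure.map_addHaar_smul (volume : Measure (Fin (n + 1) → ℝ)) hr.ne'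
  have h4 := lintegral_map (μ := (volume : Measure (Fin (n + 1) → ℝ))) hgm
    (measurable_const_smul (α := Fin (n + 1) → ℝ) r)
  have hN : Module.finrank ℝ (Fin (n + 1) → ℝ) = n + 1 := by
    rw [Module.finrank_pi, Fintype.card_fin]
  have hrN : 0 < r ^ (n + 1) := pow_pos hr _
  have h3' : Measure.map (fun x : Fin (n + 1) → ℝ => r • x) volume =
      ENNReal.ofReal ((r ^ (n + 1))⁻¹) • (volume : Measure (Fin (n + 1) → ℝ)) := by
    rw [hN, abs_of_pos (inv_pos.mpr hrN)] at h3
    exact h3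
  rw [h3', lintegral_smul_measure] at h4
  have h5 : ∫⁻ x : Fin (n + 1) → ℝ, ENNReal.ofReal ((r • x) 0 ^ k) *
      (ConeC K).indicator (1 : ℝ × (Fin (n + 1) → ℝ) → ℝ≥0∞) (r, r • x) =
      ENNReal.ofReal (r ^ k) * ∫⁻ x in K, ENNReal.ofReal (x 0 ^ k) := by
    rw [← lintegral_indicator h.measurableSet, ← lintegral_const_mul' _ _ ENNReal.ofReal_ne_top]
    refine lintegral_congr fun x => ?_
    by_cases hx : x ∈ K
    · have hx2 : (r, r • x) ∈ ConeC K := (Cone_mem hr _).mpr (smul_mem_smul_set hx)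
      rw [indicator_of_mem hx, indicator_of_mem hx2, Pi.one_apply, mul_one, Pi.smul_apply,
        smul_eq_mul, mul_pow, ENNReal.ofReal_mul (by positivity)]
    · have hx2 : (r, r • x) ∉ ConeC K := fun h6 =>
        hx ((smul_mem_smul_set_iff₀ hr.ne' K x).mp ((Cone_mem hr _).mp h6))
      rw [indicator_of_notMem hx, indicator_of_notMem hx2, mul_zero, mul_zero]
  rw [h5] at h4
  have h6 : ENNReal.ofReal (r ^ (n + 1)) * ENNReal.ofReal ((r ^ (n + 1))⁻¹) = 1 := by
    rw [← ENNReal.ofReal_mul hrN.le, mul_inv_cancel₀ hrN.ne', ENNReal.ofReal_one]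
  rw [pow_add, ENNReal.ofReal_mul hrN.le, mul_assoc, ← h4, smul_eq_mul, ← mul_assoc, h6, one_mul]

private theorem ConePhi_neg {K : Set (Fin (n + 1) → ℝ)} (h : Corner (n + 1) K) {t : ℝ}
    (ht : t < 0) : ConePhi K t = 0 := by
  unfold ConePhi
  have h1 : ∀ r, ENNReal.ofReal (Real.exp (-r)) * ConeJ K t r = 0 := by
    intro r
    by_cases hr : 0 < r
    · have h2 : slice (r • K) t = ∅ := by
        ext y
        simp only [mem_empty_iff_false, iff_false]
        rintro ⟨x, hx, hxy⟩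
        have h3 : r * x 0 = t := by
          have := congrFun hxy 0
          simpa using this
        have h4 := mul_nonneg hr.le (h.nonneg x hx 0)
        linarith
      rw [ConeJ_eq h t hr, h2, measure_empty, mul_zero]
    · rw [ConeJ_zero t hr, mul_zero]
  simp only [h1]
  exact lintegral_zero

private theorem Cone_moment_aux {K : Set (Fin (n + 1) → ℝ)} (h : Corner (n + 1) K) (k : ℕ) :
    ∫⁻ t in Ioi (0 : ℝ), ENNReal.ofReal (t ^ k) * ConePhi K t =
      ENNReal.ofReal ((n + 1 + k).factorial : ℝ) * ∫⁻ x in K, ENNReal.ofReal (x 0 ^ k) := by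
  have h1 : ∫⁻ t in Ioi (0 : ℝ), ENNReal.ofReal (t ^ k) * ConePhi K t =
      ∫⁻ t : ℝ, ENNReal.ofReal (t ^ k) * ConePhi K t := by
    rw [setLIntegral_congr (Ioi_ae_eq_Ici (a := (0 : ℝ))), ← lintegral_indicator measurableSet_Ici]
    refine lintegral_congr fun t => ?_
    by_cases ht : t ∈ Ici (0 : ℝ)
    · rw [indicator_of_mem ht]
    · rw [indicator_of_notMem ht, ConePhi_neg h (not_le.mp ht), mul_zero]
  rw [h1]
  have h2 : ∀ t : ℝ, ENNReal.ofReal (t ^ k) * ConePhi K t =
      ∫⁻ r : ℝ, ENNReal.ofReal (t ^ k) * (ENNReal.ofReal (Real.exp (-r)) * ConeJ K t r) := by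
    intro t
    exact (lintegral_const_mul' _ _ ENNReal.ofReal_ne_top).symm
  simp only [h2]
  have hm : Measurable (Function.uncurry fun (t r : ℝ) =>
      ENNReal.ofReal (t ^ k) * (ENNReal.ofReal (Real.exp (-r)) * ConeJ K t r)) := by
    refine (ENNReal.measurable_ofReal.comp (measurable_fst.pow_const k)).mul ?_
    exact (ENNReal.measurable_ofReal.comp (Real.measurable_exp.comp measurable_snd.neg)).mul
      (ConeJ_meas h)
  rw [lintegral_lintegral_swap hm.aemeasurable]
  have h3 : ∀ r : ℝ, ∫⁻ t : ℝ, ENNReal.ofReal (t ^ k) *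
      (ENNReal.ofReal (Real.exp (-r)) * ConeJ K t r) =
      (Ioi (0 : ℝ)).indicator (fun r => ENNReal.ofReal (Real.exp (-r) * r ^ (n + 1 + k)) *
        ∫⁻ x in K, ENNReal.ofReal (x 0 ^ k)) r := by
    intro r
    have h4 : ∀ t : ℝ, ENNReal.ofReal (t ^ k) * (ENNReal.ofReal (Real.exp (-r)) * ConeJ K t r) =
        ENNReal.ofReal (Real.exp (-r)) * (ENNReal.ofReal (t ^ k) * ConeJ K t r) := by
      intro t
      ring
    simp only [h4]
    rw [lintegral_const_mul' _ _ ENNReal.ofReal_ne_top]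
    by_cases hr : r ∈ Ioi (0 : ℝ)
    · rw [indicator_of_mem hr, Cone_scale h k hr, ENNReal.ofReal_mul (Real.exp_pos _).le,
        mul_assoc]
    · rw [indicator_of_notMem hr]
      have h5 : ∀ t, ENNReal.ofReal (t ^ k) * ConeJ K t r = 0 := by
        intro t
        rw [ConeJ_zero t hr, mul_zero]
      simp only [h5]
      rw [lintegral_zero, mul_zero]
  simp only [h3]
  have hfin : ∫⁻ x in K, ENNReal.ofReal (x 0 ^ k) ≠ ⊤ := by
    obtain ⟨M, hM0, hM⟩ := Cone_bdd h
    have h4 : ∫⁻ x in K, ENNReal.ofReal (x 0 ^ k) ≤ ∫⁻ _ in K, ENNReal.ofReal (M ^ k) := by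
      refine setLIntegral_mono' h.measurableSet fun x hx => ENNReal.ofReal_le_ofReal ?_
      exact pow_le_pow_left₀ (h.nonneg x hx 0) (hM x hx 0) k
    refine (lt_of_le_of_lt h4 ?_).ne
    rw [setLIntegral_const]
    exact ENNReal.mul_lt_top ENNReal.ofReal_lt_top (lt_top_iff_ne_top.mpr h.volume_ne_top)
  rw [lintegral_indicator measurableSet_Ioi, lintegral_mul_const' _ _ hfin, Cone_gamma]

theorem coneF_moment {K : Set (Fin (n + 1) → ℝ)} (h : Corner (n + 1) K) (k : ℕ) :
    IntegrableOn (fun t => t ^ k * coneF K t) (Ioi 0) ∧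
    ∫ t in Ioi (0 : ℝ), t ^ k * coneF K t =
      ((n + 1 + k).factorial : ℝ) * ∫ x in K, x 0 ^ k := by
  have hint : IntegrableOn (fun x : Fin (n + 1) → ℝ => x 0 ^ k) K :=
    ((continuous_apply 0).pow k).continuousOn.integrableOn_compact h.compact
  have h1 : ∫⁻ x in K, ENNReal.ofReal (x 0 ^ k) = ENNReal.ofReal (∫ x in K, x 0 ^ k) := by
    rw [ofReal_integral_eq_lintegral_ofReal hint]
    filter_upwards [ae_restrict_mem h.measurableSet] with x hx
    exact pow_nonneg (h.nonneg x hx 0) k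
  have h0 : 0 ≤ ∫ x in K, x 0 ^ k :=
    setIntegral_nonneg h.measurableSet fun x hx => pow_nonneg (h.nonneg x hx 0) k
  have h2 : ∫⁻ t in Ioi (0 : ℝ), ENNReal.ofReal (t ^ k * coneF K t) =
      ENNReal.ofReal (((n + 1 + k).factorial : ℝ) * ∫ x in K, x 0 ^ k) := by
    rw [ENNReal.ofReal_mul (by positivity), ← h1, ← Cone_moment_aux h k]
    refine setLIntegral_congr_fun measurableSet_Ioi fun t ht => ?_
    rw [ENNReal.ofReal_mul (pow_nonneg (le_of_lt ht) k), coneF_eq h,
      ENNReal.ofReal_toReal (ConePhi_lt h t).ne]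
  have hnn : 0 ≤ᵐ[volume.restrict (Ioi (0 : ℝ))] fun t => t ^ k * coneF K t := by
    filter_upwards [ae_restrict_mem measurableSet_Ioi] with t ht
    exact mul_nonneg (pow_nonneg (le_of_lt ht) k) (coneF_nonneg h t)
  have hm : Measurable (fun t : ℝ => t ^ k * coneF K t) :=
    (measurable_id.pow_const k).mul (coneF_measurable h)
  refine ⟨⟨hm.aestronglyMeasurable, ?_⟩, ?_⟩
  · rw [hasFiniteIntegral_iff_ofReal hnn, h2]
    exact ENNReal.ofReal_lt_top
  · rw [integral_eq_lintegral_of_nonneg_ae hnn hm.aestronglyMeasurable, h2,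
      ENNReal.toReal_ofReal (mul_nonneg (by positivity) h0)]

end Vale.Agent.P254U
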