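import Mathlib

/-!
P254U: the strong isotropic constant conjecture for unconditional bodies.
Definitions used by all modules.  A corner is a compact convex subset of the closed
positive orthant which is closed downwards and contains a positive multiple of (1,...,1).
-/

open MeasureTheory Set

namespace Vale.Agent.P254U

structure Corner (n : ℕ) (K : Set (Fin n → ℝ)) : Prop where
  compact : IsCompact K
  convex : Convex ℝ K
  nonneg : ∀ x ∈ K, ∀ i, 0 ≤ x i
  down : ∀ x ∈ K, ∀ y : Fin n → ℝ, (∀ i, 0 ≤ y i) → (∀ i, y i ≤ x i) → y ∈ K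
  pos : ∃ ε : ℝ, 0 < ε ∧ (fun _ => ε) ∈ K

/-- Lebesgue volume as a real number -/
noncomputable def vol {n : ℕ} (K : Set (Fin n → ℝ)) : ℝ := (volume K).toReal

/-- mean of a function over `K` (uniform distribution) -/
noncomputable def mean {n : ℕ} (K : Set (Fin n → ℝ)) (φ : (Fin n → ℝ) → ℝ) : ℝ :=
  (∫ x in K, φ x) / vol K

/-- mean of `log x_i` -/
noncomputable def lm {n : ℕ} (K : Set (Fin n → ℝ)) (i : Fin n) : ℝ :=
  mean K (fun x => Real.log (x i))

/-- mean of `(log x_i)^2` -/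
noncomputable def lm2 {n : ℕ} (K : Set (Fin n → ℝ)) (i : Fin n) : ℝ :=
  mean K (fun x => Real.log (x i) ^ 2)

/-- excess of the variance of `log x_i` over its minimal value `1` -/
noncomputable def VV {n : ℕ} (K : Set (Fin n → ℝ)) (i : Fin n) : ℝ :=
  lm2 K i - lm K i ^ 2 - 1

noncomputable def DTC {n : ℕ} (K : Set (Fin n → ℝ)) : ℝ :=
  Real.log (vol K) - ∑ i, (1 + lm K i)

/-- the linear form in logarithms -/
noncomputable def LL {n : ℕ} (θ : Fin n → ℝ) (x : Fin n → ℝ) : ℝ :=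
  ∑ i, θ i * Real.log (x i)

noncomputable def lamL {n : ℕ} (K : Set (Fin n → ℝ)) (θ : Fin n → ℝ) : ℝ := mean K (LL θ)

noncomputable def varL {n : ℕ} (K : Set (Fin n → ℝ)) (θ : Fin n → ℝ) : ℝ :=
  mean K (fun x => (LL θ x - lamL K θ) ^ 2)

/-- slice at height `t` in the first coordinate -/
def slice {n : ℕ} (K : Set (Fin (n + 1) → ℝ)) (t : ℝ) : Set (Fin n → ℝ) :=
  {y | (Fin.cons t y : Fin (n + 1) → ℝ) ∈ K}

/-- the largest first coordinate -/
noncomputable def top {n : ℕ} (K : Set (Fin (n + 1) → ℝ)) : ℝ :=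
  sSup {t : ℝ | (Fin.cons t (0 : Fin n → ℝ) : Fin (n + 1) → ℝ) ∈ K}

/-- density of the first coordinate -/
noncomputable def ff {n : ℕ} (K : Set (Fin (n + 1) → ℝ)) (t : ℝ) : ℝ :=
  vol (slice K t) / vol K

/-- tail of the first coordinate -/
noncomputable def SS {n : ℕ} (K : Set (Fin (n + 1) → ℝ)) (t : ℝ) : ℝ :=
  ∫ u in t..top K, ff K u

/-- integrated tail -/
noncomputable def RR {n : ℕ} (K : Set (Fin (n + 1) → ℝ)) (t : ℝ) : ℝ :=
  ∫ u in t..top K, SS K u

noncomputable def gg {n : ℕ} (K : Set (Fin (n + 1) → ℝ)) (t : ℝ) : ℝ :=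
  - Real.log (ff K t)

noncomputable def EE {n : ℕ} (K : Set (Fin (n + 1) → ℝ)) (θ : Fin n → ℝ) (t : ℝ) : ℝ :=
  SS K t * lamL (slice K t) θ - ∫ u in t..top K, ff K u * lamL (slice K u) θ

noncomputable def GG {n : ℕ} (K : Set (Fin (n + 1) → ℝ)) (t : ℝ) : ℝ :=
  2 * RR K t - SS K t ^ 2 / ff K t

end Vale.Agent.P254U
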