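import Mathlib

/-!
P254U/DensDefs: the class of one dimensional densities and the functions used in inequality (A).
-/

open MeasureTheory Set

namespace Vale.Agent.P254U

/-- the class of densities: nonincreasing, log-concave (four point form), compact support,
value one at zero, total mass one -/
structure Dens (f : ℝ → ℝ) : Prop where
  anti : AntitoneOn f (Ici 0)
  nonneg : ∀ t, 0 ≤ t → 0 ≤ f t
  zero : f 0 = 1
  four : ∀ x y t : ℝ, 0 ≤ x → x ≤ y → 0 ≤ t → f x * f (y + t) ≤ f y * f (x + t)
  supp : ∃ H : ℝ, 0 < H ∧ ∀ t, H < t → f t = 0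
  mass : ∫ t in Ioi (0 : ℝ), f t = 1

noncomputable def X0 : ℝ := 0.011

noncomputable def kap (t : ℝ) : ℝ :=
  2 * t - 19 / 10 * Real.log t - Real.log t ^ 2 / 2 - 2

noncomputable def wbar (t : ℝ) : ℝ :=
  min (347 / 2000) (113 / 200 * (max 0 (87 / 100 - t)) ^ 2)

end Vale.Agent.P254U
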