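import Mathlib

/-!
P254U/Disc: the discrete monotonicity lemma (pure finite sums).

Write `G j = (g (j+1) - g j)/δ` (nondecreasing, `> 0`), `T j = k^2 Γ j + (2+ω) f j - 2 k E j`,
`e j = lam (j+1) - lam (j-1)`, `d j = lam (j+1) - lam j`.  For `1 ≤ j ≤ N-1`:
(0) `T j ≥ f j (2 - V j + ω) ≥ 0` by `hb` (also `T N ≥ 0`).
(i) `T j (G j - G (j-1)) ≥ f j e j^2/(4 δ)` by `ha`.
(ii) `T j (1/G (j-1) - 1/G j) = T j (G j - G (j-1))/(G j G (j-1)) ≥ f j e j^2/(4 δ G j G (j-1))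
     ≥ - k S j e j/G j - k^2 (S j)^2 δ/(f j)` (AM-GM and `G (j-1) ≤ G j`).
(iii) `(T j - T (j+1))/G j ≥ k^2 (S (j+1))^2 δ/f j + 2 f (j+1) δ + 2 k S j d j/G j - 2|k| C δ^2/G j`
     by `hΓ`, `hfg`, `hE`.
Add: `T j/G (j-1) - T (j+1)/G j ≥ 2 f (j+1) δ - k^2 δ (S j^2 - S (j+1)^2)/f N - 2|k| C δ^2/G 0
     + k (S j/G j)(d j - d (j-1))`   (as `2 d j - e j = d j - d (j-1)`).
Sum over `j = 1..N-1`; `w j = S j/G j` is nonnegative and nonincreasing, `|d j| ≤ D δ`, so by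
summation by parts `|∑ w j (d j - d (j-1))| ≤ 2 w 1 D δ ≤ 2 (S 0/G 0) D δ`;
`∑_{j=1}^{N-1} f (j+1) δ ≥ S 2 - S N` (from `hS'`).  Multiply by `G 0`.
-/

namespace Vale.Agent.P254U

/-- one step; `G0`, `G1` are the slopes at `j - 1`, `j`, `T0`, `T1` the values at `j`, `j + 1` -/
private theorem disc_step {δ k ω C f0 f1 fN S0 S1 E0 E1 Γ0 Γ1 V l0 l1 l2 G0 G1 GG T0 T1 : ℝ}
    (hδ : 0 < δ) (hω : 0 ≤ ω) (hC : 0 ≤ C) (hf0 : 0 < f0) (hfN : 0 < fN)
    (hfN0 : fN ≤ f0) (hf10 : f1 ≤ f0) (hGG : 0 < GG) (hGG0 : GG ≤ G0) (hG01 : G0 ≤ G1)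
    (hS1 : 0 ≤ S1) (hS01 : S1 ≤ S0)
    (hfg : f1 * (δ * G1) ≤ f0 - f1)
    (hE : |E0 - E1 + S0 * (l2 - l1)| ≤ C * δ ^ 2)
    (hΓ : S1 ^ 2 * (δ * G1) / f0 ≤ Γ0 - Γ1)
    (hb : 0 ≤ f0 * V + k ^ 2 * Γ0 - 2 * k * E0) (hV : V ≤ 2)
    (ha : (l2 - l0) ^ 2 ≤ 4 * (2 - V + ω) * (δ * (G1 - G0)))
    (hT0 : T0 = k ^ 2 * Γ0 + (2 + ω) * f0 - 2 * k * E0)
    (hT1 : T1 = k ^ 2 * Γ1 + (2 + ω) * f1 - 2 * k * E1) :
    2 * (f1 * δ) - k ^ 2 * δ / fN * (S0 ^ 2 - S1 ^ 2) - 2 * |k| * C * δ ^ 2 / GG +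
        k * (S0 / G1 * ((l2 - l1) - (l1 - l0))) ≤ T0 / G0 - T1 / G1 := by
  have hG0 : 0 < G0 := lt_of_lt_of_le hGG hGG0
  have hG1 : 0 < G1 := lt_of_lt_of_le hG0 hG01
  -- (0)
  have h0 : f0 * (2 - V + ω) ≤ T0 := by rw [hT0]; nlinarith
  have h0' : 0 ≤ T0 := le_trans (mul_nonneg hf0.le (by linarith)) h0
  -- (i)
  have h1 : f0 * (l2 - l0) ^ 2 / (4 * δ) ≤ T0 * (G1 - G0) := by
    have h2 : f0 * (2 - V + ω) * (G1 - G0) ≤ T0 * (G1 - G0) :=
      mul_le_mul_of_nonneg_right h0 (by linarith)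
    refine le_trans ?_ h2
    rw [div_le_iff₀ (by positivity)]
    have h3 := mul_le_mul_of_nonneg_left ha hf0.le
    linarith
  -- (ii)
  have h2 : -(k * S0 * (l2 - l0) / G1) - k ^ 2 * S0 ^ 2 * δ / f0 ≤ T0 * (1 / G0 - 1 / G1) := by
    have e1 : T0 * (1 / G0 - 1 / G1) = T0 * (G1 - G0) / (G1 * G0) := by
      field_simp
    have e2 : f0 * (l2 - l0) ^ 2 / (4 * δ) / (G1 * G1) ≤ T0 * (G1 - G0) / (G1 * G0) := by
      have h3 : 0 ≤ f0 * (l2 - l0) ^ 2 / (4 * δ) := by positivity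
      have h4 : 0 ≤ T0 * (G1 - G0) := h3.trans h1
      calc f0 * (l2 - l0) ^ 2 / (4 * δ) / (G1 * G1) ≤ T0 * (G1 - G0) / (G1 * G1) := by
            gcongr
        _ ≤ T0 * (G1 - G0) / (G1 * G0) := by
            gcongr
    have e3 : f0 * (l2 - l0) ^ 2 / (4 * δ) / (G1 * G1) + k * S0 * (l2 - l0) / G1 +
        k ^ 2 * S0 ^ 2 * δ / f0 = (f0 * (l2 - l0) / G1 + 2 * δ * k * S0) ^ 2 / (4 * δ * f0) := by
      field_simp
      ring
    have e4 : 0 ≤ (f0 * (l2 - l0) / G1 + 2 * δ * k * S0) ^ 2 / (4 * δ * f0) := by positivity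
    rw [e1]
    linarith
  -- (iii)
  have h3 : k ^ 2 * S1 ^ 2 * δ / f0 + 2 * (f1 * δ) + 2 * k * S0 * (l2 - l1) / G1 -
      2 * |k| * C * δ ^ 2 / G1 ≤ (T0 - T1) / G1 := by
    rw [le_div_iff₀ hG1]
    have e1 : (k ^ 2 * S1 ^ 2 * δ / f0 + 2 * (f1 * δ) + 2 * k * S0 * (l2 - l1) / G1 -
        2 * |k| * C * δ ^ 2 / G1) * G1 = k ^ 2 * (S1 ^ 2 * (δ * G1) / f0) +
        2 * (f1 * (δ * G1)) + 2 * k * S0 * (l2 - l1) - 2 * |k| * C * δ ^ 2 := by
      field_simp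
    rw [e1, hT0, hT1]
    have e2 : k ^ 2 * (S1 ^ 2 * (δ * G1) / f0) ≤ k ^ 2 * (Γ0 - Γ1) :=
      mul_le_mul_of_nonneg_left hΓ (sq_nonneg k)
    have e3 : 0 ≤ ω * (f0 - f1) := mul_nonneg hω (by linarith)
    have e4 : k * (E0 - E1 + S0 * (l2 - l1)) ≤ |k| * (C * δ ^ 2) := by
      calc k * (E0 - E1 + S0 * (l2 - l1)) ≤ |k * (E0 - E1 + S0 * (l2 - l1))| := le_abs_self _
        _ = |k| * |E0 - E1 + S0 * (l2 - l1)| := abs_mul _ _
        _ ≤ |k| * (C * δ ^ 2) := mul_le_mul_of_nonneg_left hE (abs_nonneg k)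
    linarith
  have h4 : T0 / G0 - T1 / G1 = T0 * (1 / G0 - 1 / G1) + (T0 - T1) / G1 := by
    field_simp
    ring
  have h5 : 2 * |k| * C * δ ^ 2 / G1 ≤ 2 * |k| * C * δ ^ 2 / GG := by
    have : 0 ≤ 2 * |k| * C * δ ^ 2 := by positivity
    exact div_le_div_of_nonneg_left this hGG (hGG0.trans hG01)
  have h6 : k ^ 2 * S0 ^ 2 * δ / f0 - k ^ 2 * S1 ^ 2 * δ / f0 ≤
      k ^ 2 * δ / fN * (S0 ^ 2 - S1 ^ 2) := by
    have e1 : 0 ≤ S0 ^ 2 - S1 ^ 2 := by nlinarith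
    have e2 : k ^ 2 * S0 ^ 2 * δ / f0 - k ^ 2 * S1 ^ 2 * δ / f0 =
        k ^ 2 * δ / f0 * (S0 ^ 2 - S1 ^ 2) := by ring
    rw [e2]
    refine mul_le_mul_of_nonneg_right ?_ e1
    have : 0 ≤ k ^ 2 * δ := by positivity
    exact div_le_div_of_nonneg_left this hfN hfN0
  have h7 : k * (S0 / G1 * ((l2 - l1) - (l1 - l0))) =
      -(k * S0 * (l2 - l0) / G1) + 2 * k * S0 * (l2 - l1) / G1 := by ring
  rw [h4, h7]
  linarith

/-- summation by parts -/
private theorem disc_parts (w d : ℕ → ℝ) (K : ℝ) (hK : 0 ≤ K) (M : ℕ)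
    (hw : ∀ i, i < M → w (i + 2) ≤ w (i + 1)) (hw0 : ∀ i, i ≤ M → 0 ≤ w (i + 1))
    (hd : ∀ i, i ≤ M + 1 → |d i| ≤ K) :
    |∑ i ∈ Finset.range (M + 1), w (i + 1) * (d (i + 1) - d i)| ≤ 2 * w 1 * K := by
  have key : ∀ m, m ≤ M → |∑ i ∈ Finset.range (m + 1), w (i + 1) * (d (i + 1) - d i) -
      w (m + 1) * d (m + 1)| ≤ K * (2 * w 1 - w (m + 1)) := by
    intro m
    induction m with
    | zero =>
      intro _
      rw [Finset.sum_range_one]
      have e1 : w (0 + 1) * (d (0 + 1) - d 0) - w (0 + 1) * d (0 + 1) = -(w 1 * d 0) := by ring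
      rw [e1, abs_neg, abs_mul, abs_of_nonneg (hw0 0 (Nat.zero_le _))]
      have e2 := mul_le_mul_of_nonneg_left (hd 0 (Nat.zero_le _)) (hw0 0 (Nat.zero_le _))
      have e3 : K * (2 * w 1 - w (0 + 1)) = w (0 + 1) * K := by ring
      rw [e3]
      exact e2
    | succ m ih =>
      intro hm
      have h1 := ih (by omega)
      rw [Finset.sum_range_succ]
      have e1 : ∑ i ∈ Finset.range (m + 1), w (i + 1) * (d (i + 1) - d i) +
          w (m + 1 + 1) * (d (m + 1 + 1) - d (m + 1)) - w (m + 1 + 1) * d (m + 1 + 1) =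
          (∑ i ∈ Finset.range (m + 1), w (i + 1) * (d (i + 1) - d i) - w (m + 1) * d (m + 1)) +
            (w (m + 1) - w (m + 2)) * d (m + 1) := by ring
      rw [e1]
      have h2 : |(w (m + 1) - w (m + 2)) * d (m + 1)| ≤ (w (m + 1) - w (m + 2)) * K := by
        have h3 : 0 ≤ w (m + 1) - w (m + 2) := by
          have := hw m (by omega)
          linarith
        rw [abs_mul, abs_of_nonneg h3]
        exact mul_le_mul_of_nonneg_left (hd (m + 1) (by omega)) h3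
      refine (abs_add_le _ _).trans ?_
      have e2 : K * (2 * w 1 - w (m + 1 + 1)) =
          K * (2 * w 1 - w (m + 1)) + (w (m + 1) - w (m + 2)) * K := by ring
      rw [e2]
      exact add_le_add h1 h2
  have h1 := key M le_rfl
  have h2 : |w (M + 1) * d (M + 1)| ≤ w (M + 1) * K := by
    rw [abs_mul, abs_of_nonneg (hw0 M le_rfl)]
    exact mul_le_mul_of_nonneg_left (hd (M + 1) le_rfl) (hw0 M le_rfl)
  have e1 : ∑ i ∈ Finset.range (M + 1), w (i + 1) * (d (i + 1) - d i) =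
      (∑ i ∈ Finset.range (M + 1), w (i + 1) * (d (i + 1) - d i) - w (M + 1) * d (M + 1)) +
        w (M + 1) * d (M + 1) := by ring
  rw [e1]
  refine (abs_add_le _ _).trans ?_
  have e2 : 2 * w 1 * K = K * (2 * w 1 - w (M + 1)) + w (M + 1) * K := by ring
  rw [e2]
  exact add_le_add h1 h2

theorem disc (N : ℕ) (hN : 3 ≤ N) (δ k ω D C : ℝ) (hδ : 0 < δ) (hω : 0 ≤ ω) (hD : 0 ≤ D)
    (hC : 0 ≤ C) (f g S E Γ lam V : ℕ → ℝ)
    (hf0 : ∀ j, j ≤ N → 0 < f j) (hfa : ∀ j, j < N → f (j + 1) ≤ f j)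
    (hfg : ∀ j, j < N → f (j + 1) * (g (j + 1) - g j) ≤ f j - f (j + 1))
    (hG0 : 0 < g 1 - g 0)
    (hconv : ∀ j, 1 ≤ j → j < N → g j - g (j - 1) ≤ g (j + 1) - g j)
    (hSN : 0 ≤ S N)
    (hS : ∀ j, j < N → f (j + 1) * δ ≤ S j - S (j + 1))
    (hS' : ∀ j, j < N → S j - S (j + 1) ≤ f j * δ)
    (hE : ∀ j, j < N → |E j - E (j + 1) + S j * (lam (j + 1) - lam j)| ≤ C * δ ^ 2)
    (hΓ : ∀ j, j < N → S (j + 1) ^ 2 * (g (j + 1) - g j) / f j ≤ Γ j - Γ (j + 1))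
    (hlam : ∀ j, j < N → |lam (j + 1) - lam j| ≤ D * δ)
    (hb : ∀ j, j ≤ N → 0 ≤ f j * V j + k ^ 2 * Γ j - 2 * k * E j)
    (hV : ∀ j, j ≤ N → V j ≤ 2)
    (ha : ∀ j, 1 ≤ j → j < N →
      (lam (j + 1) - lam (j - 1)) ^ 2 ≤ 4 * (2 - V j + ω) * (g (j + 1) + g (j - 1) - 2 * g j)) :
    (g 1 - g 0) / δ * (2 * (S 2 - S N) - k ^ 2 * δ * S 0 ^ 2 / f N) -
        2 * |k| * (C * N * δ ^ 2 + D * δ * S 0) ≤
      k ^ 2 * Γ 1 + (2 + ω) * f 1 - 2 * k * E 1 := by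
  obtain ⟨M, rfl⟩ : ∃ M, N = M + 2 := ⟨N - 2, by omega⟩
  have hM : 1 ≤ M := by omega
  set G : ℕ → ℝ := fun j => (g (j + 1) - g j) / δ with hG
  set T : ℕ → ℝ := fun j => k ^ 2 * Γ j + (2 + ω) * f j - 2 * k * E j with hT
  have hGδ : ∀ j, δ * G j = g (j + 1) - g j := by
    intro j
    simp only [hG]
    field_simp
  have hGm : ∀ j, j + 1 < M + 2 → G j ≤ G (j + 1) := by
    intro j hj
    have h1 := hconv (j + 1) (by omega) hj
    rw [Nat.add_sub_cancel] at h1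
    simp only [hG]
    gcongr
  have hG0' : 0 < G 0 := by
    simp only [hG]
    positivity
  have hGj : ∀ j, j < M + 2 → G 0 ≤ G j := by
    intro j
    induction j with
    | zero => intro _; exact le_rfl
    | succ j ih =>
      intro hj
      exact (ih (by omega)).trans (hGm j hj)
  have hfN : ∀ i j, i ≤ j → j ≤ M + 2 → f j ≤ f i := by
    intro i j hij
    induction j, hij using Nat.le_induction with
    | base => intro _; exact le_rfl
    | succ j hij ih =>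
      intro hj
      exact (hfa j (by omega)).trans (ih (by omega))
  have hSm : ∀ j, j < M + 2 → S (j + 1) ≤ S j := by
    intro j hj
    have h1 := hS j hj
    have h2 := hf0 (j + 1) (by omega)
    have h3 : 0 < f (j + 1) * δ := mul_pos h2 hδ
    linarith
  have hSle : ∀ i j, i ≤ j → j ≤ M + 2 → S j ≤ S i := by
    intro i j hij
    induction j, hij using Nat.le_induction with
    | base => intro _; exact le_rfl
    | succ j hij ih =>
      intro hj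
      exact (hSm j (by omega)).trans (ih (by omega))
  have hS0 : ∀ j, j ≤ M + 2 → 0 ≤ S j := fun j hj => hSN.trans (hSle j (M + 2) hj le_rfl)
  set d : ℕ → ℝ := fun j => lam (j + 1) - lam j with hd
  set w : ℕ → ℝ := fun j => S j / G j with hw
  -- the steps
  have hstep : ∀ i ∈ Finset.range (M + 1),
      2 * (f (i + 2) * δ) - k ^ 2 * δ / f (M + 2) * (S (i + 1) ^ 2 - S (i + 2) ^ 2) -
        2 * |k| * C * δ ^ 2 / G 0 + k * (w (i + 1) * (d (i + 1) - d i)) ≤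
        T (i + 1) / G i - T (i + 2) / G (i + 1) := by
    intro i hi
    rw [Finset.mem_range] at hi
    have h1 := hb (i + 1) (by omega)
    have h2 := hV (i + 1) (by omega)
    have h3 := ha (i + 1) (by omega) (by omega)
    have h4 := hE (i + 1) (by omega)
    have h5 := hΓ (i + 1) (by omega)
    have h6 := hfg (i + 1) (by omega)
    rw [Nat.add_sub_cancel] at h3
    have e1 : g (i + 1 + 1) + g i - 2 * g (i + 1) = δ * (G (i + 1) - G i) := by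
      rw [mul_sub, hGδ, hGδ]
      ring
    rw [e1] at h3
    rw [← hGδ (i + 1)] at h5 h6
    exact disc_step hδ hω hC (hf0 (i + 1) (by omega)) (hf0 (M + 2) le_rfl)
      (hfN (i + 1) (M + 2) (by omega) le_rfl) (hfa (i + 1) (by omega)) hG0' (hGj i (by omega))
      (hGm i (by omega)) (hS0 (i + 2) (by omega)) (hSm (i + 1) (by omega)) h6 h4 h5 h1 h2 h3
      rfl rfl
  have hsum := Finset.sum_le_sum hstep
  rw [Finset.sum_range_sub' (fun i => T (i + 1) / G i) (M + 1), Finset.sum_add_distrib,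
    Finset.sum_sub_distrib, Finset.sum_sub_distrib, ← Finset.mul_sum, ← Finset.mul_sum,
    ← Finset.mul_sum, Finset.sum_range_sub' (fun i => S (i + 1) ^ 2) (M + 1),
    Finset.sum_const, Finset.card_range, nsmul_eq_mul] at hsum
  -- the first sum
  have hA : S 2 - S (M + 2) ≤ ∑ i ∈ Finset.range (M + 1), f (i + 2) * δ := by
    rw [Finset.sum_range_succ]
    have h1 : ∑ i ∈ Finset.range M, (S (i + 2) - S (i + 2 + 1)) ≤
        ∑ i ∈ Finset.range M, f (i + 2) * δ :=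
      Finset.sum_le_sum fun i hi => hS' (i + 2) (by rw [Finset.mem_range] at hi; omega)
    rw [Finset.sum_range_sub' (fun i => S (i + 2)) M] at h1
    have h2 := mul_pos (hf0 (M + 2) le_rfl) hδ
    have h3 : S (0 + 2) = S 2 := rfl
    linarith
  -- the last sum
  have hB : |∑ i ∈ Finset.range (M + 1), w (i + 1) * (d (i + 1) - d i)| ≤
      2 * w 1 * (D * δ) := by
    refine disc_parts w d (D * δ) (by positivity) M ?_ ?_ ?_
    · intro i hi
      simp only [hw]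
      have h1 := hGj (i + 1) (by omega)
      have h2 : 0 < G (i + 1) := lt_of_lt_of_le hG0' h1
      have h3 := hGm (i + 1) (by omega)
      have h4 := hSm (i + 1) (by omega)
      have h5 := hS0 (i + 2) (by omega)
      exact div_le_div₀ (h5.trans h4) h4 h2 h3
    · intro i hi
      simp only [hw]
      have h1 := hGj (i + 1) (by omega)
      have h2 : 0 < G (i + 1) := lt_of_lt_of_le hG0' h1
      exact div_nonneg (hS0 (i + 1) (by omega)) h2.le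
    · intro i hi
      exact hlam i (by omega)
  have hw1 : w 1 ≤ S 0 / G 0 := by
    simp only [hw]
    have h1 := hSm 0 (by omega)
    exact div_le_div₀ (hS0 0 (by omega)) h1 hG0' (hGm 0 (by omega))
  have hB' : -(|k| * (2 * (S 0 / G 0) * (D * δ))) ≤
      k * ∑ i ∈ Finset.range (M + 1), w (i + 1) * (d (i + 1) - d i) := by
    have h1 : |k * ∑ i ∈ Finset.range (M + 1), w (i + 1) * (d (i + 1) - d i)| ≤
        |k| * (2 * (S 0 / G 0) * (D * δ)) := by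
      rw [abs_mul]
      refine mul_le_mul_of_nonneg_left (hB.trans ?_) (abs_nonneg k)
      gcongr
    exact (abs_le.1 h1).1
  have hTN : 0 ≤ T (M + 2) / G (M + 1) := by
    have h1 := hb (M + 2) le_rfl
    have h2 := hV (M + 2) le_rfl
    have h3 := hf0 (M + 2) le_rfl
    have h4 : 0 < G (M + 1) := lt_of_lt_of_le hG0' (hGj (M + 1) (by omega))
    refine div_nonneg ?_ h4.le
    simp only [hT]
    nlinarith
  have hmain : 2 * (S 2 - S (M + 2)) - k ^ 2 * δ * S 0 ^ 2 / f (M + 2) -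
      2 * |k| * (C * (M + 2 : ℕ) * δ ^ 2 + D * δ * S 0) / G 0 ≤ T 1 / G 0 := by
    have h1 : k ^ 2 * δ / f (M + 2) * (S (0 + 1) ^ 2 - S (M + 1 + 1) ^ 2) ≤
        k ^ 2 * δ * S 0 ^ 2 / f (M + 2) := by
      have e1 : k ^ 2 * δ * S 0 ^ 2 / f (M + 2) = k ^ 2 * δ / f (M + 2) * S 0 ^ 2 := by ring
      rw [e1]
      have e2 : 0 ≤ k ^ 2 * δ / f (M + 2) := by
        have := hf0 (M + 2) le_rfl
        positivity
      refine mul_le_mul_of_nonneg_left ?_ e2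
      have e3 : S (0 + 1) ≤ S 0 := hSm 0 (by omega)
      have e4 := hS0 (0 + 1) (by omega)
      nlinarith [sq_nonneg (S (M + 1 + 1))]
    have h2 : ((M + 1 : ℕ) : ℝ) * (2 * |k| * C * δ ^ 2 / G 0) ≤
        2 * |k| * (C * (M + 2 : ℕ) * δ ^ 2) / G 0 := by
      have e1 : 2 * |k| * (C * (M + 2 : ℕ) * δ ^ 2) / G 0 =
          ((M + 2 : ℕ) : ℝ) * (2 * |k| * C * δ ^ 2 / G 0) := by ring
      rw [e1]
      have e2 : 0 ≤ 2 * |k| * C * δ ^ 2 / G 0 := by positivity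
      refine mul_le_mul_of_nonneg_right ?_ e2
      exact_mod_cast Nat.le_succ (M + 1)
    have h3 : 2 * |k| * (C * (M + 2 : ℕ) * δ ^ 2 + D * δ * S 0) / G 0 =
        2 * |k| * (C * (M + 2 : ℕ) * δ ^ 2) / G 0 + |k| * (2 * (S 0 / G 0) * (D * δ)) := by
      field_simp
    rw [h3]
    simp only [Nat.zero_add] at hsum h1
    have h4 : M + 1 + 1 = M + 2 := rfl
    rw [h4] at hsum h1
    linarith
  have hfin := mul_le_mul_of_nonneg_left hmain hG0'.le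
  have e1 : G 0 * (T 1 / G 0) = T 1 := by field_simp
  have e2 : G 0 * (2 * (S 2 - S (M + 2)) - k ^ 2 * δ * S 0 ^ 2 / f (M + 2) -
      2 * |k| * (C * (M + 2 : ℕ) * δ ^ 2 + D * δ * S 0) / G 0) =
      G 0 * (2 * (S 2 - S (M + 2)) - k ^ 2 * δ * S 0 ^ 2 / f (M + 2)) -
      2 * |k| * (C * (M + 2 : ℕ) * δ ^ 2 + D * δ * S 0) := by
    field_simp
  rw [e1, e2] at hfin
  exact hfin

end Vale.Agent.P254U
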