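import Mathlib

/-!
P254U/StdSimplex: moments of the solid standard simplex.
For `α : Fin n → ℕ`, `∫_{stdS n} ∏ x_i^(α i) = ∏ (α i)! / (n + ∑ α i)!` (Dirichlet).
Proof: induction on `n` with the more general set `{x | 0 ≤ x_i, ∑ x_i ≤ c}` (scaling gives
`c^(n+∑α)`) and the Beta integral.
-/

open MeasureTheory Set

namespace Vale.Agent.P254U

def stdS (n : ℕ) : Set (Fin n → ℝ) := {x | (∀ i, 0 ≤ x i) ∧ ∑ i, x i ≤ 1}

/-- the scaled solid simplex -/
def stdSimplexC (n : ℕ) (c : ℝ) : Set (Fin n → ℝ) := {x | (∀ i, 0 ≤ x i) ∧ ∑ i, x i ≤ c}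

theorem stdSimplex_isClosed (n : ℕ) (c : ℝ) : IsClosed (stdSimplexC n c) := by
  have h1 : IsClosed {x : Fin n → ℝ | ∀ i, 0 ≤ x i} := by
    have : {x : Fin n → ℝ | ∀ i, 0 ≤ x i} = ⋂ i, {x : Fin n → ℝ | 0 ≤ x i} := by
      ext x; simp
    rw [this]
    exact isClosed_iInter fun i => isClosed_le continuous_const (continuous_apply i)
  have h2 : IsClosed {x : Fin n → ℝ | ∑ i, x i ≤ c} :=
    isClosed_le (continuous_finsetSum _ fun i _ => continuous_apply i) continuous_const
  exact h1.inter h2

theorem stdSimplex_isCompact (n : ℕ) (c : ℝ) : IsCompact (stdSimplexC n c) := by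
  refine IsCompact.of_isClosed_subset (isCompact_Icc (a := (0 : Fin n → ℝ)) (b := fun _ => c))
    (stdSimplex_isClosed n c) ?_
  intro x hx
  refine ⟨fun i => hx.1 i, fun i => ?_⟩
  exact (Finset.single_le_sum (fun j _ => hx.1 j) (Finset.mem_univ i)).trans hx.2

/-- Beta integral with natural exponents -/
theorem stdSimplex_beta (b : ℕ) : ∀ (a : ℕ) (c : ℝ), 0 ≤ c →
    ∫ t in (0 : ℝ)..c, t ^ a * (c - t) ^ b =
      c ^ (a + b + 1) * ((a.factorial : ℝ) * b.factorial) / ((a + b + 1).factorial : ℝ) := by
  induction b with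
  | zero =>
    intro a c hc
    simp only [pow_zero, mul_one, integral_pow, Nat.factorial_zero, Nat.cast_one, add_zero]
    have h1 : ((a + 1).factorial : ℝ) = (a + 1) * a.factorial := by
      rw [Nat.factorial_succ]; push_cast; ring
    have h2 : (a.factorial : ℝ) ≠ 0 := by positivity
    have h3 : ((a : ℝ) + 1) ≠ 0 := by positivity
    rw [h1]
    field_simp
    simp
  | succ b ih =>
    intro a c hc
    have h3 : ((a : ℝ) + 1) ≠ 0 := by positivity
    have hu : ∀ x ∈ uIcc (0 : ℝ) c, HasDerivAt (fun t => (c - t) ^ (b + 1))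
        (-((b + 1 : ℝ) * (c - x) ^ b)) x := by
      intro x _
      have h := ((hasDerivAt_id x).const_sub c).pow (b + 1)
      simp only [id] at h
      have h' := h.congr_deriv (show _ = -((b + 1 : ℝ) * (c - x) ^ b) by
        simp only [Nat.add_sub_cancel]; push_cast; ring)
      exact h'
    have hv : ∀ x ∈ uIcc (0 : ℝ) c, HasDerivAt (fun t => t ^ (a + 1) / ((a : ℝ) + 1))
        (x ^ a) x := by
      intro x _
      have h := ((hasDerivAt_id x).pow (a + 1)).div_const ((a : ℝ) + 1)
      simp only [id] at h
      have h' := h.congr_deriv (show _ = x ^ a by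
        simp only [Nat.add_sub_cancel]; push_cast; field_simp)
      exact h'
    have hp := intervalIntegral.integral_mul_deriv_eq_deriv_mul hu hv
      (by apply Continuous.intervalIntegrable; fun_prop)
      (by apply Continuous.intervalIntegrable; fun_prop)
    have e1 : ∫ t in (0 : ℝ)..c, t ^ a * (c - t) ^ (b + 1) =
        ∫ t in (0 : ℝ)..c, (c - t) ^ (b + 1) * t ^ a := by
      congr 1; ext t; ring
    have e2 : ∫ x in (0 : ℝ)..c, -((b + 1 : ℝ) * (c - x) ^ b) * (x ^ (a + 1) / ((a : ℝ) + 1)) =
        -(((b + 1 : ℝ) / (a + 1)) * ∫ x in (0 : ℝ)..c, x ^ (a + 1) * (c - x) ^ b) := by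
      rw [← intervalIntegral.integral_const_mul, ← intervalIntegral.integral_neg]
      congr 1; ext t; field_simp
    rw [e1, hp, e2, ih (a + 1) c hc]
    have h4 : ((a + 1).factorial : ℝ) = (a + 1) * a.factorial := by
      rw [Nat.factorial_succ]; push_cast; ring
    have h5 : ((b + 1).factorial : ℝ) = (b + 1) * b.factorial := by
      rw [Nat.factorial_succ]; push_cast; ring
    have h6 : a + 1 + b + 1 = a + (b + 1) + 1 := by ring
    rw [h4, h5, h6]
    have h7 : (((a + (b + 1) + 1).factorial : ℕ) : ℝ) ≠ 0 := by positivity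
    simp
    field_simp

theorem stdSimplex_moment (n : ℕ) : ∀ (α : Fin n → ℕ) (c : ℝ), 0 ≤ c →
    ∫ x in stdSimplexC n c, ∏ i, x i ^ (α i) =
      c ^ (n + ∑ i, α i) * (∏ i, ((α i).factorial : ℝ)) / ((n + ∑ i, α i).factorial : ℝ) := by
  induction n with
  | zero =>
    intro α c hc
    have h : stdSimplexC 0 c = univ := by
      ext x; simp [stdSimplexC, hc]
    rw [h, setIntegral_univ, volume_pi, Measure.pi_of_empty]
    simp
  | succ n ih =>
    intro α c hc
    set f : (Fin (n + 1) → ℝ) → ℝ := fun x => ∏ i, x i ^ (α i) with hf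
    have hfc : Continuous f := by fun_prop
    have hint : Integrable ((stdSimplexC (n + 1) c).indicator f) := by
      rw [integrable_indicator_iff (stdSimplex_isClosed _ _).measurableSet]
      exact hfc.continuousOn.integrableOn_compact (stdSimplex_isCompact _ _)
    have hmp := (volume_preserving_piFinSuccAbove (fun _ : Fin (n + 1) => ℝ) 0).symm
    have hint2 : Integrable (fun p : ℝ × (Fin n → ℝ) =>
        (stdSimplexC (n + 1) c).indicator f
          ((MeasurableEquiv.piFinSuccAbove (fun _ : Fin (n + 1) => ℝ) 0).symm p)) :=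
      (hmp.integrable_comp_emb (MeasurableEquiv.measurableEmbedding _)).2 hint
    rw [← integral_indicator (stdSimplex_isClosed _ _).measurableSet,
      ← hmp.integral_comp (MeasurableEquiv.measurableEmbedding _), Measure.volume_eq_prod,
      integral_prod _ hint2]
    have hinner : ∀ t : ℝ, (∫ y : Fin n → ℝ, (stdSimplexC (n + 1) c).indicator f
          ((MeasurableEquiv.piFinSuccAbove (fun _ : Fin (n + 1) => ℝ) 0).symm (t, y))) =
        (Icc (0 : ℝ) c).indicator (fun t => t ^ (α 0) * ((c - t) ^ (n + ∑ i : Fin n, α i.succ) *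
          (∏ i : Fin n, ((α i.succ).factorial : ℝ)) /
            ((n + ∑ i : Fin n, α i.succ).factorial : ℝ))) t := by
      intro t
      by_cases ht : t ∈ Icc (0 : ℝ) c
      · rw [indicator_of_mem ht, ← ih (fun i => α i.succ) (c - t) (by linarith [ht.2]),
          ← integral_const_mul, ← integral_indicator (stdSimplex_isClosed _ _).measurableSet]
        congr 1
        ext y
        have hsy : (MeasurableEquiv.piFinSuccAbove (fun _ : Fin (n + 1) => ℝ) 0).symm (t, y) =
            Fin.cons t y := by
          ext j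
          refine Fin.cases ?_ (fun j => ?_) j <;>
          simp [MeasurableEquiv.piFinSuccAbove, Fin.insertNthEquiv]
        rw [hsy]
        by_cases hy : y ∈ stdSimplexC n (c - t)
        · have h1 : (Fin.cons t y : Fin (n + 1) → ℝ) ∈ stdSimplexC (n + 1) c := by
            refine ⟨fun i => ?_, ?_⟩
            · refine Fin.cases ?_ (fun j => ?_) i
              · simpa using ht.1
              · simpa using hy.1 j
            · rw [Fin.sum_univ_succ]
              simp only [Fin.cons_zero, Fin.cons_succ]
              linarith [hy.2]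
          rw [indicator_of_mem hy, indicator_of_mem h1, hf]
          simp only [Fin.prod_univ_succ, Fin.cons_zero, Fin.cons_succ]
        · have h1 : (Fin.cons t y : Fin (n + 1) → ℝ) ∉ stdSimplexC (n + 1) c := by
            intro h
            apply hy
            refine ⟨fun i => by simpa using h.1 i.succ, ?_⟩
            have := h.2
            rw [Fin.sum_univ_succ] at this
            simp only [Fin.cons_zero, Fin.cons_succ] at this
            linarith
          rw [indicator_of_notMem hy, indicator_of_notMem h1]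
      · rw [indicator_of_notMem ht]
        have : ∀ y : Fin n → ℝ, (stdSimplexC (n + 1) c).indicator f
          ((MeasurableEquiv.piFinSuccAbove (fun _ : Fin (n + 1) => ℝ) 0).symm (t, y)) = 0 := by
          intro y
          have hsy : (MeasurableEquiv.piFinSuccAbove (fun _ : Fin (n + 1) => ℝ) 0).symm (t, y) =
              Fin.cons t y := by
            ext j
            refine Fin.cases ?_ (fun j => ?_) j <;>
            simp [MeasurableEquiv.piFinSuccAbove, Fin.insertNthEquiv]
          rw [hsy]
          apply indicator_of_notMem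
          intro h
          apply ht
          have h0 := h.1 0
          have h1 := h.2
          rw [Fin.sum_univ_succ] at h1
          simp only [Fin.cons_zero, Fin.cons_succ] at h0 h1
          have h2 : 0 ≤ ∑ i : Fin n, y i :=
            Finset.sum_nonneg fun i _ => by simpa using h.1 i.succ
          exact ⟨h0, by linarith⟩
        rw [integral_congr_ae (Filter.Eventually.of_forall this)]
        simp
    simp_rw [hinner]
    rw [integral_indicator measurableSet_Icc, integral_Icc_eq_integral_Ioc,
      ← intervalIntegral.integral_of_le hc]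
    have e1 : ∫ t in (0 : ℝ)..c, t ^ (α 0) * ((c - t) ^ (n + ∑ i : Fin n, α i.succ) *
          (∏ i : Fin n, ((α i.succ).factorial : ℝ)) /
            ((n + ∑ i : Fin n, α i.succ).factorial : ℝ)) =
        ((∏ i : Fin n, ((α i.succ).factorial : ℝ)) /
            ((n + ∑ i : Fin n, α i.succ).factorial : ℝ)) *
          ∫ t in (0 : ℝ)..c, t ^ (α 0) * (c - t) ^ (n + ∑ i : Fin n, α i.succ) := by
      rw [← intervalIntegral.integral_const_mul]
      congr 1; ext t; ring
    rw [e1, stdSimplex_beta _ _ _ hc, Fin.prod_univ_succ, Fin.sum_univ_succ]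
    have h6 : α 0 + (n + ∑ i : Fin n, α i.succ) + 1 = n + 1 + (α 0 + ∑ i : Fin n, α i.succ) := by
      ring
    rw [h6]
    have h7 : (((n + ∑ i : Fin n, α i.succ).factorial : ℕ) : ℝ) ≠ 0 := by positivity
    field_simp

theorem stdS_moment (n : ℕ) (α : Fin n → ℕ) :
    ∫ x in stdS n, ∏ i, x i ^ (α i) =
      (∏ i, ((α i).factorial : ℝ)) / ((n + ∑ i, α i).factorial : ℝ) := by
  have h := stdSimplex_moment n α 1 zero_le_one
  rw [one_pow, one_mul] at h
  exact h

end Vale.Agent.P254U
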