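import Vale.Agent.Lib.P254U.Aff
import Vale.Agent.Lib.P254U.StdSimplex

/-!
P254U/Simp: the isotropic constant of a simplex.

`stdS n`: volume `1/n!`, means `1/(n+1)`, `E x_i^2 = 2/((n+1)(n+2))`, `E x_i x_j = 1/((n+1)(n+2))`, so the
covariance matrix is `((n+1) I - J)/((n+1)^2 (n+2))` with `J` the all ones matrix, and
`det ((n+1) I - J) = (n+1)^(n-1)` (`Matrix.det_one_add_replicateCol_mul_replicateRow` or
`Matrix.det_one_sub_mul_comm`), so `det Σ = 1/((n+1)^(n+1) (n+2)^n)`.
Every simplex is an affine image of `stdS n`: the affine map sending `0` to `v 0` and `e_i` to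
`v i.succ` is an affine equivalence, and `convexHull` commutes with it
(`AffineMap.image_convexHull`); `stdS n = convexHull (range (Fin.cons 0 e))`.
-/

open MeasureTheory Set

namespace Vale.Agent.P254U

theorem stdS_compact (n : ℕ) : IsCompact (stdS n) := by
  have h1 : IsClosed (stdS n) := by
    have h2 : stdS n = (⋂ i, {x : Fin n → ℝ | 0 ≤ x i}) ∩ {x | ∑ i, x i ≤ 1} := by
      ext x
      simp [stdS]
    rw [h2]
    refine IsClosed.inter ?_ ?_
    · exact isClosed_iInter fun i => isClosed_le continuous_const (continuous_apply i)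
    · exact isClosed_le (continuous_finsetSum _ fun i _ => continuous_apply i) continuous_const
  refine (isCompact_Icc (a := (0 : Fin n → ℝ)) (b := 1)).of_isClosed_subset h1 ?_
  intro x hx
  refine ⟨fun i => hx.1 i, fun i => ?_⟩
  refine le_trans ?_ hx.2
  exact Finset.single_le_sum (f := x) (fun j _ => hx.1 j) (Finset.mem_univ i)

theorem simp_convex (n : ℕ) : Convex ℝ (stdS n) := by
  intro x hx y hy a b ha hb hab
  refine ⟨fun i => ?_, ?_⟩
  · simp only [Pi.add_apply, Pi.smul_apply, smul_eq_mul]
    have := hx.1 i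
    have := hy.1 i
    positivity
  · simp only [Pi.add_apply, Pi.smul_apply, smul_eq_mul]
    rw [Finset.sum_add_distrib, ← Finset.mul_sum, ← Finset.mul_sum]
    calc a * ∑ i, x i + b * ∑ i, y i ≤ a * 1 + b * 1 :=
          add_le_add (mul_le_mul_of_nonneg_left hx.2 ha) (mul_le_mul_of_nonneg_left hy.2 hb)
      _ = 1 := by rw [mul_one, mul_one, hab]

theorem simp_vol (n : ℕ) : (volume (stdS n)).toReal = 1 / (n.factorial : ℝ) := by
  have h := stdS_moment n 0
  simpa [Measure.real] using h

theorem simp_one (n : ℕ) (i : Fin n) :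
    ∫ x in stdS n, x i = 1 / ((n + 1).factorial : ℝ) := by
  have h := stdS_moment n (Pi.single i 1)
  have h1 : ∀ x : Fin n → ℝ, ∏ j, x j ^ ((Pi.single i 1 : Fin n → ℕ) j) = x i := by
    intro x
    rw [Finset.prod_eq_single i]
    · simp
    · intro j _ hj
      simp [Pi.single_eq_of_ne hj]
    · intro h
      exact absurd (Finset.mem_univ i) h
  have h2 : ∏ j, (((Pi.single i 1 : Fin n → ℕ) j).factorial : ℝ) = 1 := by
    refine Finset.prod_eq_one fun j _ => ?_
    by_cases hj : j = i
    · subst hj; simp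
    · simp [Pi.single_eq_of_ne hj]
  have h3 : ∑ j, (Pi.single i 1 : Fin n → ℕ) j = 1 := by
    rw [Finset.sum_pi_single']
    simp
  simp only [h1, h2, h3] at h
  exact h

theorem simp_two (n : ℕ) (i j : Fin n) :
    ∫ x in stdS n, x i * x j = (if i = j then 2 else 1) / ((n + 2).factorial : ℝ) := by
  have h := stdS_moment n (Pi.single i 1 + Pi.single j 1)
  have h1 : ∀ x : Fin n → ℝ, ∏ k, x k ^ ((Pi.single i 1 + Pi.single j 1 : Fin n → ℕ) k) =
      x i * x j := by
    intro x
    have h0 : ∀ i : Fin n, ∏ k, x k ^ ((Pi.single i 1 : Fin n → ℕ) k) = x i := by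
      intro i
      rw [Finset.prod_eq_single i]
      · simp
      · intro j _ hj
        simp [Pi.single_eq_of_ne hj]
      · intro h
        exact absurd (Finset.mem_univ i) h
    simp only [Pi.add_apply, pow_add, Finset.prod_mul_distrib, h0]
  have h2 : ∏ k, (((Pi.single i 1 + Pi.single j 1 : Fin n → ℕ) k).factorial : ℝ) =
      if i = j then 2 else 1 := by
    by_cases hij : i = j
    · subst hij
      rw [if_pos rfl, Finset.prod_eq_single i]
      · simp
      · intro k _ hk
        simp [Pi.single_eq_of_ne hk]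
      · intro h
        exact absurd (Finset.mem_univ i) h
    · rw [if_neg hij]
      refine Finset.prod_eq_one fun k _ => ?_
      by_cases hi : k = i
      · subst hi
        simp [Pi.single_eq_of_ne hij]
      · by_cases hj : k = j
        · subst hj
          simp [Pi.single_eq_of_ne hi]
        · simp [Pi.single_eq_of_ne hi, Pi.single_eq_of_ne hj]
  have h3 : ∑ k, (Pi.single i 1 + Pi.single j 1 : Fin n → ℕ) k = 2 := by
    simp only [Pi.add_apply, Finset.sum_add_distrib]
    rw [Finset.sum_pi_single', Finset.sum_pi_single']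
    simp
  simp only [h1, h2, h3] at h
  exact h

theorem simp_cen (n : ℕ) (i : Fin n) : cen (stdS n) i = 1 / ((n : ℝ) + 1) := by
  rw [cen, simp_one, simp_vol, Nat.factorial_succ]
  have := Nat.factorial_pos n
  push_cast
  field_simp

theorem simp_cov (n : ℕ) (i j : Fin n) :
    covM (stdS n) i j = ((if i = j then ((n : ℝ) + 1) else 0) - 1) /
      (((n : ℝ) + 1) ^ 2 * ((n : ℝ) + 2)) := by
  have hc := stdS_compact n
  have hint : ∀ f : (Fin n → ℝ) → ℝ, Continuous f → IntegrableOn f (stdS n) := fun f hf =>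
    hf.continuousOn.integrableOn_compact hc
  simp only [covM, simp_cen, simp_vol]
  have h1 : ∫ x in stdS n, (x i - 1 / ((n : ℝ) + 1)) * (x j - 1 / ((n : ℝ) + 1)) =
      (if i = j then 2 else 1) / ((n + 2).factorial : ℝ) -
        1 / ((n : ℝ) + 1) * (1 / ((n + 1).factorial : ℝ)) -
        1 / ((n : ℝ) + 1) * (1 / ((n + 1).factorial : ℝ)) +
        (1 / ((n : ℝ) + 1)) ^ 2 * (1 / (n.factorial : ℝ)) := by
    have h2 : ∀ x : Fin n → ℝ, (x i - 1 / ((n : ℝ) + 1)) * (x j - 1 / ((n : ℝ) + 1)) =
        (x i * x j - 1 / ((n : ℝ) + 1) * x i - 1 / ((n : ℝ) + 1) * x j) +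
        (1 / ((n : ℝ) + 1)) ^ 2 := by
      intro x; ring
    simp only [h2]
    rw [integral_add, integral_sub, integral_sub, integral_const_mul, integral_const_mul,
      simp_one, simp_one, simp_two]
    · congr 1
      rw [setIntegral_const, Measure.real, simp_vol, smul_eq_mul, mul_comm]
    · exact hint _ ((continuous_apply i).mul (continuous_apply j))
    · exact hint _ (continuous_const.mul (continuous_apply i))
    · exact hint _ (((continuous_apply i).mul (continuous_apply j)).sub
        (continuous_const.mul (continuous_apply i)))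
    · exact hint _ (continuous_const.mul (continuous_apply j))
    · exact hint _ ((((continuous_apply i).mul (continuous_apply j)).sub
        (continuous_const.mul (continuous_apply i))).sub
          (continuous_const.mul (continuous_apply j)))
    · exact hint _ continuous_const
  rw [h1, Nat.factorial_succ, Nat.factorial_succ]
  have := Nat.factorial_pos n
  push_cast
  split_ifs
  · field_simp
    ring
  · field_simp
    ring

theorem simp_det (n : ℕ) : (covM (stdS n)).det =
    1 / (((n : ℝ) + 1) ^ (n + 1) * ((n : ℝ) + 2) ^ n) := by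
  have h1 : covM (stdS n) = (1 / (((n : ℝ) + 1) * ((n : ℝ) + 2))) •
      (1 + Matrix.replicateCol Unit (fun _ : Fin n => -1 / ((n : ℝ) + 1)) *
        Matrix.replicateRow Unit (fun _ : Fin n => (1 : ℝ))) := by
    ext i j
    rw [simp_cov]
    simp only [Matrix.smul_apply, Matrix.add_apply, Matrix.one_apply, Matrix.mul_apply,
      Matrix.replicateCol_apply, Matrix.replicateRow_apply, smul_eq_mul, Finset.univ_unique,
      Finset.sum_singleton]
    split_ifs
    · field_simp
      ring
    · field_simp
      ring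
  rw [h1, Matrix.det_smul, Matrix.det_one_add_replicateCol_mul_replicateRow]
  simp only [dotProduct, Fintype.card_fin, Finset.sum_const, Finset.card_univ, nsmul_eq_mul,
    one_mul]
  rw [div_pow, one_pow, mul_pow, pow_succ]
  field_simp
  ring

theorem isoConst_stdS (n : ℕ) (hn : 1 ≤ n) :
    isoConst (stdS n) = (((n.factorial : ℝ)) ^ 2 /
      (((n : ℝ) + 1) ^ (n + 1) * ((n : ℝ) + 2) ^ n)) ^ (1 / (2 * (n : ℝ))) := by
  rw [isoConst, simp_det, simp_vol]
  congr 1
  have := Nat.factorial_pos n
  field_simp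

theorem simplex_affine (n : ℕ) {v : Fin (n + 1) → (Fin n → ℝ)} (hv : AffineIndependent ℝ v) :
    ∃ T : (Fin n → ℝ) ≃ᵃ[ℝ] (Fin n → ℝ), T '' stdS n = convexHull ℝ (range v) := by
  have h1 := (affineIndependent_iff_linearIndependent_vsub ℝ v 0).1 hv
  have h2 : LinearIndependent ℝ (fun i : Fin n => v i.succ - v 0) := by
    have h3 := h1.comp (fun i : Fin n => (⟨i.succ, Fin.succ_ne_zero i⟩ : {x : Fin (n + 1) // x ≠ 0}))
      (by
        intro a b hab
        exact Fin.succ_injective _ (congrArg Subtype.val hab))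
    exact h3
  have h2s : ⊤ ≤ Submodule.span ℝ (range (fun i : Fin n => v i.succ - v 0)) := by
    rw [h2.span_eq_top_of_card_eq_finrank' (by simp)]
  let b := Module.Basis.mk h2 h2s
  have hb : ∀ i, b i = v i.succ - v 0 := by
    intro i
    exact Module.Basis.mk_apply h2 h2s i
  let T : (Fin n → ℝ) ≃ᵃ[ℝ] (Fin n → ℝ) :=
    (b.equivFun.symm.toAffineEquiv).trans (AffineEquiv.constVAdd ℝ (Fin n → ℝ) (v 0))
  have hT : ∀ x, T x = v 0 + ∑ i, x i • (v i.succ - v 0) := by
    intro x
    change v 0 + b.equivFun.symm x = _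
    rw [Module.Basis.equivFun_symm_apply]
    simp only [hb]
  refine ⟨T, ?_⟩
  apply Set.Subset.antisymm
  · rintro _ ⟨x, hx, rfl⟩
    rw [hT]
    have h4 : v 0 + ∑ i, x i • (v i.succ - v 0) =
        ∑ i : Fin (n + 1), (Fin.cons (1 - ∑ i, x i) x : Fin (n + 1) → ℝ) i • v i := by
      rw [Fin.sum_univ_succ]
      simp only [Fin.cons_zero, Fin.cons_succ, smul_sub, Finset.sum_sub_distrib, sub_smul,
        one_smul, ← Finset.sum_smul]
      abel
    rw [h4]
    refine (convex_convexHull ℝ (range v)).sum_mem ?_ ?_ ?_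
    · intro i _
      refine Fin.cases ?_ (fun k => ?_) i
      · simp only [Fin.cons_zero]
        linarith [hx.2]
      · simp only [Fin.cons_succ]
        exact hx.1 k
    · rw [Fin.sum_univ_succ]
      simp
    · intro i _
      exact subset_convexHull ℝ _ ⟨i, rfl⟩
  · refine convexHull_min ?_ ?_
    · rintro _ ⟨i, rfl⟩
      refine Fin.cases ?_ (fun k => ?_) i
      · refine ⟨0, ⟨fun _ => le_refl _, by simp⟩, ?_⟩
        rw [hT]
        simp
      · refine ⟨Pi.single k 1, ⟨fun j => ?_, ?_⟩, ?_⟩
        · by_cases hj : j = k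
          · subst hj; simp
          · simp [Pi.single_eq_of_ne hj]
        · rw [Finset.sum_pi_single']
          simp
        · rw [hT, Finset.sum_eq_single k]
          · simp
          · intro j _ hj
            simp [Pi.single_eq_of_ne hj]
          · intro h
            exact absurd (Finset.mem_univ k) h
    · exact (simp_convex n).affine_image (T : (Fin n → ℝ) →ᵃ[ℝ] (Fin n → ℝ))

theorem isoConst_simplex (n : ℕ) (hn : 1 ≤ n) {v : Fin (n + 1) → (Fin n → ℝ)}
    (hv : AffineIndependent ℝ v) :
    isoConst (convexHull ℝ (range v)) = (((n.factorial : ℝ)) ^ 2 /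
      (((n : ℝ) + 1) ^ (n + 1) * ((n : ℝ) + 2) ^ n)) ^ (1 / (2 * (n : ℝ))) := by
  obtain ⟨T, hT⟩ := simplex_affine n hv
  rw [← hT, isoConst_affine (stdS_compact n), isoConst_stdS n hn]

end Vale.Agent.P254U
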