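import Vale.Agent.Lib.P254U.Iso
import Vale.Agent.Lib.P254U.Basic

/-!
P254U/Unc: from unconditional bodies to corners.

`K` unconditional convex body, `posPart K = K ∩ {x ≥ 0}`.  It is a corner: down closed because for
`x ∈ K` and `|y_i| ≤ x_i` the point `y` is a convex combination of the sign changes of `x`
(one coordinate at a time); positive point: an interior point of `K` moved to the open orthant by
sign changes (perturb so that all coordinates are nonzero).
`K` is the union of the `2^n` reflected copies of `posPart K` (overlaps are null sets), so for even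
functions `∫_K φ = 2^n ∫_{posPart K} φ`; mixed first and second moments vanish by reflection.
-/

open MeasureTheory Set

namespace Vale.Agent.P254U

section aux

variable {n : ℕ}

/-- reflection in the coordinate `i` -/
def unc_refl (i : Fin n) (x : Fin n → ℝ) : Fin n → ℝ := fun j => (if j = i then -1 else 1) * x j

theorem unc_refl_invol (i : Fin n) : Function.Involutive (unc_refl i) := by
  intro x
  funext j
  unfold unc_refl
  by_cases h : j = i <;> simp [h]

theorem unc_refl_mp (i : Fin n) : MeasurePreserving (unc_refl i) volume volume := by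
  have h : MeasurePreserving (fun (a : Fin n → ℝ) (j : Fin n) =>
      (fun t : ℝ => (if j = i then (-1 : ℝ) else 1) * t) (a j)) volume volume := by
    refine volume_preserving_pi (f := fun j (t : ℝ) => (if j = i then (-1 : ℝ) else 1) * t)
      (fun j => ?_)
    by_cases h : j = i
    · have e : (fun t : ℝ => (if j = i then (-1 : ℝ) else 1) * t) = Neg.neg := by
        funext t
        simp [h]
      rw [e]
      exact Measure.measurePreserving_neg volume
    · have e : (fun t : ℝ => (if j = i then (-1 : ℝ) else 1) * t) = id := by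
        funext t
        simp [h]
      rw [e]
      exact MeasurePreserving.id volume
  exact h

theorem unc_refl_emb (i : Fin n) : MeasurableEmbedding (unc_refl i) :=
  (MeasurableEquiv.ofInvolutive (unc_refl i) (unc_refl_invol i)
    (unc_refl_mp i).measurable).measurableEmbedding

theorem unc_refl_setIntegral (i : Fin n) (A : Set (Fin n → ℝ)) (φ : (Fin n → ℝ) → ℝ) :
    ∫ x in unc_refl i ⁻¹' A, φ (unc_refl i x) = ∫ x in A, φ x :=
  (unc_refl_mp i).setIntegral_preimage_emb (unc_refl_emb i) φ A

theorem unc_refl_mem {K : Set (Fin n → ℝ)} (hu : Uncond K) (i : Fin n) {x : Fin n → ℝ}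
    (hx : x ∈ K) : unc_refl i x ∈ K := by
  refine hu x hx (fun j => if j = i then -1 else 1) (fun j => ?_)
  by_cases h : j = i <;> simp [h]

theorem unc_refl_preimage {K : Set (Fin n → ℝ)} (hu : Uncond K) (i : Fin n) :
    unc_refl i ⁻¹' K = K := by
  ext x
  constructor
  · intro hx
    have := unc_refl_mem hu i hx
    rwa [unc_refl_invol i x] at this
  · intro hx
    exact unc_refl_mem hu i hx

/-- odd functions have integral zero -/
theorem unc_odd {K : Set (Fin n → ℝ)} (hu : Uncond K) (i : Fin n) {φ : (Fin n → ℝ) → ℝ}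
    (h : ∀ x, φ (unc_refl i x) = -φ x) : ∫ x in K, φ x = 0 := by
  have h1 := unc_refl_setIntegral i K φ
  rw [unc_refl_preimage hu i] at h1
  simp only [h] at h1
  rw [integral_neg] at h1
  linarith

theorem unc_shrink {K : Set (Fin n → ℝ)} (hc : Convex ℝ K) (hu : Uncond K) (i : Fin n) {t : ℝ}
    (ht0 : 0 ≤ t) (ht1 : t ≤ 1) {x : Fin n → ℝ} (hx : x ∈ K) :
    Function.update x i (t * x i) ∈ K := by
  have h1 := hc hx (unc_refl_mem hu i hx) (a := (1 + t) / 2) (b := (1 - t) / 2) (by linarith)
    (by linarith) (by ring)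
  convert h1 using 1
  funext j
  simp only [Pi.add_apply, Pi.smul_apply, smul_eq_mul, unc_refl]
  by_cases h : j = i
  · subst h
    rw [Function.update_self]
    simp only [if_true]
    ring
  · rw [Function.update_of_ne h]
    simp only [h, if_false]
    ring

theorem unc_down {K : Set (Fin n → ℝ)} (hc : Convex ℝ K) (hu : Uncond K) {x y : Fin n → ℝ}
    (hx : x ∈ K) (h0 : ∀ i, 0 ≤ y i) (hxy : ∀ i, y i ≤ x i) : y ∈ K := by
  have key : ∀ s : Finset (Fin n), (fun i => if i ∈ s then y i else x i) ∈ K := by
    intro s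
    induction s using Finset.induction_on with
    | empty => simpa using hx
    | insert i s his ih =>
      have hxi : 0 ≤ x i := (h0 i).trans (hxy i)
      obtain ⟨t, ht0, ht1, hty⟩ : ∃ t : ℝ, 0 ≤ t ∧ t ≤ 1 ∧ t * x i = y i := by
        rcases eq_or_lt_of_le hxi with h | h
        · refine ⟨0, le_rfl, zero_le_one, ?_⟩
          have := hxy i
          have := h0 i
          linarith
        · exact ⟨y i / x i, div_nonneg (h0 i) hxi, (div_le_one h).2 (hxy i),
            div_mul_cancel₀ _ h.ne'⟩
      have h1 := unc_shrink hc hu i ht0 ht1 ih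
      convert h1 using 1
      funext j
      by_cases h : j = i
      · subst h
        rw [Function.update_self]
        simp only [his, if_false, Finset.mem_insert_self, if_true]
        exact hty.symm
      · rw [Function.update_of_ne h]
        simp [Finset.mem_insert, h]
  simpa using key Finset.univ

end aux

def posPart {n : ℕ} (K : Set (Fin n → ℝ)) : Set (Fin n → ℝ) := {x | x ∈ K ∧ ∀ i, 0 ≤ x i}

theorem posPart_corner {n : ℕ} {K : Set (Fin n → ℝ)} (hK : ConvBody n K) (hu : Uncond K) :
    Corner n (posPart K) := by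
  refine ⟨?_, ?_, fun x hx => hx.2, ?_, ?_⟩
  · have h1 : IsClosed {x : Fin n → ℝ | ∀ i, 0 ≤ x i} := by
      rw [Set.ofPred_forall]
      exact isClosed_iInter fun i => isClosed_le continuous_const (continuous_apply i)
    exact hK.compact.inter_right h1
  · intro x hx y hy a b ha hb hab
    refine ⟨hK.convex hx.1 hy.1 ha hb hab, fun i => ?_⟩
    simp only [Pi.add_apply, Pi.smul_apply, smul_eq_mul]
    exact add_nonneg (mul_nonneg ha (hx.2 i)) (mul_nonneg hb (hy.2 i))
  · intro x hx y hy hyx
    exact ⟨unc_down hK.convex hu hx.1 hy hyx, hy⟩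
  · obtain ⟨p, hp⟩ := hK.interior_nonempty
    obtain ⟨δ, hδ, hball⟩ := Metric.isOpen_iff.1 isOpen_interior p hp
    have hδ2 : 0 < δ / 2 := by linarith
    refine ⟨δ / 2, hδ2, ?_⟩
    have hp' : (fun i => if 0 ≤ p i then p i + δ / 2 else p i - δ / 2) ∈ K := by
      refine interior_subset (hball ?_)
      rw [Metric.mem_ball]
      refine lt_of_le_of_lt ?_ (show δ / 2 < δ by linarith)
      rw [dist_pi_le_iff hδ2.le]
      intro i
      split_ifs with h
      · rw [Real.dist_eq, add_sub_cancel_left, abs_of_pos hδ2]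
      · rw [Real.dist_eq, sub_sub_cancel_left, abs_neg, abs_of_pos hδ2]
    have hq := hu _ hp' (fun i => if 0 ≤ p i then 1 else -1) (fun i => by
      by_cases h : 0 ≤ p i <;> simp [h])
    refine ⟨unc_down hK.convex hu hq (fun i => hδ2.le) (fun i => ?_), fun i => hδ2.le⟩
    by_cases h : 0 ≤ p i
    · simp only [h, if_true]
      linarith
    · simp only [h, if_false]
      push Not at h
      linarith

theorem unc_step {n : ℕ} {K : Set (Fin n → ℝ)} (hK : ConvBody n K) (hu : Uncond K)
    {φ : (Fin n → ℝ) → ℝ} (hφ : Continuous φ)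
    (heven : ∀ x, ∀ ε : Fin n → ℝ, (∀ i, ε i = 1 ∨ ε i = -1) → φ (fun i => ε i * x i) = φ x)
    (s : Finset (Fin n)) :
    ∫ x in K, φ x = 2 ^ s.card * ∫ x in K ∩ {x | ∀ i ∈ s, 0 ≤ x i}, φ x := by
  induction s using Finset.induction_on with
  | empty => simp
  | insert i s his ih =>
    rw [ih, Finset.card_insert_of_notMem his, pow_succ, mul_assoc]
    congr 1
    have hKm : MeasurableSet K := hK.compact.measurableSet
    have hQm : MeasurableSet {x : Fin n → ℝ | ∀ j ∈ s, 0 ≤ x j} := by
      rw [Set.ofPred_forall]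
      refine MeasurableSet.iInter fun j => ?_
      rw [Set.ofPred_forall]
      exact MeasurableSet.iInter fun _ => measurableSet_le measurable_const (measurable_pi_apply j)
    have htm : MeasurableSet {x : Fin n → ℝ | 0 ≤ x i} :=
      measurableSet_le measurable_const (measurable_pi_apply i)
    have hint : IntegrableOn φ (K ∩ {x | ∀ j ∈ s, 0 ≤ x j}) volume :=
      (hφ.continuousOn.integrableOn_compact hK.compact).mono_set Set.inter_subset_left
    rw [← integral_inter_add_sdiff htm hint]
    have e1 : K ∩ {x : Fin n → ℝ | ∀ j ∈ s, 0 ≤ x j} ∩ {x | 0 ≤ x i} =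
        K ∩ {x | ∀ j ∈ insert i s, 0 ≤ x j} := by
      ext x
      simp only [Set.mem_inter_iff, Set.mem_ofPred_eq, Finset.mem_insert, forall_eq_or_imp]
      tauto
    have e2 : (K ∩ {x : Fin n → ℝ | ∀ j ∈ s, 0 ≤ x j}) \ {x | 0 ≤ x i} =
        unc_refl i ⁻¹' (K ∩ {x : Fin n → ℝ | ∀ j ∈ s, 0 ≤ x j} ∩ {x | 0 < x i}) := by
      ext x
      have hx1 : x ∈ K ↔ unc_refl i x ∈ K := by
        have := unc_refl_preimage hu i
        constructor
        · intro h
          exact unc_refl_mem hu i h
        · intro h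
          have h2 : x ∈ unc_refl i ⁻¹' K := h
          rwa [this] at h2
      have hx2 : ∀ j ∈ s, unc_refl i x j = x j := by
        intro j hj
        have hji : j ≠ i := fun h => his (h ▸ hj)
        simp [unc_refl, hji]
      have hx3 : unc_refl i x i = -x i := by simp [unc_refl]
      simp only [Set.mem_sdiff, Set.mem_inter_iff, Set.mem_ofPred_eq, Set.mem_preimage]
      rw [hx3]
      constructor
      · rintro ⟨⟨h1, h2⟩, h3⟩
        refine ⟨⟨hx1.1 h1, fun j hj => ?_⟩, ?_⟩
        · rw [hx2 j hj]
          exact h2 j hj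
        · push Not at h3
          linarith
      · rintro ⟨⟨h1, h2⟩, h3⟩
        refine ⟨⟨hx1.2 h1, fun j hj => ?_⟩, ?_⟩
        · rw [← hx2 j hj]
          exact h2 j hj
        · push Not
          linarith
    have e3 : ∫ x in unc_refl i ⁻¹' (K ∩ {x : Fin n → ℝ | ∀ j ∈ s, 0 ≤ x j} ∩ {x | 0 < x i}), φ x
        = ∫ x in K ∩ {x : Fin n → ℝ | ∀ j ∈ s, 0 ≤ x j} ∩ {x | 0 < x i}, φ x := by
      refine Eq.trans ?_ (unc_refl_setIntegral i _ φ)
      refine congrArg _ (funext fun x => ?_)
      exact (heven x (fun j => if j = i then -1 else 1) (fun j => by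
        by_cases h : j = i <;> simp [h])).symm
    have e4 : (K ∩ {x : Fin n → ℝ | ∀ j ∈ s, 0 ≤ x j} ∩ {x | 0 < x i} : Set (Fin n → ℝ))
        =ᵐ[volume] (K ∩ {x | ∀ j ∈ insert i s, 0 ≤ x j} : Set (Fin n → ℝ)) := by
      rw [← e1]
      have h0 : ∀ᵐ x : Fin n → ℝ ∂volume, x i ≠ 0 := by
        have := Measure.ae_eval_ne (μ := fun _ : Fin n => (volume : Measure ℝ)) i (0 : ℝ)
        exact this
      filter_upwards [h0] with x hx
      apply propext
      constructor
      · rintro ⟨h1, h2⟩
        exact ⟨h1, show (0 : ℝ) ≤ x i from le_of_lt h2⟩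
      · rintro ⟨h1, h2⟩
        exact ⟨h1, lt_of_le_of_ne h2 (Ne.symm hx)⟩
    rw [e2, e3, setIntegral_congr_set e4, e1]
    ring

theorem integral_even {n : ℕ} {K : Set (Fin n → ℝ)} (hK : ConvBody n K) (hu : Uncond K)
    {φ : (Fin n → ℝ) → ℝ} (hφ : Continuous φ)
    (heven : ∀ x, ∀ ε : Fin n → ℝ, (∀ i, ε i = 1 ∨ ε i = -1) → φ (fun i => ε i * x i) = φ x) :
    ∫ x in K, φ x = 2 ^ n * ∫ x in posPart K, φ x := by
  have h := unc_step hK hu hφ heven Finset.univ
  rw [Finset.card_univ, Fintype.card_fin] at h
  rw [h]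
  have e : K ∩ {x : Fin n → ℝ | ∀ i ∈ Finset.univ, 0 ≤ x i} = posPart K := by
    ext x
    simp [posPart]
  rw [e]

theorem vol_uncond {n : ℕ} {K : Set (Fin n → ℝ)} (hK : ConvBody n K) (hu : Uncond K) :
    (volume K).toReal = 2 ^ n * vol (posPart K) := by
  have h := integral_even hK hu (φ := fun _ => (1 : ℝ)) continuous_const (fun _ _ _ => rfl)
  rw [setIntegral_const, setIntegral_const, smul_eq_mul, smul_eq_mul, mul_one, mul_one] at h
  exact h

theorem covM_uncond {n : ℕ} {K : Set (Fin n → ℝ)} (hK : ConvBody n K) (hu : Uncond K) :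
    covM K = Matrix.diagonal (fun i => mean (posPart K) (fun x => x i ^ 2)) := by
  have hcen : ∀ i, cen K i = 0 := by
    intro i
    unfold cen
    rw [unc_odd hu i (φ := fun x => x i) (fun x => by simp [unc_refl]), zero_div]
  ext i j
  unfold covM
  rw [hcen i, hcen j]
  simp only [sub_zero]
  by_cases hij : i = j
  · subst hij
    rw [Matrix.diagonal_apply_eq]
    have h := integral_even hK hu (φ := fun x => x i ^ 2)
      ((continuous_apply i).pow 2) (fun x ε hε => by
        rcases hε i with h | h <;> simp [h])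
    have e : ∫ x in K, x i * x i = ∫ x in K, x i ^ 2 := by
      congr 1
      funext x
      ring
    rw [e, h, vol_uncond hK hu]
    unfold mean
    rw [mul_div_mul_left _ _ (by positivity)]
  · rw [Matrix.diagonal_apply_ne _ hij,
      unc_odd hu i (φ := fun x => x i * x j) (fun x => by
        simp [unc_refl, Ne.symm hij]), zero_div]

theorem isoConst_uncond {n : ℕ} {K : Set (Fin n → ℝ)} (hK : ConvBody n K) (hu : Uncond K) :
    isoConst K = ((∏ i, mean (posPart K) (fun x => x i ^ 2)) /
      (4 ^ n * vol (posPart K) ^ 2)) ^ (1 / (2 * (n : ℝ))) := by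
  unfold isoConst
  rw [covM_uncond hK hu, Matrix.det_diagonal, vol_uncond hK hu]
  congr 2
  rw [mul_pow, ← pow_mul, mul_comm n 2, pow_mul]
  norm_num

end Vale.Agent.P254U
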