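import Vale.Agent.Lib.P254U.Marg
import Vale.Agent.Lib.P254U.Simp
import Vale.Agent.Lib.P254U.Unc

/-!
P254U/Final: the strong isotropic constant conjecture for affine images of unconditional bodies.
-/

open MeasureTheory Set

namespace Vale.Agent.P254U

theorem iso_lt_uncond_of_two_le {n : ℕ} (hn : 2 ≤ n) {K : Set (Fin n → ℝ)} (hK : ConvBody n K)
    (hu : Uncond K) {v : Fin (n + 1) → (Fin n → ℝ)} (hv : AffineIndependent ℝ v) :
    isoConst K < isoConst (convexHull ℝ (range v)) := by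
  obtain ⟨m, rfl⟩ : ∃ m, n = m + 1 := ⟨n - 1, by omega⟩
  rw [isoConst_uncond hK hu, isoConst_simplex (m + 1) (by omega) hv]
  have hc := posPart_corner hK hu
  have hmain := corner_main (n := m) (by omega) hc
  have hv0 := hc.vol_pos
  have hf : (0 : ℝ) < ((m + 1).factorial : ℝ) := by exact_mod_cast Nat.factorial_pos _
  set P : ℝ := ∏ i, mean (posPart K) (fun x => x i ^ 2) with hP
  have hP0 : 0 < P := Finset.prod_pos fun i _ => mean_coord_sq_pos hc i
  have hm2 : (0 : ℝ) < (m : ℝ) + 2 := by positivity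
  have hm3 : (0 : ℝ) < (m : ℝ) + 3 := by positivity
  refine Real.rpow_lt_rpow (by positivity) ?_ (by positivity)
  have e1 : ((m + 1 : ℕ) : ℝ) + 1 = (m : ℝ) + 2 := by push_cast; ring
  have e2 : ((m + 1 : ℕ) : ℝ) + 2 = (m : ℝ) + 3 := by push_cast; ring
  rw [e1, e2, div_lt_div_iff₀ (by positivity) (by positivity)]
  rw [div_mul_eq_mul_div, div_lt_iff₀ (by positivity)] at hmain
  calc P * (((m : ℝ) + 2) ^ (m + 1 + 1) * ((m : ℝ) + 3) ^ (m + 1))
      = ((m : ℝ) + 2) ^ (m + 2) * ((m : ℝ) + 3) ^ (m + 1) * P := by ring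
    _ < vol (posPart K) ^ 2 * (4 ^ (m + 1) * ((m + 1).factorial : ℝ) ^ 2) := hmain
    _ = _ := by ring

theorem iso_lt_uncond {n : ℕ} (hn : 3 ≤ n) {K : Set (Fin n → ℝ)} (hK : ConvBody n K)
    (hu : Uncond K) {v : Fin (n + 1) → (Fin n → ℝ)} (hv : AffineIndependent ℝ v) :
    isoConst K < isoConst (convexHull ℝ (range v)) :=
  iso_lt_uncond_of_two_le (by omega) hK hu hv

theorem convBody_affine {n : ℕ} {K : Set (Fin n → ℝ)} (hK : ConvBody n K)
    (T : (Fin n → ℝ) ≃ᵃ[ℝ] (Fin n → ℝ)) : ConvBody n (T '' K) := by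
  have hT : Continuous T := T.toAffineMap.continuous_of_finiteDimensional
  refine ⟨hK.compact.image hT, ?_, ?_⟩
  · exact hK.convex.affine_image T.toAffineMap
  · let H : (Fin n → ℝ) ≃ₜ (Fin n → ℝ) :=
      { toEquiv := T.toEquiv
        continuous_toFun := hT
        continuous_invFun := T.symm.toAffineMap.continuous_of_finiteDimensional }
    have h1 : H '' interior K = interior (H '' K) := H.image_interior K
    have h2 : (T '' K) = H '' K := rfl
    rw [h2, ← h1]
    exact hK.interior_nonempty.image _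

theorem iso_lt_of_two_le {n : ℕ} (hn : 2 ≤ n) {K : Set (Fin n → ℝ)} (hK : ConvBody n K)
    (hu : ∃ T : (Fin n → ℝ) ≃ᵃ[ℝ] (Fin n → ℝ), Uncond (T '' K))
    {v : Fin (n + 1) → (Fin n → ℝ)} (hv : AffineIndependent ℝ v) :
    isoConst K < isoConst (convexHull ℝ (range v)) := by
  obtain ⟨T, hT⟩ := hu
  rw [← isoConst_affine hK.compact T]
  exact iso_lt_uncond_of_two_le hn (convBody_affine hK T) hT hv

theorem iso_lt {n : ℕ} (hn : 3 ≤ n) {K : Set (Fin n → ℝ)} (hK : ConvBody n K)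
    (hu : ∃ T : (Fin n → ℝ) ≃ᵃ[ℝ] (Fin n → ℝ), Uncond (T '' K))
    {v : Fin (n + 1) → (Fin n → ℝ)} (hv : AffineIndependent ℝ v) :
    isoConst K < isoConst (convexHull ℝ (range v)) :=
  iso_lt_of_two_le (by omega) hK hu hv

end Vale.Agent.P254U
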