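import Vale.Agent.Lib.P254U.Fub
import Vale.Agent.Lib.P254U.LogInt

/-!
P254U/Lip: slice integrals are Lipschitz in the height, away from the top.

Key estimate (`lip_log_pow`): for `0 ≤ s ≤ t ≤ τ < H = top K`, `r = (H-t)/(H-s) ∈ (0,1]`:
`r • slice K s ⊆ slice K t ⊆ slice K s` (`slice_scale`, `slice_anti`), hence
`∫_{slice s \ slice t} |log y_i|^p ≤ ∫_{slice s} |log y_i|^p - ∫_{r • slice s} |log y_i|^p` and
`∫_{r • slice s} |log y_i|^p = r^n ∫_{slice s} |log (r y_i)|^p`,
`|log (r y)| ≥ |log y| - |log r|`, `a^p - b^p ≤ p a^(p-1) (a-b)` for `a ≥ b ≥ 0`.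
With `1 - r = (t-s)/(H-s) ≤ (t-s)/(H-τ)` and `|log r| ≤ (t-s)/(H-τ)` (as `-log r = log (1 + (t-s)/(H-t))`)
and the uniform bound `∫_{slice s} ≤ ∫_{slice 0}` everything is `≤ C (t-s)`.
The statements for `lamL`, `varL` follow: numerators are Lipschitz, the denominator
`vol (slice K t) ≥ vol (slice K τ) > 0` is Lipschitz
(use `varL = mean (LL^2) - lamL^2` and `|LL|^2 ≤ n * sum θ_i^2 |log y_i|^2`).
-/

open MeasureTheory Set
open scoped Pointwise

namespace Vale.Agent.P254U

variable {n : ℕ}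

private lemma Lip_pow_sub {a b ρ : ℝ} (ha : 0 ≤ a) (hb : 0 ≤ b) (hρ : 0 ≤ ρ) (h : a - b ≤ ρ)
    (p : ℕ) : a ^ p - b ^ p ≤ p * a ^ (p - 1) * ρ := by
  rcases le_total a b with hab | hab
  · have h1 := pow_le_pow_left₀ ha hab p
    have h2 : 0 ≤ (p : ℝ) * a ^ (p - 1) * ρ := by positivity
    linarith
  · induction p with
    | zero => simp
    | succ p ih =>
      have h2 : 0 ≤ a ^ p - b ^ p := sub_nonneg.2 (pow_le_pow_left₀ hb hab p)
      have h1 : b * (a ^ p - b ^ p) ≤ a * (p * a ^ (p - 1) * ρ) :=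
        (mul_le_mul_of_nonneg_right hab h2).trans (mul_le_mul_of_nonneg_left ih ha)
      have h3 : a * (p * a ^ (p - 1) * ρ) = p * a ^ p * ρ := by
        rcases p with _ | p
        · simp
        · rw [Nat.add_sub_cancel, pow_succ]
          ring
      have h4 : a ^ p * (a - b) ≤ a ^ p * ρ := mul_le_mul_of_nonneg_left h (by positivity)
      rw [h3] at h1
      rw [Nat.add_sub_cancel, pow_succ, pow_succ]
      push_cast
      nlinarith

private lemma Lip_ratio {H s t τ : ℝ} (hst : s ≤ t) (ht : t ≤ τ) (hτ : τ < H) :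
    0 < (H - t) / (H - s) ∧ (H - t) / (H - s) ≤ 1 ∧
      1 - (H - t) / (H - s) ≤ (t - s) / (H - τ) ∧
      |Real.log ((H - t) / (H - s))| ≤ (t - s) / (H - τ) := by
  have h1 : 0 < H - τ := by linarith
  have h2 : 0 < H - t := by linarith
  have h3 : 0 < H - s := by linarith
  have hr0 : 0 < (H - t) / (H - s) := by positivity
  have hr1 : (H - t) / (H - s) ≤ 1 := by
    rw [div_le_one h3]
    linarith
  refine ⟨hr0, hr1, ?_, ?_⟩
  · have h4 : 1 - (H - t) / (H - s) = (t - s) / (H - s) := by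
      field_simp
      ring
    rw [h4]
    exact div_le_div_of_nonneg_left (by linarith) h1 (by linarith)
  · rw [abs_of_nonpos (Real.log_nonpos hr0.le hr1), ← Real.log_inv, inv_div]
    refine (Real.log_le_sub_one_of_pos (by positivity)).trans ?_
    have h4 : (H - s) / (H - t) - 1 = (t - s) / (H - t) := by
      field_simp
      ring
    rw [h4]
    exact div_le_div_of_nonneg_left (by linarith) h1 (by linarith)

private lemma Lip_one_sub_pow {r c : ℝ} (hr0 : 0 < r) (h : 1 - r ≤ c) (n : ℕ) :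
    1 - r ^ n ≤ n * c := by
  have h1 := one_add_mul_le_pow (a := r - 1) (by linarith) n
  rw [add_sub_cancel] at h1
  have h2 : (n : ℝ) * (1 - r) ≤ n * c := mul_le_mul_of_nonneg_left h (Nat.cast_nonneg n)
  linarith

private lemma Lip_smul_sub {K : Set (Fin (n + 1) → ℝ)} (h : Corner (n + 1) K) {s t : ℝ}
    (h0 : 0 ≤ s) (hst : s ≤ t) (ht : t < top K) :
    ((top K - t) / (top K - s)) • slice K s ⊆ slice K t := by
  rintro _ ⟨y, hy, rfl⟩
  exact slice_scale h h0 hst ht hy

theorem lip_log_pow {K : Set (Fin (n + 1) → ℝ)} (h : Corner (n + 1) K) {τ : ℝ} (h0 : 0 ≤ τ)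
    (hτ : τ < top K) (i : Fin n) (p : ℕ) :
    ∃ C : ℝ, 0 ≤ C ∧ ∀ s t : ℝ, 0 ≤ s → s ≤ t → t ≤ τ →
      ∫ y in slice K s \ slice K t, |Real.log (y i)| ^ p ≤ C * (t - s) := by
  have hd : 0 < top K - τ := by linarith
  set I : ℕ → ℝ := fun q => ∫ y in slice K 0, |Real.log (y i)| ^ q with hI
  have hc0 : Corner n (slice K 0) := slice_corner h le_rfl (by linarith)
  have hI0 : ∀ q, 0 ≤ I q := fun q => by
    rw [hI]
    exact integral_nonneg fun y => by positivity
  refine ⟨(n * I p + p * I (p - 1)) / (top K - τ), ?_, ?_⟩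
  · have := hI0 p
    have := hI0 (p - 1)
    positivity
  intro s t hs hst htτ
  set r : ℝ := (top K - t) / (top K - s) with hr
  obtain ⟨hr0, hr1, hr2, hr3⟩ := Lip_ratio hst htτ hτ
  rw [← hr] at hr0 hr1 hr2 hr3
  set c : ℝ := (t - s) / (top K - τ) with hc
  have hc00 : 0 ≤ c := div_nonneg (by linarith) hd.le
  have hcs : Corner n (slice K s) := slice_corner h hs (by linarith)
  have hct : Corner n (slice K t) := slice_corner h (by linarith) (by linarith)
  have hsub : r • slice K s ⊆ slice K t := Lip_smul_sub h hs hst (by linarith)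
  have hsub2 : slice K t ⊆ slice K s := slice_anti h hs hst
  have hsub3 : slice K s ⊆ slice K 0 := slice_anti h le_rfl hs
  have hint : ∀ q, IntegrableOn (fun y : Fin n → ℝ => |Real.log (y i)| ^ q) (slice K s) :=
    fun q => hcs.integrableOn_abs_log i q
  have hrm : MeasurableSet (r • slice K s) := hcs.measurableSet.const_smul₀ r
  -- step 1
  have h1 : ∫ y in slice K s \ slice K t, |Real.log (y i)| ^ p ≤
      ∫ y in slice K s \ (r • slice K s), |Real.log (y i)| ^ p := by
    refine setIntegral_mono_set ((hint p).mono_set sdiff_subset) ?_ ?_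
    · exact Filter.Eventually.of_forall fun y => by positivity
    · exact (sdiff_subset_sdiff_right hsub).eventuallyLE
  have h2 : ∫ y in slice K s \ (r • slice K s), |Real.log (y i)| ^ p =
      (∫ y in slice K s, |Real.log (y i)| ^ p) - ∫ y in r • slice K s, |Real.log (y i)| ^ p :=
    setIntegral_sdiff hrm (hint p) (hsub.trans hsub2)
  have h3 : ∫ y in r • slice K s, |Real.log (y i)| ^ p =
      r ^ n * ∫ y in slice K s, |Real.log ((r • y) i)| ^ p := by
    have h4 := Measure.setIntegral_comp_smul_of_pos volume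
      (fun y : Fin n → ℝ => |Real.log (y i)| ^ p) (slice K s) hr0
    rw [Module.finrank_fin_fun, smul_eq_mul] at h4
    rw [h4]
    field_simp
  -- pointwise inequality
  have hpt : ∀ y ∈ slice K s, |Real.log (y i)| ^ p - |Real.log ((r • y) i)| ^ p ≤
      p * |Real.log (y i)| ^ (p - 1) * c := by
    intro y hy
    refine Lip_pow_sub (abs_nonneg _) (abs_nonneg _) hc00 ?_ p
    have hyi : 0 ≤ y i := hcs.nonneg y hy i
    rcases hyi.eq_or_lt with h5 | h5
    · rw [Pi.smul_apply, smul_eq_mul, ← h5, mul_zero, sub_self]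
      exact hc00
    · rw [Pi.smul_apply, smul_eq_mul, Real.log_mul hr0.ne' h5.ne']
      have h6 := abs_sub_abs_le_abs_sub (Real.log (y i)) (Real.log r + Real.log (y i))
      have h7 : Real.log (y i) - (Real.log r + Real.log (y i)) = - Real.log r := by ring
      rw [h7, abs_neg] at h6
      exact h6.trans hr3
  have hint2 : IntegrableOn (fun y : Fin n → ℝ => |Real.log ((r • y) i)| ^ p) (slice K s) := by
    have h4 : IntegrableOn (fun y : Fin n → ℝ => |Real.log (y i)| ^ p) (r • slice K s) :=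
      (hint p).mono_set (hsub.trans hsub2)
    rw [← integrable_indicator_iff hrm] at h4
    rw [← integrable_indicator_iff hcs.measurableSet]
    have h5 := (integrable_comp_smul_iff volume
      (indicator (r • slice K s) (fun y : Fin n → ℝ => |Real.log (y i)| ^ p)) hr0.ne').2 h4
    refine h5.congr (Filter.Eventually.of_forall fun y => ?_)
    simp only
    by_cases hy : y ∈ slice K s
    · rw [indicator_of_mem hy, indicator_of_mem (smul_mem_smul_set hy)]
    · rw [indicator_of_notMem hy, indicator_of_notMem]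
      rwa [smul_mem_smul_set_iff₀ hr0.ne']
  have h4 : (∫ y in slice K s, |Real.log (y i)| ^ p) - ∫ y in slice K s, |Real.log ((r • y) i)| ^ p ≤
      p * I (p - 1) * c := by
    rw [← integral_sub (hint p) hint2]
    calc ∫ y in slice K s, (|Real.log (y i)| ^ p - |Real.log ((r • y) i)| ^ p)
        ≤ ∫ y in slice K s, p * |Real.log (y i)| ^ (p - 1) * c := by
          refine setIntegral_mono_on ((hint p).sub hint2) ?_ hcs.measurableSet hpt
          exact ((hint (p - 1)).const_mul _).mul_const _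
      _ = p * (∫ y in slice K s, |Real.log (y i)| ^ (p - 1)) * c := by
          rw [integral_mul_const, integral_const_mul]
      _ ≤ p * I (p - 1) * c := by
          have h5 : ∫ y in slice K s, |Real.log (y i)| ^ (p - 1) ≤ I (p - 1) :=
            setIntegral_mono_set (hc0.integrableOn_abs_log i (p - 1))
              (Filter.Eventually.of_forall fun y => by positivity) hsub3.eventuallyLE
          gcongr
  have h5 : ∫ y in slice K s, |Real.log (y i)| ^ p ≤ I p :=
    setIntegral_mono_set (hc0.integrableOn_abs_log i p)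
      (Filter.Eventually.of_forall fun y => by positivity) hsub3.eventuallyLE
  have h6 : 0 ≤ ∫ y in slice K s, |Real.log (y i)| ^ p := integral_nonneg fun y => by positivity
  have h7 : 1 - r ^ n ≤ n * c := Lip_one_sub_pow hr0 hr2 n
  have h8 : 0 ≤ r ^ n := by positivity
  have h9 : r ^ n ≤ 1 := pow_le_one₀ hr0.le hr1
  have h10 : 0 ≤ p * I (p - 1) * c := by
    have := hI0 (p - 1)
    positivity
  calc ∫ y in slice K s \ slice K t, |Real.log (y i)| ^ p
      ≤ (∫ y in slice K s, |Real.log (y i)| ^ p) -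
          r ^ n * ∫ y in slice K s, |Real.log ((r • y) i)| ^ p := by
        rw [← h3, ← h2]
        exact h1
    _ = (1 - r ^ n) * (∫ y in slice K s, |Real.log (y i)| ^ p) +
          r ^ n * ((∫ y in slice K s, |Real.log (y i)| ^ p) -
            ∫ y in slice K s, |Real.log ((r • y) i)| ^ p) := by ring
    _ ≤ (n * c) * I p + 1 * (p * I (p - 1) * c) := by
        have h11 : (1 - r ^ n) * (∫ y in slice K s, |Real.log (y i)| ^ p) ≤ (n * c) * I p :=
          mul_le_mul h7 h5 h6 (by positivity)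
        have h12 : r ^ n * ((∫ y in slice K s, |Real.log (y i)| ^ p) -
            ∫ y in slice K s, |Real.log ((r • y) i)| ^ p) ≤ 1 * (p * I (p - 1) * c) :=
          (mul_le_mul_of_nonneg_left h4 h8).trans (mul_le_mul_of_nonneg_right h9 h10)
        linarith
    _ = (n * I p + p * I (p - 1)) / (top K - τ) * (t - s) := by
        rw [hc]
        ring

private lemma Lip_vol_eq (A : Set (Fin n → ℝ)) : vol A = ∫ _ in A, (1 : ℝ) := by
  rw [vol, setIntegral_const, smul_eq_mul, mul_one, measureReal_def]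

private lemma Lip_vol_mono {A B : Set (Fin n → ℝ)} (hB : volume B ≠ ⊤) (h : A ⊆ B) :
    vol A ≤ vol B := by
  unfold vol
  exact ENNReal.toReal_mono hB (measure_mono h)

theorem lip_vol {K : Set (Fin (n + 1) → ℝ)} (h : Corner (n + 1) K) {τ : ℝ} (h0 : 0 ≤ τ)
    (hτ : τ < top K) :
    ∃ C : ℝ, 0 ≤ C ∧ ∀ s t : ℝ, 0 ≤ s → s ≤ t → t ≤ τ →
      |vol (slice K s) - vol (slice K t)| ≤ C * (t - s) := by
  have hd : 0 < top K - τ := by linarith
  have hc0 : Corner n (slice K 0) := slice_corner h le_rfl (by linarith)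
  refine ⟨n * vol (slice K 0) / (top K - τ), ?_, ?_⟩
  · have := hc0.vol_pos
    positivity
  intro s t hs hst htτ
  set r : ℝ := (top K - t) / (top K - s) with hr
  obtain ⟨hr0, hr1, hr2, -⟩ := Lip_ratio hst htτ hτ
  rw [← hr] at hr0 hr1 hr2
  have hcs : Corner n (slice K s) := slice_corner h hs (by linarith)
  have hct : Corner n (slice K t) := slice_corner h (by linarith) (by linarith)
  have hsub : r • slice K s ⊆ slice K t := Lip_smul_sub h hs hst (by linarith)
  have hsub2 : slice K t ⊆ slice K s := slice_anti h hs hst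
  have hsub3 : slice K s ⊆ slice K 0 := slice_anti h le_rfl hs
  have h1 : vol (slice K t) ≤ vol (slice K s) := Lip_vol_mono hcs.volume_ne_top hsub2
  have h2 : vol (slice K s) ≤ vol (slice K 0) := Lip_vol_mono hc0.volume_ne_top hsub3
  have h3 : vol (r • slice K s) = r ^ n * vol (slice K s) := by
    unfold vol
    rw [Measure.addHaar_smul, Module.finrank_fin_fun, ENNReal.toReal_mul, abs_of_pos (by positivity),
      ENNReal.toReal_ofReal (by positivity)]
  have h4 : vol (r • slice K s) ≤ vol (slice K t) := Lip_vol_mono hct.volume_ne_top hsub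
  have h5 : 1 - r ^ n ≤ n * ((t - s) / (top K - τ)) := Lip_one_sub_pow hr0 hr2 n
  rw [abs_of_nonneg (by linarith)]
  calc vol (slice K s) - vol (slice K t) ≤ (1 - r ^ n) * vol (slice K s) := by
        rw [h3] at h4
        linarith
    _ ≤ (n * ((t - s) / (top K - τ))) * vol (slice K 0) := by
        refine mul_le_mul h5 h2 hcs.vol_pos.le ?_
        have : 0 ≤ t - s := by linarith
        positivity
    _ = n * vol (slice K 0) / (top K - τ) * (t - s) := by ring

/-- the mean of a function whose integrals over differences of slices are Lipschitz -/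
private lemma Lip_mean {K : Set (Fin (n + 1) → ℝ)} (h : Corner (n + 1) K) {τ : ℝ} (h0 : 0 ≤ τ)
    (hτ : τ < top K) (φ : (Fin n → ℝ) → ℝ) (hφ : IntegrableOn φ (slice K 0))
    (hL : ∃ C : ℝ, 0 ≤ C ∧ ∀ s t : ℝ, 0 ≤ s → s ≤ t → t ≤ τ →
      ∫ y in slice K s \ slice K t, |φ y| ≤ C * (t - s)) :
    (∃ C : ℝ, 0 ≤ C ∧ ∀ s t : ℝ, 0 ≤ s → s ≤ t → t ≤ τ →
      |mean (slice K s) φ - mean (slice K t) φ| ≤ C * (t - s)) ∧
    ∃ M : ℝ, 0 ≤ M ∧ ∀ s : ℝ, 0 ≤ s → s ≤ τ → |mean (slice K s) φ| ≤ M := by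
  obtain ⟨C1, hC1, hL1⟩ := hL
  obtain ⟨C2, hC2, hL2⟩ := lip_vol h h0 hτ
  set d : ℝ := vol (slice K τ) with hd
  have hcτ : Corner n (slice K τ) := slice_corner h h0 hτ
  have hd0 : 0 < d := hcτ.vol_pos
  set N : ℝ := ∫ y in slice K 0, |φ y| with hN
  have hN0 : 0 ≤ N := integral_nonneg fun y => abs_nonneg _
  have hc : ∀ s, 0 ≤ s → s ≤ τ → Corner n (slice K s) := fun s hs hs1 =>
    slice_corner h hs (by linarith)
  have hdl : ∀ s, 0 ≤ s → s ≤ τ → d ≤ vol (slice K s) := fun s hs hs1 =>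
    Lip_vol_mono (hc s hs hs1).volume_ne_top (slice_anti h hs hs1)
  have hNl : ∀ s, 0 ≤ s → s ≤ τ → |∫ y in slice K s, φ y| ≤ N := fun s hs hs1 => by
    refine (abs_integral_le_integral_abs).trans ?_
    exact setIntegral_mono_set hφ.abs (Filter.Eventually.of_forall fun y => abs_nonneg _)
      (slice_anti h le_rfl hs).eventuallyLE
  constructor
  · refine ⟨C1 / d + N * C2 / d ^ 2, by positivity, ?_⟩
    intro s t hs hst htτ
    have hs1 : s ≤ τ := hst.trans htτ
    have ht0 : 0 ≤ t := hs.trans hst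
    have hdiff : |(∫ y in slice K s, φ y) - ∫ y in slice K t, φ y| ≤ C1 * (t - s) := by
      rw [← setIntegral_sdiff (hc t ht0 htτ).measurableSet
        (hφ.mono_set (slice_anti h le_rfl hs)) (slice_anti h hs hst)]
      exact (abs_integral_le_integral_abs).trans (hL1 s t hs hst htτ)
    have hvd := hL2 s t hs hst htτ
    have hds := hdl s hs hs1
    have hdt := hdl t ht0 htτ
    have hNt := hNl t ht0 htτ
    unfold mean
    set a := ∫ y in slice K s, φ y with ha
    set b := ∫ y in slice K t, φ y with hb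
    set u := vol (slice K s) with hu
    set v := vol (slice K t) with hv
    have hu0 : 0 < u := lt_of_lt_of_le hd0 hds
    have hv0 : 0 < v := lt_of_lt_of_le hd0 hdt
    have hts : 0 ≤ t - s := by linarith
    have h1 : a / u - b / v = (a - b) / u - b * (u - v) / (u * v) := by
      field_simp
      ring
    rw [h1]
    calc |(a - b) / u - b * (u - v) / (u * v)| ≤ |(a - b) / u| + |b * (u - v) / (u * v)| :=
          abs_sub _ _
      _ = |a - b| / u + |b| * |u - v| / (u * v) := by
          rw [abs_div, abs_div, abs_mul, abs_of_pos hu0, abs_of_pos (mul_pos hu0 hv0)]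
      _ ≤ (C1 * (t - s)) / d + N * (C2 * (t - s)) / (d * d) := by
          gcongr
      _ = (C1 / d + N * C2 / d ^ 2) * (t - s) := by
          field_simp
  · refine ⟨N / d, by positivity, ?_⟩
    intro s hs hs1
    unfold mean
    have hu0 : 0 < vol (slice K s) := (hc s hs hs1).vol_pos
    rw [abs_div, abs_of_pos hu0]
    have h1 := hdl s hs hs1
    have h2 := hNl s hs hs1
    gcongr

private lemma Lip_LL_diff {K : Set (Fin (n + 1) → ℝ)} (h : Corner (n + 1) K) {τ : ℝ} (h0 : 0 ≤ τ)
    (hτ : τ < top K) (θ : Fin n → ℝ) :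
    ∃ C : ℝ, 0 ≤ C ∧ ∀ s t : ℝ, 0 ≤ s → s ≤ t → t ≤ τ →
      ∫ y in slice K s \ slice K t, |LL θ y| ≤ C * (t - s) := by
  choose C hC0 hC using fun i : Fin n => lip_log_pow h h0 hτ i 1
  refine ⟨∑ i, |θ i| * C i, Finset.sum_nonneg fun i _ => mul_nonneg (abs_nonneg _) (hC0 i), ?_⟩
  intro s t hs hst htτ
  have hcs : Corner n (slice K s) := slice_corner h hs (by linarith)
  have hint : ∀ i, IntegrableOn (fun y : Fin n → ℝ => |Real.log (y i)| ^ 1)
      (slice K s \ slice K t) := fun i => (hcs.integrableOn_abs_log i 1).mono_set sdiff_subset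
  have hLL : IntegrableOn (fun y : Fin n → ℝ => |LL θ y|) (slice K s \ slice K t) := by
    have h1 := hcs.integrableOn_abs_LL θ 0 1
    simp only [sub_zero, pow_one] at h1
    exact h1.mono_set sdiff_subset
  calc ∫ y in slice K s \ slice K t, |LL θ y|
      ≤ ∫ y in slice K s \ slice K t, ∑ i, |θ i| * |Real.log (y i)| ^ 1 := by
        refine integral_mono hLL (integrable_finsetSum _ fun i _ => (hint i).const_mul _) ?_
        intro y
        simp only [LL, pow_one]
        refine (Finset.abs_sum_le_sum_abs _ _).trans (le_of_eq ?_)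
        exact Finset.sum_congr rfl fun i _ => abs_mul _ _
    _ = ∑ i, |θ i| * ∫ y in slice K s \ slice K t, |Real.log (y i)| ^ 1 := by
        rw [integral_finsetSum _ fun i _ => (hint i).const_mul _]
        exact Finset.sum_congr rfl fun i _ => integral_const_mul _ _
    _ ≤ ∑ i, |θ i| * (C i * (t - s)) :=
        Finset.sum_le_sum fun i _ => mul_le_mul_of_nonneg_left (hC i s t hs hst htτ) (abs_nonneg _)
    _ = (∑ i, |θ i| * C i) * (t - s) := by
        rw [Finset.sum_mul]
        exact Finset.sum_congr rfl fun i _ => by ring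

private lemma Lip_LL2_diff {K : Set (Fin (n + 1) → ℝ)} (h : Corner (n + 1) K) {τ : ℝ} (h0 : 0 ≤ τ)
    (hτ : τ < top K) (θ : Fin n → ℝ) :
    ∃ C : ℝ, 0 ≤ C ∧ ∀ s t : ℝ, 0 ≤ s → s ≤ t → t ≤ τ →
      ∫ y in slice K s \ slice K t, |LL θ y ^ 2| ≤ C * (t - s) := by
  choose C hC0 hC using fun i : Fin n => lip_log_pow h h0 hτ i 2
  refine ⟨∑ i, (n * θ i ^ 2) * C i,
    Finset.sum_nonneg fun i _ => mul_nonneg (by positivity) (hC0 i), ?_⟩
  intro s t hs hst htτ
  have hcs : Corner n (slice K s) := slice_corner h hs (by linarith)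
  have hint : ∀ i, IntegrableOn (fun y : Fin n → ℝ => |Real.log (y i)| ^ 2)
      (slice K s \ slice K t) := fun i => (hcs.integrableOn_abs_log i 2).mono_set sdiff_subset
  have hLL : IntegrableOn (fun y : Fin n → ℝ => |LL θ y ^ 2|) (slice K s \ slice K t) := by
    have h1 := hcs.integrableOn_abs_LL θ 0 2
    simp only [sub_zero, ← abs_pow] at h1
    exact h1.mono_set sdiff_subset
  calc ∫ y in slice K s \ slice K t, |LL θ y ^ 2|
      ≤ ∫ y in slice K s \ slice K t, ∑ i, (n * θ i ^ 2) * |Real.log (y i)| ^ 2 := by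
        refine integral_mono hLL (integrable_finsetSum _ fun i _ => (hint i).const_mul _) ?_
        intro y
        simp only
        rw [abs_of_nonneg (sq_nonneg _), LL]
        refine (sq_sum_le_card_mul_sum_sq).trans (le_of_eq ?_)
        rw [Finset.card_univ, Fintype.card_fin, Finset.mul_sum]
        refine Finset.sum_congr rfl fun i _ => ?_
        rw [sq_abs]
        ring
    _ = ∑ i, (n * θ i ^ 2) * ∫ y in slice K s \ slice K t, |Real.log (y i)| ^ 2 := by
        rw [integral_finsetSum _ fun i _ => (hint i).const_mul _]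
        exact Finset.sum_congr rfl fun i _ => integral_const_mul _ _
    _ ≤ ∑ i, (n * θ i ^ 2) * (C i * (t - s)) :=
        Finset.sum_le_sum fun i _ =>
          mul_le_mul_of_nonneg_left (hC i s t hs hst htτ) (by positivity)
    _ = (∑ i, (n * θ i ^ 2) * C i) * (t - s) := by
        rw [Finset.sum_mul]
        exact Finset.sum_congr rfl fun i _ => by ring

private lemma Lip_int_LL {A : Set (Fin n → ℝ)} (h : Corner n A) (θ : Fin n → ℝ) :
    IntegrableOn (LL θ) A := by
  have h1 := h.integrableOn_LL θ 0 1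
  simp only [sub_zero, pow_one] at h1
  exact h1

private lemma Lip_int_LL2 {A : Set (Fin n → ℝ)} (h : Corner n A) (θ : Fin n → ℝ) :
    IntegrableOn (fun y => LL θ y ^ 2) A := by
  have h1 := h.integrableOn_LL θ 0 2
  simp only [sub_zero] at h1
  exact h1

private lemma Lip_var_eq {A : Set (Fin n → ℝ)} (h : Corner n A) (θ : Fin n → ℝ) :
    varL A θ = mean A (fun y => LL θ y ^ 2) - lamL A θ ^ 2 := by
  have hv := h.vol_pos
  have h1 := Lip_int_LL h θ
  have h2 := Lip_int_LL2 h θ
  have hone : IntegrableOn (fun _ : Fin n → ℝ => (1 : ℝ)) A := integrableOn_const h.volume_ne_top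
  set m : ℝ := lamL A θ with hm
  have hm1 : ∫ y in A, LL θ y = m * vol A := by
    rw [hm, lamL, mean]
    field_simp
  have h3 : ∫ y in A, (LL θ y - m) ^ 2 = (∫ y in A, LL θ y ^ 2) - 2 * m * (∫ y in A, LL θ y) +
      m ^ 2 * vol A := by
    have h4 : IntegrableOn (fun y : Fin n → ℝ => LL θ y ^ 2 - 2 * m * LL θ y) A :=
      h2.sub (h1.const_mul _)
    have h5 : IntegrableOn (fun _ : Fin n → ℝ => m ^ 2 * (1 : ℝ)) A := hone.const_mul _
    rw [Lip_vol_eq A, ← integral_const_mul, ← integral_const_mul,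
      ← integral_sub h2 (h1.const_mul _), ← integral_add h4 h5]
    congr 1
    funext y
    ring
  unfold varL
  rw [← hm]
  unfold mean
  rw [h3, hm1]
  field_simp
  ring

theorem lip_lamL {K : Set (Fin (n + 1) → ℝ)} (h : Corner (n + 1) K) {τ : ℝ} (h0 : 0 ≤ τ)
    (hτ : τ < top K) (θ : Fin n → ℝ) :
    ∃ C : ℝ, 0 ≤ C ∧ ∀ s t : ℝ, 0 ≤ s → s ≤ t → t ≤ τ →
      |lamL (slice K s) θ - lamL (slice K t) θ| ≤ C * (t - s) := by
  have hc0 : Corner n (slice K 0) := slice_corner h le_rfl (by linarith)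
  exact (Lip_mean h h0 hτ (LL θ) (Lip_int_LL hc0 θ) (Lip_LL_diff h h0 hτ θ)).1

theorem lip_varL {K : Set (Fin (n + 1) → ℝ)} (h : Corner (n + 1) K) {τ : ℝ} (h0 : 0 ≤ τ)
    (hτ : τ < top K) (θ : Fin n → ℝ) :
    ∃ C : ℝ, 0 ≤ C ∧ ∀ s t : ℝ, 0 ≤ s → s ≤ t → t ≤ τ →
      |varL (slice K s) θ - varL (slice K t) θ| ≤ C * (t - s) := by
  have hc0 : Corner n (slice K 0) := slice_corner h le_rfl (by linarith)
  obtain ⟨⟨C1, hC1, hL1⟩, M, hM, hMb⟩ :=
    Lip_mean h h0 hτ (LL θ) (Lip_int_LL hc0 θ) (Lip_LL_diff h h0 hτ θ)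
  obtain ⟨⟨C2, hC2, hL2⟩, -⟩ :=
    Lip_mean h h0 hτ (fun y => LL θ y ^ 2) (Lip_int_LL2 hc0 θ) (Lip_LL2_diff h h0 hτ θ)
  refine ⟨C2 + 2 * M * C1, by positivity, ?_⟩
  intro s t hs hst htτ
  have hs1 : s ≤ τ := hst.trans htτ
  have ht0 : 0 ≤ t := hs.trans hst
  have hcs : Corner n (slice K s) := slice_corner h hs (by linarith)
  have hct : Corner n (slice K t) := slice_corner h ht0 (by linarith)
  rw [Lip_var_eq hcs, Lip_var_eq hct]
  have h1 := hL1 s t hs hst htτ
  have h2 := hL2 s t hs hst htτ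
  have h3 := hMb s hs hs1
  have h4 := hMb t ht0 htτ
  have h1' : |lamL (slice K s) θ - lamL (slice K t) θ| ≤ C1 * (t - s) := h1
  have h3' : |lamL (slice K s) θ| ≤ M := h3
  have h4' : |lamL (slice K t) θ| ≤ M := h4
  set a := lamL (slice K s) θ with ha
  set b := lamL (slice K t) θ with hb
  have h5 : |a ^ 2 - b ^ 2| ≤ 2 * M * C1 * (t - s) := by
    have h6 : a ^ 2 - b ^ 2 = (a + b) * (a - b) := by ring
    rw [h6, abs_mul]
    have h7 : |a + b| ≤ 2 * M := (abs_add_le a b).trans (by linarith)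
    calc |a + b| * |a - b| ≤ (2 * M) * (C1 * (t - s)) :=
          mul_le_mul h7 h1' (abs_nonneg _) (by positivity)
      _ = 2 * M * C1 * (t - s) := by ring
  set u := mean (slice K s) (fun y => LL θ y ^ 2) with hu
  set v := mean (slice K t) (fun y => LL θ y ^ 2) with hv
  have h8 : u - a ^ 2 - (v - b ^ 2) = (u - v) - (a ^ 2 - b ^ 2) := by ring
  rw [h8]
  calc |(u - v) - (a ^ 2 - b ^ 2)| ≤ |u - v| + |a ^ 2 - b ^ 2| := abs_sub _ _
    _ ≤ C2 * (t - s) + 2 * M * C1 * (t - s) := add_le_add h2 h5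
    _ = (C2 + 2 * M * C1) * (t - s) := by ring

end Vale.Agent.P254U
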