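import Vale.Agent.Lib.P254U.SliceConv
import Vale.Agent.Lib.P254U.Lip

/-!
P254U/Gam: elementary increments of `SS`, `GG`, `EE`, `ff` between two heights `s ≤ t < top K`.

* `SS s - SS t = ∫_s^t ff` and `ff` is antitone.
* `ff t * (gg t - gg s) ≤ ff s - ff t` from `exp x - 1 ≥ x`, `ff = exp (-gg)`.
* `GG s - GG t = 2 ∫_s^t SS - SS s^2/ff s + SS t^2/ff t`;
  `SS s^2 - SS t^2 = ∫_s^t 2 SS ff ≤ 2 ff s ∫_s^t SS`, hence
  `GG s - GG t ≥ SS t^2 (1/ff t - 1/ff s) ≥ SS t^2 (gg t - gg s)/ff s`.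
* `EE s - EE t + SS s (λ t - λ s) = ∫_s^t ff u (λ t - λ u) du` with `λ u = lamL (slice K u) θ`
  Lipschitz (`lip_lamL`) so it is `≤ ff 0 * C (t-s)^2`.
-/

open MeasureTheory Set

namespace Vale.Agent.P254U

variable {n : ℕ}

private theorem gam_ff_nonneg (K : Set (Fin (n + 1) → ℝ)) (t : ℝ) : 0 ≤ ff K t :=
  div_nonneg ENNReal.toReal_nonneg ENNReal.toReal_nonneg

private theorem gam_int {K : Set (Fin (n + 1) → ℝ)} (h : Corner (n + 1) K) {a b : ℝ} (ha : 0 ≤ a)
    (hab : a ≤ b) (hb : b ≤ top K) : IntervalIntegrable (ff K) volume a b := by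
  have h1 : IntervalIntegrable (ff K) volume 0 (top K) :=
    (intervalIntegrable_vol_slice h).div_const (vol K)
  refine h1.mono_set ?_
  rw [uIcc_of_le hab, uIcc_of_le (ha.trans (hab.trans hb))]
  exact Icc_subset_Icc ha hb

private theorem gam_SS_sub {K : Set (Fin (n + 1) → ℝ)} (h : Corner (n + 1) K) {s t : ℝ}
    (h0 : 0 ≤ s) (hst : s ≤ t) (ht : t ≤ top K) : SS K s - SS K t = ∫ u in s..t, ff K u := by
  unfold SS
  rw [← intervalIntegral.integral_add_adjacent_intervals (gam_int h h0 hst ht)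
    (gam_int h (h0.trans hst) ht le_rfl)]
  ring

theorem SS_nonneg {K : Set (Fin (n + 1) → ℝ)} (h : Corner (n + 1) K) {t : ℝ} (h0 : 0 ≤ t)
    (ht : t ≤ top K) : 0 ≤ SS K t := by
  exact intervalIntegral.integral_nonneg ht fun u _ => gam_ff_nonneg K u

private theorem gam_SS_sub_le {K : Set (Fin (n + 1) → ℝ)} (h : Corner (n + 1) K) {s t : ℝ}
    (h0 : 0 ≤ s) (hst : s ≤ t) (ht : t ≤ top K) :
    ff K t * (t - s) ≤ SS K s - SS K t ∧ SS K s - SS K t ≤ ff K s * (t - s) := by
  rw [gam_SS_sub h h0 hst ht]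
  have hi := gam_int h h0 hst ht
  have ha := ff_anti h
  constructor
  · have h1 : ∫ _ in s..t, ff K t = ff K t * (t - s) := by
      rw [intervalIntegral.integral_const, smul_eq_mul, mul_comm]
    rw [← h1]
    refine intervalIntegral.integral_mono_on hst intervalIntegrable_const hi fun u hu => ?_
    exact ha (h0.trans hu.1) (h0.trans hst) hu.2
  · have h1 : ∫ _ in s..t, ff K s = ff K s * (t - s) := by
      rw [intervalIntegral.integral_const, smul_eq_mul, mul_comm]
    rw [← h1]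
    refine intervalIntegral.integral_mono_on hst hi intervalIntegrable_const fun u hu => ?_
    exact ha h0 (h0.trans hu.1) hu.1

theorem SS_pos {K : Set (Fin (n + 1) → ℝ)} (h : Corner (n + 1) K) {t : ℝ} (h0 : 0 ≤ t)
    (ht : t < top K) : 0 < SS K t := by
  have h1 : t < (t + top K) / 2 := by linarith
  have h2 : (t + top K) / 2 < top K := by linarith
  have h3 := (gam_SS_sub_le h h0 h1.le h2.le).1
  have h4 := SS_nonneg h (h0.trans h1.le) h2.le
  have h5 := ff_pos h (t := (t + top K) / 2) ⟨h0.trans h1.le, h2⟩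
  have h6 : 0 < ff K ((t + top K) / 2) * ((t + top K) / 2 - t) :=
    mul_pos h5 (sub_pos.2 h1)
  linarith

theorem SS_zero {K : Set (Fin (n + 1) → ℝ)} (h : Corner (n + 1) K) : SS K 0 = 1 := by
  unfold SS ff
  rw [intervalIntegral.integral_div, ← vol_eq_integral_slice h]
  exact div_self h.vol_pos.ne'

theorem SS_sub_le {K : Set (Fin (n + 1) → ℝ)} (h : Corner (n + 1) K) {s t : ℝ} (h0 : 0 ≤ s)
    (hst : s ≤ t) (ht : t < top K) :
    ff K t * (t - s) ≤ SS K s - SS K t ∧ SS K s - SS K t ≤ ff K s * (t - s) :=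
  gam_SS_sub_le h h0 hst ht.le

theorem ff_sub_ge {K : Set (Fin (n + 1) → ℝ)} (h : Corner (n + 1) K) {s t : ℝ} (h0 : 0 ≤ s)
    (hst : s ≤ t) (ht : t < top K) : ff K t * (gg K t - gg K s) ≤ ff K s - ff K t := by
  have hs' : s ∈ Ico (0 : ℝ) (top K) := ⟨h0, hst.trans_lt ht⟩
  have ht' : t ∈ Ico (0 : ℝ) (top K) := ⟨h0.trans hst, ht⟩
  have h1 : ff K s = ff K t * Real.exp (gg K t - gg K s) := by
    rw [← exp_neg_gg h hs', ← exp_neg_gg h ht', ← Real.exp_add]
    congr 1
    ring
  have h2 := Real.add_one_le_exp (gg K t - gg K s)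
  have h3 := mul_le_mul_of_nonneg_left h2 (gam_ff_nonneg K t)
  rw [← h1] at h3
  linarith

private theorem gam_ff_continuousAt {K : Set (Fin (n + 1) → ℝ)} (h : Corner (n + 1) K) {t : ℝ}
    (h0 : 0 < t) (ht : t < top K) : ContinuousAt (ff K) t := by
  have h1 : ConvexOn ℝ (Ioo (0 : ℝ) (top K)) (gg K) :=
    (convexOn_gg h).subset Ioo_subset_Ico_self (convex_Ioo 0 (top K))
  have h2 : ContinuousOn (gg K) (Ioo (0 : ℝ) (top K)) := h1.continuousOn isOpen_Ioo
  have h3 : ContinuousAt (gg K) t := h2.continuousAt (Ioo_mem_nhds h0 ht)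
  have h4 : ContinuousAt (fun u => Real.exp (- gg K u)) t := h3.neg.rexp
  refine h4.congr ?_
  filter_upwards [Ioo_mem_nhds h0 ht] with u hu
  exact exp_neg_gg h ⟨hu.1.le, hu.2⟩

private theorem gam_SS_continuousOn {K : Set (Fin (n + 1) → ℝ)} (h : Corner (n + 1) K) :
    ContinuousOn (SS K) (Icc 0 (top K)) := by
  have hT := (top_pos h).le
  have h1 := gam_int h le_rfl hT le_rfl
  rw [intervalIntegrable_iff_integrableOn_Icc_of_le hT, ← uIcc_of_le hT] at h1
  have h2 := intervalIntegral.continuousOn_primitive_interval_left h1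
  rw [uIcc_of_le hT] at h2
  exact h2

private theorem gam_SS_deriv {K : Set (Fin (n + 1) → ℝ)} (h : Corner (n + 1) K) {t : ℝ}
    (h0 : 0 < t) (ht : t < top K) : HasDerivAt (SS K) (- ff K t) t := by
  refine intervalIntegral.integral_hasDerivAt_left (gam_int h h0.le ht.le le_rfl) ?_
    (gam_ff_continuousAt h h0 ht)
  have h1 : ContinuousOn (ff K) (Ioo 0 (top K)) := fun u hu =>
    (gam_ff_continuousAt h hu.1 hu.2).continuousWithinAt
  exact h1.stronglyMeasurableAtFilter isOpen_Ioo t ⟨h0, ht⟩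

/-- `SS s^2 - SS t^2 ≤ 2 ff s ∫_s^t SS` -/
private theorem gam_sq {K : Set (Fin (n + 1) → ℝ)} (h : Corner (n + 1) K) {s t : ℝ} (h0 : 0 ≤ s)
    (hst : s ≤ t) (ht : t < top K) :
    SS K s ^ 2 - SS K t ^ 2 ≤ 2 * ff K s * ∫ u in s..t, SS K u := by
  have hc := gam_SS_continuousOn h
  have hcst : ContinuousOn (SS K) (Icc s t) := hc.mono (Icc_subset_Icc h0 ht.le)
  have hint : IntervalIntegrable (SS K) volume s t := by
    refine ContinuousOn.intervalIntegrable ?_
    rwa [uIcc_of_le hst]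
  have hmono : MonotoneOn (fun v => 2 * ff K s * (∫ u in s..v, SS K u) + SS K v ^ 2)
      (Icc s t) := by
    have hder : ∀ v ∈ Ioo s t, HasDerivAt
        (fun v => 2 * ff K s * (∫ u in s..v, SS K u) + SS K v ^ 2)
        (2 * ff K s * SS K v + ((2 : ℕ) : ℝ) * SS K v ^ (2 - 1) * (- ff K v)) v := by
      intro v hv
      have hv0 : 0 < v := h0.trans_lt hv.1
      have hvT : v < top K := hv.2.trans ht
      have h1 : HasDerivAt (fun v => ∫ u in s..v, SS K u) (SS K v) v := by
        have h2 : IntervalIntegrable (SS K) volume s v := by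
          refine ContinuousOn.intervalIntegrable ?_
          rw [uIcc_of_le hv.1.le]
          exact hc.mono (Icc_subset_Icc h0 hvT.le)
        refine intervalIntegral.integral_hasDerivAt_right h2 ?_ ?_
        · have h3 : ContinuousOn (SS K) (Ioo 0 (top K)) := hc.mono Ioo_subset_Icc_self
          exact h3.stronglyMeasurableAtFilter isOpen_Ioo v ⟨hv0, hvT⟩
        · exact (gam_SS_deriv h hv0 hvT).continuousAt
      exact (h1.const_mul (2 * ff K s)).add ((gam_SS_deriv h hv0 hvT).pow 2)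
    refine monotoneOn_of_deriv_nonneg (convex_Icc s t) ?_ ?_ ?_
    · refine ContinuousOn.add (ContinuousOn.mul continuousOn_const ?_) (hcst.pow 2)
      have h1 : IntegrableOn (SS K) (uIcc s t) := by
        rw [uIcc_of_le hst]
        exact hcst.integrableOn_Icc
      have h2 := intervalIntegral.continuousOn_primitive_interval h1
      rwa [uIcc_of_le hst] at h2
    · rw [interior_Icc]
      exact fun v hv => (hder v hv).differentiableAt.differentiableWithinAt
    · rw [interior_Icc]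
      intro v hv
      rw [(hder v hv).deriv]
      have h1 : ff K v ≤ ff K s := ff_anti h h0 (h0.trans hv.1.le) hv.1.le
      have h2 := SS_nonneg h (h0.trans hv.1.le) (hv.2.trans ht).le
      have h3 : 0 ≤ SS K v * (ff K s - ff K v) := mul_nonneg h2 (sub_nonneg.2 h1)
      have h4 : 2 * ff K s * SS K v + ((2 : ℕ) : ℝ) * SS K v ^ (2 - 1) * (- ff K v)
          = 2 * (SS K v * (ff K s - ff K v)) := by
        norm_num
        ring
      rw [h4]
      linarith
  have h1 := hmono (left_mem_Icc.2 hst) (right_mem_Icc.2 hst) hst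
  simp only [intervalIntegral.integral_same, mul_zero, zero_add] at h1
  linarith

theorem GG_sub_ge {K : Set (Fin (n + 1) → ℝ)} (h : Corner (n + 1) K) {s t : ℝ} (h0 : 0 ≤ s)
    (hst : s ≤ t) (ht : t < top K) :
    SS K t ^ 2 * (gg K t - gg K s) / ff K s ≤ GG K s - GG K t := by
  have hs' : s ∈ Ico (0 : ℝ) (top K) := ⟨h0, hst.trans_lt ht⟩
  have ht' : t ∈ Ico (0 : ℝ) (top K) := ⟨h0.trans hst, ht⟩
  have hfs := ff_pos h hs'
  have hft := ff_pos h ht'
  have hc := gam_SS_continuousOn h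
  have hRR : RR K s - RR K t = ∫ u in s..t, SS K u := by
    unfold RR
    have i1 : IntervalIntegrable (SS K) volume s t := by
      refine ContinuousOn.intervalIntegrable ?_
      rw [uIcc_of_le hst]
      exact hc.mono (Icc_subset_Icc h0 ht.le)
    have i2 : IntervalIntegrable (SS K) volume t (top K) := by
      refine ContinuousOn.intervalIntegrable ?_
      rw [uIcc_of_le ht.le]
      exact hc.mono (Icc_subset_Icc (h0.trans hst) le_rfl)
    rw [← intervalIntegral.integral_add_adjacent_intervals i1 i2]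
    ring
  have h1 := gam_sq h h0 hst ht
  have h2 := ff_sub_ge h h0 hst ht
  have h3 : (SS K s ^ 2 - SS K t ^ 2) / ff K s ≤ 2 * ∫ u in s..t, SS K u := by
    rw [div_le_iff₀ hfs]
    linarith
  have h4 : SS K t ^ 2 * (gg K t - gg K s) / ff K s
      ≤ SS K t ^ 2 / ff K t - SS K t ^ 2 / ff K s := by
    have h5 : SS K t ^ 2 / ff K t - SS K t ^ 2 / ff K s
        = SS K t ^ 2 * ((ff K s - ff K t) / ff K t) / ff K s := by
      field_simp
    rw [h5]
    refine div_le_div_of_nonneg_right (mul_le_mul_of_nonneg_left ?_ (sq_nonneg _)) hfs.le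
    rw [le_div_iff₀ hft, mul_comm]
    exact h2
  have h6 : GG K s - GG K t = 2 * (RR K s - RR K t) - (SS K s ^ 2 - SS K t ^ 2) / ff K s
      + (SS K t ^ 2 / ff K t - SS K t ^ 2 / ff K s) := by
    unfold GG
    ring
  rw [h6, hRR]
  linarith

private theorem gam_ff_lam {K : Set (Fin (n + 1) → ℝ)} (h : Corner (n + 1) K) (θ : Fin n → ℝ)
    (u : ℝ) : ff K u * lamL (slice K u) θ = (∫ y in slice K u, LL θ y) / vol K := by
  unfold ff lamL mean
  rcases eq_or_ne (vol (slice K u)) 0 with h0 | h0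
  · have h2 : volume (slice K u) = 0 := by
      rcases (ENNReal.toReal_eq_zero_iff _).1 h0 with h2 | h2
      · exact h2
      · exact absurd h2 (slice_compact h u).measure_lt_top.ne
    have h1 : ∫ y in slice K u, LL θ y = 0 := by
      rw [Measure.restrict_eq_zero.2 h2]
      exact integral_zero_measure _
    rw [h1, h0]
    simp
  · field_simp

private theorem gam_int_lam {K : Set (Fin (n + 1) → ℝ)} (h : Corner (n + 1) K) (θ : Fin n → ℝ) :
    IntervalIntegrable (fun u => ff K u * lamL (slice K u) θ) volume 0 (top K) := by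
  have h1 := h.integrableOn_LL (Fin.cons 0 θ) 0 1
  have h2 := (intervalIntegrable_slices h h1).div_const (vol K)
  have h3 : (fun u => ff K u * lamL (slice K u) θ) = fun u =>
      (∫ y in slice K u, (LL (Fin.cons 0 θ : Fin (n + 1) → ℝ) (Fin.cons u y) - 0) ^ 1) / vol K := by
    funext u
    rw [gam_ff_lam h θ u]
    congr 1
    refine integral_congr_ae (Filter.Eventually.of_forall fun y => ?_)
    simp only [LL, Fin.sum_univ_succ, Fin.cons_zero, Fin.cons_succ, zero_mul, zero_add, sub_zero,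
      pow_one]
  rw [h3]
  exact h2

theorem EE_sub {K : Set (Fin (n + 1) → ℝ)} (h : Corner (n + 1) K) {τ : ℝ} (h0 : 0 ≤ τ)
    (hτ : τ < top K) (θ : Fin n → ℝ) :
    ∃ C : ℝ, 0 ≤ C ∧ ∀ s t : ℝ, 0 ≤ s → s ≤ t → t ≤ τ →
      |EE K θ s - EE K θ t + SS K s * (lamL (slice K t) θ - lamL (slice K s) θ)| ≤
        C * (t - s) ^ 2 := by
  obtain ⟨C, hC, hlip⟩ := lip_lamL h h0 hτ θ
  refine ⟨ff K 0 * C, mul_nonneg (gam_ff_nonneg K 0) hC, ?_⟩
  intro s t hs hst ht
  have htT : t ≤ top K := ht.trans hτ.le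
  have hT := (top_pos h).le
  have hj : ∀ a b : ℝ, 0 ≤ a → a ≤ b → b ≤ top K →
      IntervalIntegrable (fun u => ff K u * lamL (slice K u) θ) volume a b := by
    intro a b ha hab hb
    refine (gam_int_lam h θ).mono_set ?_
    rw [uIcc_of_le hab, uIcc_of_le hT]
    exact Icc_subset_Icc ha hb
  have h1 : ∫ u in s..top K, ff K u * lamL (slice K u) θ
      = (∫ u in s..t, ff K u * lamL (slice K u) θ)
        + ∫ u in t..top K, ff K u * lamL (slice K u) θ :=
    (intervalIntegral.integral_add_adjacent_intervals (hj s t hs hst htT)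
      (hj t (top K) (hs.trans hst) htT le_rfl)).symm
  have h2 : (SS K s - SS K t) * lamL (slice K t) θ = ∫ u in s..t, ff K u * lamL (slice K t) θ := by
    rw [gam_SS_sub h hs hst htT, intervalIntegral.integral_mul_const]
  have h3 : EE K θ s - EE K θ t + SS K s * (lamL (slice K t) θ - lamL (slice K s) θ)
      = ∫ u in s..t, (ff K u * lamL (slice K t) θ - ff K u * lamL (slice K u) θ) := by
    rw [intervalIntegral.integral_sub ((gam_int h hs hst htT).mul_const _) (hj s t hs hst htT),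
      ← h2]
    unfold EE
    rw [h1]
    ring
  rw [h3, ← Real.norm_eq_abs]
  have h4 := intervalIntegral.norm_integral_le_of_norm_le_const (a := s) (b := t)
    (f := fun u => ff K u * lamL (slice K t) θ - ff K u * lamL (slice K u) θ)
    (C := ff K 0 * C * (t - s)) (by
      intro u hu
      rw [uIoc_of_le hst] at hu
      have hu0 : 0 ≤ u := hs.trans hu.1.le
      have h5 := hlip u t hu0 hu.2 ht
      have h6 : ff K u ≤ ff K 0 := ff_anti h (mem_Ici.2 le_rfl) hu0 hu0
      rw [Real.norm_eq_abs, ← mul_sub, abs_mul, abs_of_nonneg (gam_ff_nonneg K u), abs_sub_comm,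
        mul_assoc]
      refine mul_le_mul h6 (h5.trans ?_) (abs_nonneg _) (gam_ff_nonneg K 0)
      exact mul_le_mul_of_nonneg_left (by linarith [hu.1]) hC)
  refine h4.trans (le_of_eq ?_)
  rw [abs_of_nonneg (sub_nonneg.2 hst)]
  ring

end Vale.Agent.P254U
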