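import Mathlib

/-!
P254U/IntA: one dimensional integration of the static inequality.

On `[0,τ]`, `τ < H`: `g` is Lipschitz, `f = exp (-g)`, `S' = -f`, `R' = -S` (f continuous), so
`Φ = 4 R f / S + 2 g S` is Lipschitz, hence absolutely continuous
(`LipschitzOnWith.absolutelyContinuousOnInterval`, `AbsolutelyContinuousOnInterval.mul` etc.) and
`Φ(τ) - Φ(0) = ∫ Φ'` (`AbsolutelyContinuousOnInterval.integral_deriv_eq_sub`).
At every point where `g` has derivative `G` (a.e.):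
`(f/S)' = f (f - G S)/S^2`, `Φ' = 4 R f (f - G S)/S^2 - 4 f + 2 G S - 2 g f`, and
`(f/S^2) e2 ≤ (f/S^2)(2R - S^2/f) 2 (f - G S) = 4 R f (f - G S)/S^2 - 2 f + 2 G S
            = Φ' + 2 f + 2 g f`.
Integrate.  (`e2` continuous and `f/S^2` continuous: the left side is integrable.)
-/

open MeasureTheory Set

namespace Vale.Agent.P254U

private def IntA_Lip (τ : ℝ) (h : ℝ → ℝ) : Prop :=
  ∃ C : ℝ, 0 ≤ C ∧ ∀ s ∈ Icc (0 : ℝ) τ, ∀ t ∈ Icc (0 : ℝ) τ, |h s - h t| ≤ C * |s - t|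

private theorem IntA_lipW {τ : ℝ} {h : ℝ → ℝ} (H : IntA_Lip τ h) :
    ∃ K, LipschitzOnWith K h (Icc 0 τ) := by
  obtain ⟨C, hC, hh⟩ := H
  refine ⟨⟨C, hC⟩, ?_⟩
  apply LipschitzOnWith.of_dist_le_mul
  intro s hs t ht
  rw [Real.dist_eq, Real.dist_eq]
  exact hh s hs t ht

private theorem IntA_ac {τ : ℝ} (hτ : 0 ≤ τ) {h : ℝ → ℝ} (H : IntA_Lip τ h) :
    AbsolutelyContinuousOnInterval h 0 τ := by
  obtain ⟨K, hK⟩ := IntA_lipW H
  rw [← uIcc_of_le hτ] at hK
  exact hK.absolutelyContinuousOnInterval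

private theorem IntA_cont {τ : ℝ} {h : ℝ → ℝ} (H : IntA_Lip τ h) :
    ContinuousOn h (Icc 0 τ) := by
  obtain ⟨K, hK⟩ := IntA_lipW H
  exact hK.continuousOn

private theorem IntA_exp {M a b : ℝ} (ha : a ≤ M) (hb : b ≤ M) :
    |Real.exp a - Real.exp b| ≤ Real.exp M * |a - b| := by
  have key : ∀ a b : ℝ, b ≤ M → a ≤ b → |Real.exp a - Real.exp b| ≤ Real.exp M * |a - b| := by
    intro a b hb hab
    have h1 : Real.exp a ≤ Real.exp b := Real.exp_le_exp.mpr hab
    rw [abs_of_nonpos (by linarith), abs_of_nonpos (by linarith)]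
    have h2 : Real.exp b ≤ Real.exp M := Real.exp_le_exp.mpr hb
    have h3 := Real.add_one_le_exp (a - b)
    have h4 : Real.exp a = Real.exp b * Real.exp (a - b) := by
      rw [← Real.exp_add]; congr 1; ring
    have h5 : Real.exp b - Real.exp a ≤ Real.exp b * (b - a) := by
      rw [h4]; nlinarith [Real.exp_pos b]
    nlinarith [Real.exp_pos b]
  rcases le_total a b with h | h
  · exact key a b hb h
  · rw [abs_sub_comm, abs_sub_comm a b]
    exact key b a ha h

private theorem IntA_prim {τ : ℝ} {h T : ℝ → ℝ} (hτ : 0 ≤ τ) (hc : ContinuousOn h (Icc 0 τ))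
    (hT : ∀ t ∈ Icc (0 : ℝ) τ, T t = T τ + ∫ u in t..τ, h u) :
    IntA_Lip τ T ∧ ∀ t ∈ Ioo (0 : ℝ) τ, HasDerivAt T (- h t) t := by
  have hint : ∀ s ∈ Icc (0 : ℝ) τ, ∀ t ∈ Icc (0 : ℝ) τ, IntervalIntegrable h volume s t := by
    intro s hs t ht
    apply ContinuousOn.intervalIntegrable
    apply hc.mono
    intro x hx
    rw [mem_uIcc] at hx
    rcases hx with hx | hx
    · exact ⟨hs.1.trans hx.1, hx.2.trans ht.2⟩
    · exact ⟨ht.1.trans hx.1, hx.2.trans hs.2⟩
  have hτm : τ ∈ Icc (0 : ℝ) τ := ⟨hτ, le_rfl⟩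
  constructor
  · obtain ⟨C, hC⟩ := (isCompact_Icc (a := (0 : ℝ)) (b := τ)).exists_bound_of_continuousOn hc
    refine ⟨max C 0, le_max_right _ _, ?_⟩
    intro s hs t ht
    have e1 : T s - T t = ∫ u in s..t, h u := by
      rw [hT s hs, hT t ht]
      have := intervalIntegral.integral_add_adjacent_intervals (hint s hs t ht) (hint t ht τ hτm)
      linarith
    rw [e1, abs_sub_comm s t, ← Real.norm_eq_abs]
    apply intervalIntegral.norm_integral_le_of_norm_le_const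
    intro x hx
    have hx' : x ∈ uIcc s t := uIoc_subset_uIcc hx
    rw [mem_uIcc] at hx'
    refine (hC x ?_).trans (le_max_left _ _)
    rcases hx' with hx | hx
    · exact ⟨hs.1.trans hx.1, hx.2.trans ht.2⟩
    · exact ⟨ht.1.trans hx.1, hx.2.trans hs.2⟩
  · intro t ht
    have htI : t ∈ Icc (0 : ℝ) τ := Ioo_subset_Icc_self ht
    have hat : ContinuousAt h t := hc.continuousAt (Icc_mem_nhds ht.1 ht.2)
    have hsm : StronglyMeasurableAtFilter h (nhds t) volume := by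
      refine ⟨Icc 0 τ, Icc_mem_nhds ht.1 ht.2, ?_⟩
      exact (hc.aestronglyMeasurable measurableSet_Icc)
    have h1 : HasDerivAt (fun t => ∫ u in t..τ, h u) (- h t) t :=
      intervalIntegral.integral_hasDerivAt_left (hint t htI τ hτm) hsm hat
    have h2 : HasDerivAt (fun t => T τ + ∫ u in t..τ, h u) (- h t) t := h1.const_add (T τ)
    apply h2.congr_of_eventuallyEq
    filter_upwards [Icc_mem_nhds ht.1 ht.2] with s hs
    exact hT s hs

private theorem IntA_inv {τ c : ℝ} {h : ℝ → ℝ} (hc : 0 < c) (hh : ∀ t ∈ Icc (0 : ℝ) τ, c ≤ h t)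
    (H : IntA_Lip τ h) : IntA_Lip τ (fun t => (h t)⁻¹) := by
  obtain ⟨C, hC, hL⟩ := H
  refine ⟨C / c ^ 2, by positivity, ?_⟩
  intro s hs t ht
  have h1 := hh s hs
  have h2 := hh t ht
  have p1 : 0 < h s := lt_of_lt_of_le hc h1
  have p2 : 0 < h t := lt_of_lt_of_le hc h2
  have e : (h s)⁻¹ - (h t)⁻¹ = (h t - h s) / (h s * h t) := by
    field_simp
  simp only
  rw [e, abs_div, abs_of_pos (mul_pos p1 p2), abs_sub_comm (h t) (h s)]
  have h3 := hL s hs t ht
  have h4 : c ^ 2 ≤ h s * h t := by nlinarith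
  calc |h s - h t| / (h s * h t) ≤ (C * |s - t|) / c ^ 2 := by
        apply div_le_div₀ (by positivity) h3 (by positivity) h4
    _ = C / c ^ 2 * |s - t| := by ring

private theorem IntA_alg {R f S G g e2 : ℝ} (hf : 0 < f) (hS : 0 < S)
    (h : e2 ≤ (2 * R - S ^ 2 / f) * (2 * (f - G * S))) :
    f / S ^ 2 * e2 ≤ (4 * ((-S) * f * S⁻¹ + R * (-G * f) * S⁻¹ + R * f * (f / S ^ 2)) +
      2 * (G * S + g * (-f))) + (2 * f + 2 * (g * f)) := by
  have h1 : f / S ^ 2 * e2 ≤ f / S ^ 2 * ((2 * R - S ^ 2 / f) * (2 * (f - G * S))) := by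
    apply mul_le_mul_of_nonneg_left h (by positivity)
  refine h1.trans (le_of_eq ?_)
  field_simp
  ring

theorem int_bound {H τ : ℝ} (hτ0 : 0 < τ) (hτ : τ < H) {f g S R e2 : ℝ → ℝ}
    (hf : ∀ t ∈ Icc (0 : ℝ) τ, f t = Real.exp (- g t))
    (hlip : ∃ C : ℝ, 0 ≤ C ∧ ∀ s ∈ Icc (0 : ℝ) τ, ∀ t ∈ Icc (0 : ℝ) τ, |g s - g t| ≤ C * |s - t|)
    (hS : ∀ t ∈ Icc (0 : ℝ) τ, S t = S τ + ∫ u in t..τ, f u) (hSτ : 0 < S τ)
    (hR : ∀ t ∈ Icc (0 : ℝ) τ, R t = R τ + ∫ u in t..τ, S u)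
    (he2c : ContinuousOn e2 (Icc 0 τ))
    (he2 : ∀ t ∈ Ioo (0 : ℝ) τ, ∀ G : ℝ, HasDerivAt g G t →
      e2 t ≤ (2 * R t - S t ^ 2 / f t) * (2 * (f t - G * S t))) :
    ∫ t in (0 : ℝ)..τ, f t / S t ^ 2 * e2 t ≤
      4 * R τ * f τ / S τ + 2 * g τ * S τ - 4 * R 0 * f 0 / S 0 - 2 * g 0 * S 0 +
        2 * (S 0 - S τ) + 2 * ∫ t in (0 : ℝ)..τ, g t * f t := by
  have hτ0' : (0 : ℝ) ≤ τ := hτ0.le
  have h0m : (0 : ℝ) ∈ Icc (0 : ℝ) τ := ⟨le_rfl, hτ0'⟩
  have hτm : τ ∈ Icc (0 : ℝ) τ := ⟨hτ0', le_rfl⟩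
  have hg : IntA_Lip τ g := hlip
  have hgc := IntA_cont hg
  -- f is Lipschitz
  obtain ⟨M, hM⟩ := (isCompact_Icc (a := (0 : ℝ)) (b := τ)).exists_bound_of_continuousOn hgc
  have hfL : IntA_Lip τ f := by
    obtain ⟨C, hC, hL⟩ := hg
    refine ⟨Real.exp M * C, by positivity, ?_⟩
    intro s hs t ht
    rw [hf s hs, hf t ht]
    have b1 : - g s ≤ M := by
      have := hM s hs
      rw [Real.norm_eq_abs] at this
      linarith [neg_abs_le (g s)]
    have b2 : - g t ≤ M := by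
      have := hM t ht
      rw [Real.norm_eq_abs] at this
      linarith [neg_abs_le (g t)]
    have b3 := IntA_exp b1 b2
    have b4 : |- g s - - g t| = |g s - g t| := by
      rw [← abs_neg]; congr 1; ring
    rw [b4] at b3
    have b5 := hL s hs t ht
    calc _ ≤ Real.exp M * |g s - g t| := b3
      _ ≤ Real.exp M * (C * |s - t|) := by
          apply mul_le_mul_of_nonneg_left b5 (Real.exp_pos M).le
      _ = _ := by ring
  have hfc := IntA_cont hfL
  have hfpos : ∀ t ∈ Icc (0 : ℝ) τ, 0 < f t := by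
    intro t ht; rw [hf t ht]; exact Real.exp_pos _
  obtain ⟨hSL, hSd⟩ := IntA_prim hτ0' hfc hS
  have hSc := IntA_cont hSL
  obtain ⟨hRL, hRd⟩ := IntA_prim hτ0' hSc hR
  have hRc := IntA_cont hRL
  have hSpos : ∀ t ∈ Icc (0 : ℝ) τ, S τ ≤ S t := by
    intro t ht
    rw [hS t ht]
    have : 0 ≤ ∫ u in t..τ, f u := by
      apply intervalIntegral.integral_nonneg ht.2
      intro u hu
      exact (hfpos u ⟨ht.1.trans hu.1, hu.2⟩).le
    linarith
  have hiL := IntA_inv hSτ hSpos hSL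
  have hic := IntA_cont hiL
  -- the function Phi
  let Φ : ℝ → ℝ := fun t => 4 * (R t * f t * (S t)⁻¹) + 2 * (g t * S t)
  have hΦac : AbsolutelyContinuousOnInterval Φ 0 τ := by
    have a1 := (((IntA_ac hτ0' hRL).fun_mul (IntA_ac hτ0' hfL)).fun_mul
      (IntA_ac hτ0' hiL)).const_mul 4
    have a2 := ((IntA_ac hτ0' hg).fun_mul (IntA_ac hτ0' hSL)).const_mul 2
    exact a1.add a2
  have hΦ1 := hΦac.integral_deriv_eq_sub
  have hΦ2 := hΦac.intervalIntegrable_deriv
  have hIL : IntervalIntegrable (fun t => f t / S t ^ 2 * e2 t) volume 0 τ := by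
    apply ContinuousOn.intervalIntegrable
    rw [uIcc_of_le hτ0']
    apply ContinuousOn.mul _ he2c
    apply ContinuousOn.div hfc (hSc.pow 2)
    intro t ht
    have := lt_of_lt_of_le hSτ (hSpos t ht)
    exact (pow_pos this 2).ne'
  have hIf : IntervalIntegrable f volume 0 τ := by
    apply ContinuousOn.intervalIntegrable
    rwa [uIcc_of_le hτ0']
  have hIgf : IntervalIntegrable (fun t => g t * f t) volume 0 τ := by
    apply ContinuousOn.intervalIntegrable
    rw [uIcc_of_le hτ0']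
    exact hgc.mul hfc
  have hIr : IntervalIntegrable (fun t => deriv Φ t + (2 * f t + 2 * (g t * f t))) volume 0 τ :=
    hΦ2.add ((hIf.const_mul 2).add (hIgf.const_mul 2))
  have hle : (fun t => f t / S t ^ 2 * e2 t) ≤ᵐ[volume.restrict (Icc 0 τ)]
      (fun t => deriv Φ t + (2 * f t + 2 * (g t * f t))) := by
    rw [← restrict_Ioo_eq_restrict_Icc]
    have hd := (IntA_ac hτ0' hg).ae_differentiableAt
    rw [Filter.EventuallyLE, ae_restrict_iff' measurableSet_Ioo]
    filter_upwards [hd] with t hdt ht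
    have htI : t ∈ Icc (0 : ℝ) τ := Ioo_subset_Icc_self ht
    have hdg := (hdt (by rw [uIcc_of_le hτ0']; exact htI)).hasDerivAt
    set G := deriv g t with hG
    have hSt := lt_of_lt_of_le hSτ (hSpos t htI)
    have hft := hfpos t htI
    have hdS := hSd t ht
    have hdR := hRd t ht
    have hdf : HasDerivAt f (-G * f t) t := by
      have h1 : HasDerivAt (fun t => Real.exp (- g t)) (Real.exp (- g t) * (-G)) t :=
        (hdg.neg).exp
      have h2 : HasDerivAt f (Real.exp (- g t) * (-G)) t := by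
        apply h1.congr_of_eventuallyEq
        filter_upwards [Icc_mem_nhds ht.1 ht.2] with s hs
        exact hf s hs
      rw [hf t htI]
      convert h2 using 1
      ring
    have hdi : HasDerivAt (fun t => (S t)⁻¹) (f t / S t ^ 2) t := by
      have := hdS.fun_inv hSt.ne'
      simpa using this
    have hdΦ : HasDerivAt Φ (4 * ((-S t) * f t * (S t)⁻¹ + R t * (-G * f t) * (S t)⁻¹ +
        R t * f t * (f t / S t ^ 2)) + 2 * (G * S t + g t * (- f t))) t := by
      have h1 := ((hdR.fun_mul hdf).fun_mul hdi).const_mul 4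
      have h2 := (hdg.fun_mul hdS).const_mul 2
      have h3 := h1.fun_add h2
      refine h3.congr_deriv ?_
      ring
    rw [hdΦ.deriv]
    exact IntA_alg hft hSt (he2 t ht G hdg)
  have hmain := intervalIntegral.integral_mono_ae_restrict hτ0' hIL hIr hle
  have e1 : ∫ t in (0 : ℝ)..τ, (deriv Φ t + (2 * f t + 2 * (g t * f t))) =
      (Φ τ - Φ 0) + (2 * (S 0 - S τ) + 2 * ∫ t in (0 : ℝ)..τ, g t * f t) := by
    rw [intervalIntegral.integral_add hΦ2 ((hIf.const_mul 2).add (hIgf.const_mul 2)), hΦ1,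
      intervalIntegral.integral_add (hIf.const_mul 2) (hIgf.const_mul 2),
      intervalIntegral.integral_const_mul, intervalIntegral.integral_const_mul]
    have := hS 0 h0m
    rw [this]
    ring
  rw [e1] at hmain
  have e2' : Φ τ - Φ 0 = 4 * R τ * f τ / S τ + 2 * g τ * S τ - 4 * R 0 * f 0 / S 0
      - 2 * g 0 * S 0 := by
    simp only [Φ]
    rw [div_eq_mul_inv, div_eq_mul_inv]
    ring
  rw [e2'] at hmain
  linarith

end Vale.Agent.P254U
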