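import Mathlib

/-!
P254U/Iso: the isotropic constant (definitions used in the final statement).
-/

open MeasureTheory Set

namespace Vale.Agent.P254U

/-- convex body in `ℝ^n` -/
structure ConvBody (n : ℕ) (K : Set (Fin n → ℝ)) : Prop where
  compact : IsCompact K
  convex : Convex ℝ K
  interior_nonempty : (interior K).Nonempty

/-- coordinates of the centroid -/
noncomputable def cen {n : ℕ} (K : Set (Fin n → ℝ)) (i : Fin n) : ℝ :=
  (∫ x in K, x i) / (volume K).toReal

/-- the covariance matrix of the uniform distribution on `K` -/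
noncomputable def covM {n : ℕ} (K : Set (Fin n → ℝ)) : Matrix (Fin n) (Fin n) ℝ :=
  fun i j => (∫ x in K, (x i - cen K i) * (x j - cen K j)) / (volume K).toReal

/-- the isotropic constant `L_K = (det Σ_K / |K|^2)^(1/(2n))` -/
noncomputable def isoConst {n : ℕ} (K : Set (Fin n → ℝ)) : ℝ :=
  ((covM K).det / (volume K).toReal ^ 2) ^ (1 / (2 * (n : ℝ)))

/-- symmetry with respect to all coordinate hyperplanes -/
def Uncond {n : ℕ} (K : Set (Fin n → ℝ)) : Prop :=
  ∀ x ∈ K, ∀ ε : Fin n → ℝ, (∀ i, ε i = 1 ∨ ε i = -1) → (fun i => ε i * x i) ∈ K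

end Vale.Agent.P254U
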