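import Vale.Agent.Lib.P254U.LogInt

/-!
P254U/LogMean: second order lower bound for the logarithm of an exponential mean.
With `X = LL θ x - lamL K θ` (mean zero): `exp (a X) ≥ 1 + a X + a^2 X^2/2 + a^3 X^3/6` (all real
arguments), so `mean exp(aX) ≥ 1 + y`, `y = a^2 varL/2 - |a|^3 M/6 ≥ -1/2`, and
`log (1+y) ≥ y - y^2` for `y ≥ -1/2`.  Finally `mean exp(a LL) = exp(a lamL) * mean exp(aX)`.
-/

open MeasureTheory Set

namespace Vale.Agent.P254U

variable {n : ℕ}

theorem LogMean_cubic_le_exp (u : ℝ) : 1 + u + u ^ 2 / 2 + u ^ 3 / 6 ≤ Real.exp u := by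
  have h1 : ∀ u : ℝ, HasDerivAt (fun u : ℝ => Real.exp u - (1 + u + u ^ 2 / 2))
      (Real.exp u - (1 + u)) u := by
    intro u
    have h : HasDerivAt (fun u : ℝ => Real.exp u - (1 + u + u ^ 2 / 2)) _ u :=
      (Real.hasDerivAt_exp u).sub (((hasDerivAt_const u (1 : ℝ)).add (hasDerivAt_id' u)).add
        ((hasDerivAt_pow 2 u).div_const 2))
    refine h.congr_deriv ?_
    push_cast
    ring
  have h2 : ∀ u : ℝ, HasDerivAt (fun u : ℝ => Real.exp u - (1 + u + u ^ 2 / 2 + u ^ 3 / 6))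
      (Real.exp u - (1 + u + u ^ 2 / 2)) u := by
    intro u
    have h : HasDerivAt (fun u : ℝ => Real.exp u - (1 + u + u ^ 2 / 2 + u ^ 3 / 6)) _ u :=
      (Real.hasDerivAt_exp u).sub ((((hasDerivAt_const u (1 : ℝ)).add (hasDerivAt_id' u)).add
        ((hasDerivAt_pow 2 u).div_const 2)).add ((hasDerivAt_pow 3 u).div_const 6))
    refine h.congr_deriv ?_
    push_cast
    ring
  have hmono : Monotone (fun u : ℝ => Real.exp u - (1 + u + u ^ 2 / 2)) := by
    refine monotone_of_hasDerivAt_nonneg (f' := fun u => Real.exp u - (1 + u)) h1 fun u => ?_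
    have := Real.add_one_le_exp u
    change 0 ≤ Real.exp u - (1 + u)
    linarith
  have hcont : Continuous (fun u : ℝ => Real.exp u - (1 + u + u ^ 2 / 2 + u ^ 3 / 6)) := by
    fun_prop
  have h0 : Real.exp 0 - (1 + 0 + 0 ^ 2 / 2) = 0 := by simp
  rcases le_total 0 u with hu | hu
  · have hm : MonotoneOn (fun u : ℝ => Real.exp u - (1 + u + u ^ 2 / 2 + u ^ 3 / 6))
        (Set.Ici 0) := by
      refine monotoneOn_of_deriv_nonneg (convex_Ici 0) hcont.continuousOn
        (fun x _ => (h2 x).differentiableAt.differentiableWithinAt) fun x hx => ?_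
      rw [(h2 x).deriv]
      rw [interior_Ici] at hx
      have h3 := hmono (le_of_lt (Set.mem_Ioi.1 hx))
      simp only at h3
      rw [h0] at h3
      exact h3
    have h4 := hm (Set.mem_Ici.2 le_rfl) (Set.mem_Ici.2 hu) hu
    simp only at h4
    have h5 : Real.exp 0 - (1 + 0 + 0 ^ 2 / 2 + 0 ^ 3 / 6) = 0 := by simp
    rw [h5] at h4
    linarith
  · have hm : AntitoneOn (fun u : ℝ => Real.exp u - (1 + u + u ^ 2 / 2 + u ^ 3 / 6))
        (Set.Iic 0) := by
      refine antitoneOn_of_deriv_nonpos (convex_Iic 0) hcont.continuousOn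
        (fun x _ => (h2 x).differentiableAt.differentiableWithinAt) fun x hx => ?_
      rw [(h2 x).deriv]
      rw [interior_Iic] at hx
      have h3 := hmono (le_of_lt (Set.mem_Iio.1 hx))
      simp only at h3
      rw [h0] at h3
      exact h3
    have h4 := hm (Set.mem_Iic.2 hu) (Set.mem_Iic.2 le_rfl) hu
    simp only at h4
    have h5 : Real.exp 0 - (1 + 0 + 0 ^ 2 / 2 + 0 ^ 3 / 6) = 0 := by simp
    rw [h5] at h4
    linarith

theorem LogMean_log_ge {y : ℝ} (hy : -(1 / 2) ≤ y) : y - y ^ 2 ≤ Real.log (1 + y) := by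
  rcases le_total 0 y with h | h
  · have h1 := Real.le_log_one_add_of_nonneg h
    refine le_trans ?_ h1
    rw [le_div_iff₀ (by linarith)]
    nlinarith [pow_nonneg h 2, pow_nonneg h 3]
  · rw [Real.le_log_iff_exp_le (by linarith)]
    have hw : 0 ≤ -y + y ^ 2 := by nlinarith [sq_nonneg y]
    have h1 := Real.quadratic_le_exp_of_nonneg hw
    have h2 : Real.exp (y - y ^ 2) = (Real.exp (-y + y ^ 2))⁻¹ := by
      rw [← Real.exp_neg]
      congr 1
      ring
    rw [h2]
    have h3 : 0 < 1 + y := by linarith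
    rw [inv_le_comm₀ (Real.exp_pos _) h3]
    refine le_trans ?_ h1
    rw [inv_eq_one_div, div_le_iff₀ h3]
    have h4 : 0 ≤ 1 + y - y ^ 2 + y ^ 3 := by nlinarith [sq_nonneg y, sq_nonneg (y + 1 / 2)]
    nlinarith [mul_nonneg (sq_nonneg y) h4]

theorem log_mean_exp_ge {K : Set (Fin n → ℝ)} (h : Corner n K) (θ : Fin n → ℝ) {a M : ℝ}
    (hM : mean K (fun x => |LL θ x - lamL K θ| ^ 3) ≤ M) (ha : ∀ i, |a * θ i| < 1)
    (hs : |a| ^ 3 * M / 6 ≤ 1 / 2) :
    a * lamL K θ + (a ^ 2 / 2 * varL K θ - |a| ^ 3 * M / 6) -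
        (a ^ 2 / 2 * varL K θ + |a| ^ 3 * M / 6) ^ 2 ≤
      Real.log (mean K (fun x => Real.exp (a * LL θ x))) := by
  have hv := h.vol_pos
  set lam := lamL K θ with hlam
  have hvol : ∀ c : ℝ, ∫ _x in K, c = vol K * c := by
    intro c
    rw [setIntegral_const, smul_eq_mul]
    rfl
  have hIc : ∀ c : ℝ, IntegrableOn (fun _ : Fin n → ℝ => c) K := fun c =>
    integrableOn_const h.volume_ne_top
  have hI0 : IntegrableOn (fun x : Fin n → ℝ => LL θ x) K := by
    have := h.integrableOn_LL θ 0 1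
    simpa using this
  have hI1 : IntegrableOn (fun x : Fin n → ℝ => LL θ x - lam) K := by
    have := h.integrableOn_LL θ lam 1
    simpa using this
  have hI2 := h.integrableOn_LL θ lam 2
  have hI3 := h.integrableOn_abs_LL θ lam 3
  have hIe : IntegrableOn (fun x : Fin n → ℝ => Real.exp (a * (LL θ x - lam))) K := by
    have h1 := (h.integrableOn_exp_LL θ ha).const_mul (Real.exp (-(a * lam)))
    refine h1.congr (Filter.Eventually.of_forall fun x => ?_)
    change Real.exp (-(a * lam)) * Real.exp (a * LL θ x) = Real.exp (a * (LL θ x - lam))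
    rw [← Real.exp_add]
    congr 1
    ring
  have hX1 : ∫ x in K, (LL θ x - lam) = 0 := by
    rw [integral_sub hI0 (hIc lam), hvol]
    rw [hlam, lamL, mean]
    field_simp
    ring
  have hX2 : ∫ x in K, (LL θ x - lam) ^ 2 = varL K θ * vol K := by
    rw [varL, mean, ← hlam]
    field_simp
  have hX3 : ∫ x in K, |LL θ x - lam| ^ 3 ≤ M * vol K := by
    rw [mean, div_le_iff₀ hv] at hM
    exact hM
  have hM0 : 0 ≤ M := by
    refine le_trans ?_ hM
    rw [mean]
    refine div_nonneg (integral_nonneg fun x => by positivity) hv.le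
  have hV0 : 0 ≤ varL K θ := by
    rw [varL, mean]
    refine div_nonneg (integral_nonneg fun x => by positivity) hv.le
  have hlow : ∫ x in K, (((1 + a * (LL θ x - lam)) + a ^ 2 / 2 * (LL θ x - lam) ^ 2) -
      |a| ^ 3 / 6 * |LL θ x - lam| ^ 3) ≤ ∫ x in K, Real.exp (a * (LL θ x - lam)) := by
    refine setIntegral_mono (((((hIc 1).add (hI1.const_mul a)).add (hI2.const_mul _))).sub
      (hI3.const_mul _)) hIe fun x => ?_
    have h1 := LogMean_cubic_le_exp (a * (LL θ x - lam))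
    have h2 : -(|a| ^ 3 * |LL θ x - lam| ^ 3) ≤ (a * (LL θ x - lam)) ^ 3 := by
      have h3 := neg_abs_le ((a * (LL θ x - lam)) ^ 3)
      rw [abs_pow, abs_mul, mul_pow] at h3
      exact h3
    change ((1 + a * (LL θ x - lam)) + a ^ 2 / 2 * (LL θ x - lam) ^ 2) -
      |a| ^ 3 / 6 * |LL θ x - lam| ^ 3 ≤ Real.exp (a * (LL θ x - lam))
    nlinarith
  have hval : ∫ x in K, (((1 + a * (LL θ x - lam)) + a ^ 2 / 2 * (LL θ x - lam) ^ 2) -
      |a| ^ 3 / 6 * |LL θ x - lam| ^ 3) = vol K + a ^ 2 / 2 * (varL K θ * vol K) -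
        |a| ^ 3 / 6 * ∫ x in K, |LL θ x - lam| ^ 3 := by
    have hJ1 : IntegrableOn (fun x : Fin n → ℝ => 1 + a * (LL θ x - lam)) K :=
      (hIc 1).add (hI1.const_mul a)
    have hJ2 : IntegrableOn (fun x : Fin n → ℝ => 1 + a * (LL θ x - lam) +
        a ^ 2 / 2 * (LL θ x - lam) ^ 2) K := hJ1.add (hI2.const_mul _)
    have hJ3 : IntegrableOn (fun x : Fin n → ℝ => |a| ^ 3 / 6 * |LL θ x - lam| ^ 3) K :=
      hI3.const_mul _
    rw [integral_sub hJ2 hJ3, integral_add hJ1 (hI2.const_mul _),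
      integral_add (hIc 1) (hI1.const_mul a), hvol, integral_const_mul, integral_const_mul,
      integral_const_mul, hX1, hX2]
    ring
  set y := a ^ 2 / 2 * varL K θ - |a| ^ 3 * M / 6 with hy
  have hA : 0 ≤ a ^ 2 / 2 * varL K θ := by positivity
  have hB : 0 ≤ |a| ^ 3 * M / 6 := by positivity
  have hmean : 1 + y ≤ (∫ x in K, Real.exp (a * (LL θ x - lam))) / vol K := by
    rw [le_div_iff₀ hv]
    refine le_trans ?_ (hval ▸ hlow)
    have h1 : |a| ^ 3 / 6 * ∫ x in K, |LL θ x - lam| ^ 3 ≤ |a| ^ 3 / 6 * (M * vol K) :=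
      mul_le_mul_of_nonneg_left hX3 (by positivity)
    rw [hy]
    linarith
  have hfac : mean K (fun x => Real.exp (a * LL θ x)) =
      Real.exp (a * lam) * ((∫ x in K, Real.exp (a * (LL θ x - lam))) / vol K) := by
    rw [mean, ← mul_div_assoc, ← integral_const_mul]
    congr 1
    refine integral_congr_ae (Filter.Eventually.of_forall fun x => ?_)
    change Real.exp (a * LL θ x) = Real.exp (a * lam) * Real.exp (a * (LL θ x - lam))
    rw [← Real.exp_add]
    congr 1
    ring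
  have hy1 : -(1 / 2) ≤ y := by
    rw [hy]
    linarith
  have hpos : 0 < 1 + y := by linarith
  rw [hfac, Real.log_mul (Real.exp_pos _).ne' (lt_of_lt_of_le hpos hmean).ne', Real.log_exp]
  have h1 := LogMean_log_ge hy1
  have h2 := Real.log_le_log hpos hmean
  have h3 : y ^ 2 ≤ (a ^ 2 / 2 * varL K θ + |a| ^ 3 * M / 6) ^ 2 := by
    rw [hy]
    nlinarith [mul_nonneg hA hB]
  linarith

end Vale.Agent.P254U
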