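import Vale.Agent.Lib.P254U.C2.Log
import Vale.Agent.Lib.P254U.C2.Poly
import Vale.Agent.Lib.P254U.C2.Layer
import Vale.Agent.Lib.P254U.C2.Second
import Vale.Agent.Lib.P254U.C2.Tn
import Vale.Agent.Lib.P254U.C2.Two

/-!
P254U/OneC2: the one variable inequality (C'), joint with Berwald.

Let `M = 2 E X`, `r = 3 E X^2 / M^2`. The layer cake inequality `Dens.layer` turns the pointwise
inequalities `c2_p`, `c2_q` (at `v = x / M`) into upper bounds for
`D = log M - 1 - E log X` and `H = - (1 + 2 (E log X - log M) + (1/2) E (log X - log M)^2)`, and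
`log M - 1/2 - E log X - (1/2) Var (log X) = H + D^2 / 2 ≤ BB M r`.
-/

open MeasureTheory Set

namespace Vale.Agent.P254U

variable {f : ℝ → ℝ}

private theorem OneC2_cont : ContinuousOn (fun x : ℝ => x * Real.log x ^ 2) (Ici 0) := by
  have h2 : ContinuousOn
      (fun x : ℝ => 4 * (Real.sqrt x * Real.log (Real.sqrt x)) ^ 2) (Ici 0) := by
    have h3 : Continuous (fun x : ℝ => Real.sqrt x * Real.log (Real.sqrt x)) :=
      Real.continuous_mul_log.comp Real.continuous_sqrt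
    exact ((h3.pow 2).const_mul 4 |>.continuousOn)
  refine h2.congr ?_
  intro x hx
  have hx0 : 0 ≤ x := hx
  change x * Real.log x ^ 2 = 4 * (Real.sqrt x * Real.log (Real.sqrt x)) ^ 2
  rw [Real.log_sqrt hx0, mul_pow, Real.sq_sqrt hx0]
  ring

private theorem OneC2_deriv {x : ℝ} (hx : 0 < x) :
    HasDerivAt (fun x : ℝ => x * Real.log x ^ 2) (Real.log x ^ 2 + 2 * Real.log x) x := by
  have h1 : HasDerivAt (fun x : ℝ => x * Real.log x ^ 2)
      (1 * Real.log x ^ 2 + x * ((2 : ℕ) * Real.log x ^ (2 - 1) * x⁻¹)) x :=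
    (hasDerivAt_id x).mul ((Real.hasDerivAt_log hx.ne').pow 2)
  refine h1.congr_deriv ?_
  push_cast
  field_simp

private theorem OneC2_deriv1 {x : ℝ} (hx : 0 < x) :
    HasDerivAt (fun x : ℝ => x * Real.log x) (Real.log x + 1) x :=
  Real.hasDerivAt_mul_log hx.ne'

private theorem OneC2_int1 (H : ℝ) (hH : 0 < H) :
    IntegrableOn (fun t : ℝ => Real.log t) (Ioc 0 H) := by
  have := intervalIntegral.intervalIntegrable_log' (a := 0) (b := H)
  rwa [intervalIntegrable_iff_integrableOn_Ioc_of_le hH.le] at this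

private theorem OneC2_int2 (H : ℝ) (hH : 0 < H) :
    IntegrableOn (fun t : ℝ => Real.log t ^ 2) (Ioc 0 H) := by
  have hc : ContinuousOn (fun x : ℝ => x * Real.log x ^ 2 - 2 * (x * Real.log x) + 2 * x)
      (Icc 0 H) := by
    have h4 : Continuous (fun x : ℝ => x * Real.log x) := Real.continuous_mul_log
    exact ((OneC2_cont.mono Icc_subset_Ici_self).sub
      (h4.const_mul 2 |>.continuousOn)).add (continuous_id.const_mul 2 |>.continuousOn)
  refine intervalIntegral.integrableOn_deriv_of_nonneg hc (g' := fun t => Real.log t ^ 2)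
    (fun x hx => ?_) (fun x _ => sq_nonneg _)
  have h := ((OneC2_deriv hx.1).sub ((OneC2_deriv1 hx.1).const_mul 2)).add
    ((hasDerivAt_id x).const_mul 2)
  refine h.congr_deriv ?_
  ring

private theorem OneC2_kint (β γ δ ε ζ H : ℝ) (hH : 0 < H) :
    IntegrableOn (fun t : ℝ => β + 2 * γ * t + 3 * δ * t ^ 2 + ε * (Real.log t + 1) +
      ζ * (Real.log t ^ 2 + 2 * Real.log t)) (Ioc 0 H) := by
  have h1 : IntegrableOn (fun t : ℝ => β + 2 * γ * t + 3 * δ * t ^ 2) (Ioc 0 H) := by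
    have hc : Continuous (fun t : ℝ => β + 2 * γ * t + 3 * δ * t ^ 2) := by fun_prop
    exact (hc.intervalIntegrable (μ := volume) 0 H).1
  have h2 : IntegrableOn (fun _ : ℝ => (1 : ℝ)) (Ioc 0 H) :=
    (continuous_const.intervalIntegrable (μ := volume) 0 H).1
  exact (h1.add (((OneC2_int1 H hH).add h2).const_mul ε)).add
    (((OneC2_int2 H hH).add ((OneC2_int1 H hH).const_mul 2)).const_mul ζ)

private theorem OneC2_ftc (β γ δ ε ζ y : ℝ) (hy : 0 ≤ y) :
    ∫ t in Ioc 0 y, (β + 2 * γ * t + 3 * δ * t ^ 2 + ε * (Real.log t + 1) +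
      ζ * (Real.log t ^ 2 + 2 * Real.log t)) =
    β * y + γ * y ^ 2 + δ * y ^ 3 + ε * (y * Real.log y) + ζ * (y * Real.log y ^ 2) := by
  rcases hy.eq_or_lt with rfl | hy0
  · simp
  have hc : ContinuousOn (fun y : ℝ => β * y + γ * y ^ 2 + δ * y ^ 3 + ε * (y * Real.log y) +
      ζ * (y * Real.log y ^ 2)) (Icc 0 y) := by
    have h4 : Continuous (fun x : ℝ => x * Real.log x) := Real.continuous_mul_log
    have h5 : Continuous (fun y : ℝ => β * y + γ * y ^ 2 + δ * y ^ 3) := by fun_prop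
    exact (h5.continuousOn.add (h4.const_mul ε).continuousOn).add
      ((OneC2_cont.mono Icc_subset_Ici_self).const_mul ζ)
  rw [← intervalIntegral.integral_of_le hy,
    intervalIntegral.integral_eq_sub_of_hasDerivAt_of_le hy hc (f' := fun t =>
      β + 2 * γ * t + 3 * δ * t ^ 2 + ε * (Real.log t + 1) +
      ζ * (Real.log t ^ 2 + 2 * Real.log t))]
  · simp
  · intro x hx
    have h1 : HasDerivAt (fun y : ℝ => β * y + γ * y ^ 2 + δ * y ^ 3)
        (β + 2 * γ * x + 3 * δ * x ^ 2) x := by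
      have := (((hasDerivAt_id x).const_mul β).add ((hasDerivAt_pow 2 x).const_mul γ)).add
        ((hasDerivAt_pow 3 x).const_mul δ)
      refine this.congr_deriv ?_
      push_cast
      ring
    exact (h1.add ((OneC2_deriv1 hx.1).const_mul ε)).add ((OneC2_deriv hx.1).const_mul ζ)
  · rw [intervalIntegrable_iff_integrableOn_Ioc_of_le hy]
    exact OneC2_kint β γ δ ε ζ y hy0

private theorem OneC2_lin (hf : Dens f) (β γ δ ε ζ : ℝ) :
    ∫ t in Ioi (0 : ℝ), (β + 2 * γ * t + 3 * δ * t ^ 2 + ε * (Real.log t + 1) +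
      ζ * (Real.log t ^ 2 + 2 * Real.log t)) * f t =
    β + 2 * γ * (∫ t in Ioi (0 : ℝ), t * f t) + 3 * δ * (∫ t in Ioi (0 : ℝ), t ^ 2 * f t) +
      ε * ((∫ t in Ioi (0 : ℝ), Real.log t * f t) + 1) +
      ζ * ((∫ t in Ioi (0 : ℝ), Real.log t ^ 2 * f t) +
        2 * ∫ t in Ioi (0 : ℝ), Real.log t * f t) := by
  have i0 : IntegrableOn f (Ioi 0) := hf.integrableOn_Ioi
  have i1 : IntegrableOn (fun t => t * f t) (Ioi 0) := hf.integrableOn_mul
    fun H _ => (continuous_id.intervalIntegrable (μ := volume) 0 H).1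
  have i2 : IntegrableOn (fun t => t ^ 2 * f t) (Ioi 0) := hf.integrableOn_mul
    fun H _ => ((continuous_pow 2).intervalIntegrable (μ := volume) 0 H).1
  have i3 : IntegrableOn (fun t => Real.log t * f t) (Ioi 0) := hf.integrableOn_mul OneC2_int1
  have i4 : IntegrableOn (fun t => Real.log t ^ 2 * f t) (Ioi 0) :=
    hf.integrableOn_mul OneC2_int2
  have e : ∀ t : ℝ, (β + 2 * γ * t + 3 * δ * t ^ 2 + ε * (Real.log t + 1) +
      ζ * (Real.log t ^ 2 + 2 * Real.log t)) * f t =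
      (β + ε) * f t + 2 * γ * (t * f t) + 3 * δ * (t ^ 2 * f t) +
        (ε + 2 * ζ) * (Real.log t * f t) + ζ * (Real.log t ^ 2 * f t) := fun t => by ring
  simp_rw [e]
  rw [integral_add, integral_add, integral_add, integral_add, integral_const_mul,
    integral_const_mul, integral_const_mul, integral_const_mul, integral_const_mul, hf.mass]
  · ring
  · exact i0.const_mul _
  · exact i1.const_mul _
  · exact (i0.const_mul _).add (i1.const_mul _)
  · exact i2.const_mul _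
  · exact ((i0.const_mul _).add (i1.const_mul _)).add (i2.const_mul _)
  · exact i3.const_mul _
  · exact (((i0.const_mul _).add (i1.const_mul _)).add (i2.const_mul _)).add (i3.const_mul _)
  · exact i4.const_mul _

/-- the layer cake inequality for the functions at hand -/
private theorem OneC2_layer (hf : Dens f) (β γ δ ε ζ : ℝ) (g : ℝ → ℝ)
    (hg : IntegrableOn g (Ioo 0 1))
    (h : ∀ w ∈ Ioo (0 : ℝ) 1, ∀ y, 1 - w ≤ y → g w ≤
      β * y + γ * y ^ 2 + δ * y ^ 3 + ε * (y * Real.log y) + ζ * (y * Real.log y ^ 2)) :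
    ∫ w in Ioo (0 : ℝ) 1, g w ≤
    β + 2 * γ * (∫ t in Ioi (0 : ℝ), t * f t) + 3 * δ * (∫ t in Ioi (0 : ℝ), t ^ 2 * f t) +
      ε * ((∫ t in Ioi (0 : ℝ), Real.log t * f t) + 1) +
      ζ * ((∫ t in Ioi (0 : ℝ), Real.log t ^ 2 * f t) +
        2 * ∫ t in Ioi (0 : ℝ), Real.log t * f t) := by
  rw [← OneC2_lin hf β γ δ ε ζ]
  refine hf.layer _ (by fun_prop) (fun H hH => OneC2_kint β γ δ ε ζ H hH) g hg ?_
  intro w hw y hy
  have hy0 : 0 ≤ y := by linarith [hw.2]
  rw [OneC2_ftc β γ δ ε ζ y hy0]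
  exact h w hw y hy

private theorem OneC2_max (b s : ℝ) (hb : 0 ≤ b) (hs : 0 < s) (hbs : b ≤ s) :
    ∫ w in Ioo (0 : ℝ) 1, max (b - s * (1 - w)) 0 = b ^ 2 / (2 * s) := by
  have hc : Continuous (fun w : ℝ => max (b - s * (1 - w)) 0) := by fun_prop
  have h0 : 0 ≤ 1 - b / s := by
    rw [sub_nonneg, div_le_one hs]
    exact hbs
  have h1 : 1 - b / s ≤ 1 := by
    have : 0 ≤ b / s := by positivity
    linarith
  rw [← integral_Ioc_eq_integral_Ioo, ← intervalIntegral.integral_of_le zero_le_one,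
    ← intervalIntegral.integral_add_adjacent_intervals (b := 1 - b / s)
      (hc.intervalIntegrable _ _) (hc.intervalIntegrable _ _)]
  have e1 : ∫ w in (0 : ℝ)..(1 - b / s), max (b - s * (1 - w)) 0 = 0 := by
    rw [intervalIntegral.integral_congr (g := fun _ => (0 : ℝ))]
    · simp
    · intro w hw
      rw [uIcc_of_le h0] at hw
      have : b ≤ s * (1 - w) := by
        have h2 : b / s ≤ 1 - w := by linarith [hw.2]
        rw [div_le_iff₀ hs] at h2
        linarith
      exact max_eq_right (by linarith)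
  have e2 : ∫ w in (1 - b / s)..1, max (b - s * (1 - w)) 0 = b ^ 2 / (2 * s) := by
    rw [intervalIntegral.integral_congr (g := fun w => (b - s) + s * w)]
    · rw [intervalIntegral.integral_add (by simp) (by
        exact (continuous_const.mul continuous_id).intervalIntegrable _ _),
        intervalIntegral.integral_const_mul, integral_id]
      simp only [intervalIntegral.integral_const, smul_eq_mul]
      field_simp
      ring
    · intro w hw
      rw [uIcc_of_le h1] at hw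
      have : s * (1 - w) ≤ b := by
        have h2 : 1 - w ≤ b / s := by linarith [hw.1]
        rw [le_div_iff₀ hs] at h2
        linarith
      change max (b - s * (1 - w)) 0 = (b - s) + s * w
      rw [max_eq_left (by linarith)]
      ring
  rw [e1, e2, zero_add]

private theorem OneC2_const (c : ℝ) : IntegrableOn (fun _ : ℝ => c) (Ioo 0 1) :=
  ((continuous_const.intervalIntegrable (μ := volume) 0 1).1).mono_set Ioo_subset_Ioc_self

/-- `D ≥ 0` -/
private theorem OneC2_D0 (hf : Dens f) {M : ℝ} (hM0 : 0 < M)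
    (hM : 2 * ∫ t in Ioi (0 : ℝ), t * f t = M) :
    0 ≤ Real.log M - 1 - ∫ t in Ioi (0 : ℝ), Real.log t * f t := by
  have h := OneC2_layer hf (Real.log M - 1) (1 / M) 0 (-1) 0 (fun _ => 0)
    (OneC2_const 0) (fun w hw y hy => ?_)
  · have e : 2 * (1 / M) * (∫ t in Ioi (0 : ℝ), t * f t) = 1 := by
      have : 2 * (1 / M) * (∫ t in Ioi (0 : ℝ), t * f t) =
        1 / M * (2 * ∫ t in Ioi (0 : ℝ), t * f t) := by ring
      rw [this, hM, one_div, inv_mul_cancel₀ hM0.ne']
    rw [e] at h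
    simp only [integral_zero] at h
    linarith
  · have hy0 : 0 < y := by linarith [hw.2]
    have h1 := Real.log_le_sub_one_of_pos (show 0 < y / M by positivity)
    rw [Real.log_div hy0.ne' hM0.ne'] at h1
    have h2 := mul_le_mul_of_nonneg_left h1 hy0.le
    have e : (Real.log M - 1) * y + 1 / M * y ^ 2 + 0 * y ^ 3 + -1 * (y * Real.log y) +
        0 * (y * Real.log y ^ 2) = y * (y / M - 1) - y * (Real.log y - Real.log M) := by
      field_simp
      ring
    rw [e]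
    linarith

/-- upper bound for `D` -/
private theorem OneC2_D (hf : Dens f) {M r : ℝ} (hM0 : 0 < M)
    (hM : 2 * ∫ t in Ioi (0 : ℝ), t * f t = M)
    (hr : 3 * (∫ t in Ioi (0 : ℝ), t ^ 2 * f t) = r * M ^ 2) :
    Real.log M - 1 - (∫ t in Ioi (0 : ℝ), Real.log t * f t) ≤
      0.2896 * M - 0.41032 + 0.138 * r := by
  have h := OneC2_layer hf (0.56928 - Real.log M) (-0.9796 / M) (0.138 / M ^ 2) 1 0
    (fun _ => -0.2896 * M) (OneC2_const _) (fun w hw y hy => ?_)
  · have e1 : 2 * (-0.9796 / M) * (∫ t in Ioi (0 : ℝ), t * f t) = -0.9796 := by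
      have : 2 * (-0.9796 / M) * (∫ t in Ioi (0 : ℝ), t * f t) =
        -0.9796 / M * (2 * ∫ t in Ioi (0 : ℝ), t * f t) := by ring
      rw [this, hM]
      field_simp
    have e2 : 3 * (0.138 / M ^ 2) * (∫ t in Ioi (0 : ℝ), t ^ 2 * f t) = 0.138 * r := by
      have : 3 * (0.138 / M ^ 2) * (∫ t in Ioi (0 : ℝ), t ^ 2 * f t) =
        0.138 / M ^ 2 * (3 * ∫ t in Ioi (0 : ℝ), t ^ 2 * f t) := by ring
      rw [this, hr]
      field_simp
    rw [e1, e2] at h
    simp only [integral_const, MeasurableSet.univ, measureReal_restrict_apply, univ_inter,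
      Real.volume_real_Ioo, smul_eq_mul] at h
    norm_num at h
    linarith
  · have hy0 : 0 < y := by linarith [hw.2]
    have h1 := c2_p (y / M) (by positivity)
    rw [Real.log_div hy0.ne' hM0.ne'] at h1
    have h2 := mul_le_mul_of_nonneg_left h1 hM0.le
    have e : M * (0.2896 + 0.56928 * (y / M) - 0.9796 * (y / M) ^ 2 + 0.138 * (y / M) ^ 3 +
        y / M * (Real.log y - Real.log M)) = 0.2896 * M + ((0.56928 - Real.log M) * y +
        -0.9796 / M * y ^ 2 + 0.138 / M ^ 2 * y ^ 3 + 1 * (y * Real.log y) +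
        0 * (y * Real.log y ^ 2)) := by
      field_simp
      ring
    rw [e, mul_zero] at h2
    linarith

/-- upper bound for `D` used for `n = 2` -/
private theorem OneC2_D2 (hf : Dens f) {M r : ℝ} (hM0 : 0 < M)
    (hM : 2 * ∫ t in Ioi (0 : ℝ), t * f t = M)
    (hr : 3 * (∫ t in Ioi (0 : ℝ), t ^ 2 * f t) = r * M ^ 2) :
    Real.log M - 1 - (∫ t in Ioi (0 : ℝ), Real.log t * f t) ≤
      0.3825 * M - 0.4917 + 0.1104 * r := by
  have h := OneC2_layer hf (0.3405 - Real.log M) (-0.8322 / M) (0.1104 / M ^ 2) 1 0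
    (fun _ => -0.3825 * M) (OneC2_const _) (fun w hw y hy => ?_)
  · have e1 : 2 * (-0.8322 / M) * (∫ t in Ioi (0 : ℝ), t * f t) = -0.8322 := by
      have : 2 * (-0.8322 / M) * (∫ t in Ioi (0 : ℝ), t * f t) =
        -0.8322 / M * (2 * ∫ t in Ioi (0 : ℝ), t * f t) := by ring
      rw [this, hM]
      field_simp
    have e2 : 3 * (0.1104 / M ^ 2) * (∫ t in Ioi (0 : ℝ), t ^ 2 * f t) = 0.1104 * r := by
      have : 3 * (0.1104 / M ^ 2) * (∫ t in Ioi (0 : ℝ), t ^ 2 * f t) =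
        0.1104 / M ^ 2 * (3 * ∫ t in Ioi (0 : ℝ), t ^ 2 * f t) := by ring
      rw [this, hr]
      field_simp
    rw [e1, e2] at h
    simp only [integral_const, MeasurableSet.univ, measureReal_restrict_apply, univ_inter,
      Real.volume_real_Ioo, smul_eq_mul] at h
    norm_num at h
    linarith
  · have hy0 : 0 < y := by linarith [hw.2]
    have h1 := c2_p2 (y / M) (by positivity)
    rw [Real.log_div hy0.ne' hM0.ne'] at h1
    have h2 := mul_le_mul_of_nonneg_left h1 hM0.le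
    have e : M * (0.3825 + 0.3405 * (y / M) - 0.8322 * (y / M) ^ 2 + 0.1104 * (y / M) ^ 3 +
        y / M * (Real.log y - Real.log M)) = 0.3825 * M + ((0.3405 - Real.log M) * y +
        -0.8322 / M * y ^ 2 + 0.1104 / M ^ 2 * y ^ 3 + 1 * (y * Real.log y) +
        0 * (y * Real.log y ^ 2)) := by
      field_simp
      ring
    rw [e, mul_zero] at h2
    linarith

/-- upper bound for `H` -/
private theorem OneC2_H (hf : Dens f) {M r : ℝ} (hM1 : 1 ≤ M) (hM2 : M ≤ 2)
    (hM : 2 * ∫ t in Ioi (0 : ℝ), t * f t = M)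
    (hr : 3 * (∫ t in Ioi (0 : ℝ), t ^ 2 * f t) = r * M ^ 2) :
    -(1 + 2 * ((∫ t in Ioi (0 : ℝ), Real.log t * f t) - Real.log M) +
      1 / 2 * ((∫ t in Ioi (0 : ℝ), Real.log t ^ 2 * f t) -
        2 * Real.log M * (∫ t in Ioi (0 : ℝ), Real.log t * f t) + Real.log M ^ 2)) ≤
      -0.1166 * M + 0.000685 + 0.116925 * r + 0.00124 * M ^ 2 := by
  have hM0 : 0 < M := by linarith
  have hi : ∀ b s : ℝ, IntegrableOn (fun w : ℝ => max (b - s * (1 - w)) 0) (Ioo 0 1) := by
    intro b s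
    have hc : Continuous (fun w : ℝ => max (b - s * (1 - w)) 0) := by fun_prop
    exact ((hc.intervalIntegrable (μ := volume) 0 1).1).mono_set Ioo_subset_Ioc_self
  have h := OneC2_layer hf (0.844115 + 1 / 2 * (1 - Real.log M) ^ 2) (-1.34343 / M)
    (0.116925 / M ^ 2) (1 - Real.log M) (1 / 2)
    (fun w => 0.1166 * M - max (0.0461 * M - 5.9 * (1 - w)) 0 -
      max (0.0705 * M - 2.35 * (1 - w)) 0)
    (((OneC2_const _).sub (hi _ _)).sub (hi _ _)) (fun w hw y hy => ?_)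
  · have e1 : 2 * (-1.34343 / M) * (∫ t in Ioi (0 : ℝ), t * f t) = -1.34343 := by
      have : 2 * (-1.34343 / M) * (∫ t in Ioi (0 : ℝ), t * f t) =
        -1.34343 / M * (2 * ∫ t in Ioi (0 : ℝ), t * f t) := by ring
      rw [this, hM]
      field_simp
    have e2 : 3 * (0.116925 / M ^ 2) * (∫ t in Ioi (0 : ℝ), t ^ 2 * f t) = 0.116925 * r := by
      have : 3 * (0.116925 / M ^ 2) * (∫ t in Ioi (0 : ℝ), t ^ 2 * f t) =
        0.116925 / M ^ 2 * (3 * ∫ t in Ioi (0 : ℝ), t ^ 2 * f t) := by ring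
      rw [this, hr]
      field_simp
    have e3 : ∫ w in Ioo (0 : ℝ) 1, (0.1166 * M - max (0.0461 * M - 5.9 * (1 - w)) 0 -
        max (0.0705 * M - 2.35 * (1 - w)) 0) =
        0.1166 * M - (0.0461 * M) ^ 2 / (2 * 5.9) - (0.0705 * M) ^ 2 / (2 * 2.35) := by
      rw [integral_sub, integral_sub,
        OneC2_max _ _ (by positivity) (by norm_num) (by nlinarith),
        OneC2_max _ _ (by positivity) (by norm_num) (by nlinarith)]
      · simp
      · exact OneC2_const _
      · exact hi _ _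
      · exact (OneC2_const _).sub (hi _ _)
      · exact hi _ _
    rw [e1, e2, e3] at h
    have hsq : 0 ≤ M ^ 2 := sq_nonneg M
    have e : (0.0461 * M) ^ 2 / (2 * 5.9) + (0.0705 * M) ^ 2 / (2 * 2.35) ≤
        0.00124 * M ^ 2 := by
      have e4 : (0.0461 * M) ^ 2 / (2 * 5.9) + (0.0705 * M) ^ 2 / (2 * 2.35) =
          (0.0461 ^ 2 / (2 * 5.9) + 0.0705 ^ 2 / (2 * 2.35)) * M ^ 2 := by ring
      rw [e4]
      exact mul_le_mul_of_nonneg_right (by norm_num) hsq
    have h2 := h.trans' (show 0.1166 * M - 0.00124 * M ^ 2 ≤ _ by linarith)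
    linarith
  · have hy0 : 0 < y := by linarith [hw.2]
    have h1 := c2_q (y / M) (by positivity)
    rw [Real.log_div hy0.ne' hM0.ne'] at h1
    have h2 := mul_le_mul_of_nonneg_left h1 hM0.le
    have h3 : M * max (0.0461 - 5.9 * (y / M)) 0 = max (0.0461 * M - 5.9 * y) 0 := by
      rw [mul_max_of_nonneg _ _ hM0.le, mul_zero]
      congr 1
      field_simp
    have h4 : M * max (0.0705 - 2.35 * (y / M)) 0 = max (0.0705 * M - 2.35 * y) 0 := by
      rw [mul_max_of_nonneg _ _ hM0.le, mul_zero]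
      congr 1
      field_simp
    have h5 : max (0.0461 * M - 5.9 * y) 0 ≤ max (0.0461 * M - 5.9 * (1 - w)) 0 :=
      max_le_max (by linarith) le_rfl
    have h6 : max (0.0705 * M - 2.35 * y) 0 ≤ max (0.0705 * M - 2.35 * (1 - w)) 0 :=
      max_le_max (by linarith) le_rfl
    have e : M * (-0.1166 + 0.844115 * (y / M) - 1.34343 * (y / M) ^ 2 +
        0.116925 * (y / M) ^ 3 + 1 / 2 * (y / M * (1 + (Real.log y - Real.log M)) ^ 2)) =
        -0.1166 * M + ((0.844115 + 1 / 2 * (1 - Real.log M) ^ 2) * y + -1.34343 / M * y ^ 2 +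
          0.116925 / M ^ 2 * y ^ 3 + (1 - Real.log M) * (y * Real.log y) +
          1 / 2 * (y * Real.log y ^ 2)) := by
      field_simp
      ring
    rw [e, mul_neg, mul_add, h3, h4] at h2
    linarith

/-- the functional is at most `BB M r` and at most `BB2 M r` -/
private theorem OneC2_T (hf : Dens f) {M r : ℝ} (hM1 : 1 ≤ M) (hM2 : M ≤ 2)
    (hM : 2 * ∫ t in Ioi (0 : ℝ), t * f t = M)
    (hr : 3 * (∫ t in Ioi (0 : ℝ), t ^ 2 * f t) = r * M ^ 2) :
    Real.log M - 1 / 2 - (∫ t in Ioi (0 : ℝ), Real.log t * f t) -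
      ((∫ t in Ioi (0 : ℝ), Real.log t ^ 2 * f t) -
        (∫ t in Ioi (0 : ℝ), Real.log t * f t) ^ 2) / 2 ≤ BB M r ∧
    Real.log M - 1 / 2 - (∫ t in Ioi (0 : ℝ), Real.log t * f t) -
      ((∫ t in Ioi (0 : ℝ), Real.log t ^ 2 * f t) -
        (∫ t in Ioi (0 : ℝ), Real.log t * f t) ^ 2) / 2 ≤ BB2 M r := by
  have hM0 : 0 < M := by linarith
  have h0 := OneC2_D0 hf hM0 hM
  have h1 := OneC2_D hf hM0 hM hr
  have h1' := OneC2_D2 hf hM0 hM hr
  have h2 := OneC2_H hf hM1 hM2 hM hr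
  have h3 := pow_le_pow_left₀ h0 h1 2
  have h3' := pow_le_pow_left₀ h0 h1' 2
  unfold BB BB2
  constructor <;> linarith

/-- the inequality (C') for `n ≥ 2` -/
theorem oneC2_of_two_le (n : ℕ) (hn : 2 ≤ n) {f : ℝ → ℝ} (hf : Dens f)
    (hb : ∫ t in Ioi (0 : ℝ), t ^ 2 * f t ≤
      2 * ((n : ℝ) + 1) / ((n : ℝ) + 2) * (∫ t in Ioi (0 : ℝ), t * f t) ^ 2) :
    1 / 2 * Real.log (∫ t in Ioi (0 : ℝ), t ^ 2 * f t) - 1 -
        (∫ t in Ioi (0 : ℝ), Real.log t * f t) -
        ((∫ t in Ioi (0 : ℝ), Real.log t ^ 2 * f t) -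
          (∫ t in Ioi (0 : ℝ), Real.log t * f t) ^ 2 - 1) / 2 < tn n := by
  have i0 : IntegrableOn f (Ioi 0) := hf.integrableOn_Ioi
  have i1 : IntegrableOn (fun t => t * f t) (Ioi 0) := hf.integrableOn_mul
    fun H _ => (continuous_id.intervalIntegrable (μ := volume) 0 H).1
  have i2 : IntegrableOn (fun t => t ^ 2 * f t) (Ioi 0) := hf.integrableOn_mul
    fun H _ => ((continuous_pow 2).intervalIntegrable (μ := volume) 0 H).1
  obtain ⟨m, hm⟩ : ∃ m : ℝ, m = ∫ t in Ioi (0 : ℝ), t * f t := ⟨_, rfl⟩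
  obtain ⟨s, hs⟩ : ∃ s : ℝ, s = ∫ t in Ioi (0 : ℝ), t ^ 2 * f t := ⟨_, rfl⟩
  have hm1 := hf.half_le_mean
  have hm2 := hf.mean_le_one
  rw [← hm] at hm1 hm2
  -- `s ≥ m^2`
  have hsm : m ^ 2 ≤ s := by
    have h1 : 0 ≤ ∫ t in Ioi (0 : ℝ), (t ^ 2 * f t - 2 * m * (t * f t) + m ^ 2 * f t) := by
      refine setIntegral_nonneg measurableSet_Ioi fun t ht => ?_
      have h2 := hf.nonneg t (le_of_lt ht)
      have h3 : t ^ 2 * f t - 2 * m * (t * f t) + m ^ 2 * f t = (t - m) ^ 2 * f t := by ring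
      rw [h3]
      exact mul_nonneg (sq_nonneg _) h2
    rw [integral_add, integral_sub, integral_const_mul, integral_const_mul, hf.mass,
      ← hm, ← hs] at h1
    · nlinarith
    · exact i2
    · exact i1.const_mul _
    · exact i2.sub (i1.const_mul _)
    · exact i0.const_mul _
  have hs0 : 0 < s := by nlinarith
  obtain ⟨θ, hθ⟩ : ∃ θ : ℝ, θ = Real.sqrt (2 * m - 1) := ⟨_, rfl⟩
  have hθ0 : 0 ≤ θ := by rw [hθ]; exact Real.sqrt_nonneg _
  have hθ2 : θ ^ 2 = 2 * m - 1 := by rw [hθ]; exact Real.sq_sqrt (by linarith)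
  have hθ1 : θ ≤ 1 := by nlinarith
  have hM : 2 * (∫ t in Ioi (0 : ℝ), t * f t) = 1 + θ ^ 2 := by rw [← hm, hθ2]; ring
  have hM1 : 1 ≤ 1 + θ ^ 2 := by nlinarith
  have hM2 : 1 + θ ^ 2 ≤ 2 := by nlinarith
  have hM0 : 0 < 1 + θ ^ 2 := by linarith
  obtain ⟨r, hr⟩ : ∃ r : ℝ, r = 3 * s / (1 + θ ^ 2) ^ 2 := ⟨_, rfl⟩
  have hr0 : 0 < r := by rw [hr]; positivity
  have hrM : 3 * (∫ t in Ioi (0 : ℝ), t ^ 2 * f t) = r * (1 + θ ^ 2) ^ 2 := by
    rw [← hs, hr]
    field_simp
  have hsec : r * (1 + θ ^ 2) ^ 2 ≤ 1 + 3 * θ ^ 2 + 2 * θ ^ 3 := by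
    rw [← hrM]
    exact hf.second hθ0 hθ1 hM
  obtain ⟨hT, hT2⟩ := OneC2_T hf hM1 hM2 hM hrM
  -- the ratio
  have hn0 : (0 : ℝ) < (n : ℝ) + 2 := by positivity
  have hrn : r ≤ 3 / 2 * (((n : ℝ) + 1) / ((n : ℝ) + 2)) := by
    have h1 : 3 * s ≤ 3 * (2 * ((n : ℝ) + 1) / ((n : ℝ) + 2) * m ^ 2) := by
      rw [← hs, ← hm] at hb
      linarith
    have h2 : (1 + θ ^ 2) ^ 2 = 4 * m ^ 2 := by rw [hθ2]; ring
    have hm0 : 0 < m := by linarith
    rw [hr, h2, div_le_iff₀ (by positivity)]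
    refine h1.trans_eq ?_
    ring
  have hlog : 1 / 2 * Real.log s - Real.log (1 + θ ^ 2) ≤
      1 / 2 * Real.log (((n : ℝ) + 1) / (2 * ((n : ℝ) + 2))) := by
    have h1 : Real.log (r / 3) = Real.log s - 2 * Real.log (1 + θ ^ 2) := by
      have h2 : r / 3 = s / (1 + θ ^ 2) ^ 2 := by rw [hr]; ring
      rw [h2, Real.log_div hs0.ne' (by positivity), Real.log_pow]
      push_cast
      ring
    have h3 : Real.log (r / 3) ≤ Real.log (((n : ℝ) + 1) / (2 * ((n : ℝ) + 2))) := by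
      refine Real.log_le_log (by positivity) ?_
      have h4 : ((n : ℝ) + 1) / (2 * ((n : ℝ) + 2)) =
          1 / 3 * (3 / 2 * (((n : ℝ) + 1) / ((n : ℝ) + 2))) := by
        field_simp
      rw [h4]
      linarith
    linarith
  rw [← hs]
  rcases hn.eq_or_lt with hn2 | hn3
  · have h1 := bb2_two hθ0 hθ1 hr0.le hsec (by rw [← hn2] at hrn; norm_num at hrn; linarith)
    have h2 := tn_two
    rw [← hn2] at hlog ⊢
    norm_num at h1 h2 hlog ⊢
    linarith
  suffices hfin : 1 / 2 * Real.log (((n : ℝ) + 1) / (2 * ((n : ℝ) + 2))) +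
      BB (1 + θ ^ 2) r < tn n by linarith
  have hn3' : 3 ≤ n := hn3
  rcases Nat.lt_or_ge n 6 with h6 | h6
  · interval_cases n
    · have h1 := bb_three hθ0 hθ1 hr0.le hsec (by norm_num at hrn; linarith)
      have h2 := tn_three
      norm_num at h1 h2 ⊢
      linarith
    · have h1 := bb_four hθ0 hθ1 hr0.le hsec (by norm_num at hrn; linarith)
      have h2 := tn_four
      norm_num at h1 h2 ⊢
      linarith
    · have h1 := bb_five hθ0 hθ1 hr0.le hsec (by norm_num at hrn; linarith)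
      have h2 := tn_five
      norm_num at h1 h2 ⊢
      linarith
  · have h1 := bb_six hθ0 hθ1 hr0.le hsec
    have h2 := tn_six_le n h6
    linarith

theorem oneC2 (n : ℕ) (hn : 3 ≤ n) {f : ℝ → ℝ} (hf : Dens f)
    (hb : ∫ t in Ioi (0 : ℝ), t ^ 2 * f t ≤
      2 * ((n : ℝ) + 1) / ((n : ℝ) + 2) * (∫ t in Ioi (0 : ℝ), t * f t) ^ 2) :
    1 / 2 * Real.log (∫ t in Ioi (0 : ℝ), t ^ 2 * f t) - 1 -
        (∫ t in Ioi (0 : ℝ), Real.log t * f t) -
        ((∫ t in Ioi (0 : ℝ), Real.log t ^ 2 * f t) -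
          (∫ t in Ioi (0 : ℝ), Real.log t * f t) ^ 2 - 1) / 2 < tn n :=
  oneC2_of_two_le n (by omega) hf hb

end Vale.Agent.P254U
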