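import Vale.Agent.Lib.P254U.Scale
import Vale.Agent.Lib.P254U.Ber
import Vale.Agent.Lib.P254U.OneC2

/-!
P254U/ScaleC: the one variable inequality (C'), joint with Berwald, applied to the first marginal
of a corner.
-/

open MeasureTheory Set

namespace Vale.Agent.P254U

variable {n : ℕ}

theorem scale_sq {K : Set (Fin (n + 1) → ℝ)} (h : Corner (n + 1) K) :
    IntegrableOn (fun x : Fin (n + 1) → ℝ => x 0 ^ 2) K :=
  ((continuous_apply (0 : Fin (n + 1))).pow 2).continuousOn.integrableOn_compact h.compact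

theorem scale_mean_pos {K : Set (Fin (n + 1) → ℝ)} (h : Corner (n + 1) K) (g : ℝ → ℝ)
    (hg : IntegrableOn (fun x : Fin (n + 1) → ℝ => g (x 0)) K) (hp : ∀ u, 0 < u → 0 < g u) :
    0 < mean K (fun x => g (x 0)) := by
  rw [scale_mean h g hg]
  refine intervalIntegral.intervalIntegral_pos_of_pos_on (scale_int h g hg) ?_ (top_pos h)
  intro u hu
  exact mul_pos (hp u hu.1) (ff_pos h ⟨hu.1.le, hu.2⟩)

theorem oneC_corner (hn : 1 ≤ n) {K : Set (Fin (n + 1) → ℝ)} (h : Corner (n + 1) K) :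
    1 / 2 * Real.log (mean K (fun x => x 0 ^ 2)) - 1 - lm K 0 - VV K 0 / 2 < tn (n + 1) := by
  have ha : 0 < ff K 0 := ff_pos h ⟨le_rfl, top_pos h⟩
  obtain ⟨e1, e2, e3, -, -, -⟩ := scale_ints h
  have e0 : (∫ t in Ioi (0 : ℝ), t ^ 2 * (ff K (t / ff K 0) / ff K 0))
      = ff K 0 ^ 2 * mean K (fun x => x 0 ^ 2) := by
    rw [scale_sub h (fun t => t ^ 2) ha, scale_mean h (fun t => t ^ 2) (scale_sq h),
      ← intervalIntegral.integral_const_mul]
    refine intervalIntegral.integral_congr ?_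
    intro u _
    simp only
    ring
  have e4 : (∫ t in Ioi (0 : ℝ), t * (ff K (t / ff K 0) / ff K 0))
      = ff K 0 * mean K (fun x => x 0) := by
    rw [scale_sub h (fun t => t) ha, e3, mean_zero_eq h]
  have hM : 0 < mean K (fun x => x 0 ^ 2) :=
    scale_mean_pos h (fun t => t ^ 2) (scale_sq h) (fun u hu => pow_pos hu 2)
  have hb := berwald h 0
  have h1 := oneC2_of_two_le (n + 1) (by omega) (scale_dens h) (by
    rw [e0, e4]
    have h2 := mul_le_mul_of_nonneg_left hb (sq_nonneg (ff K 0))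
    refine h2.trans (le_of_eq ?_)
    push_cast
    ring)
  rw [e0, scale_sub h (fun t => Real.log t ^ 2) ha, scale_sub h (fun t => Real.log t) ha,
    e1, e2] at h1
  have e5 : Real.log (ff K 0 ^ 2 * mean K (fun x => x 0 ^ 2))
      = 2 * Real.log (ff K 0) + Real.log (mean K (fun x => x 0 ^ 2)) := by
    rw [Real.log_mul (pow_pos ha 2).ne' hM.ne', Real.log_pow]
    push_cast
    ring
  rw [e5] at h1
  unfold VV
  nlinarith [h1]

end Vale.Agent.P254U
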