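import Vale.Agent.Lib.P254U.Step
import Vale.Agent.Lib.P254U.ScaleC

/-!
P254U/Marg: assembling the approximate inequality (E).

`marg`: `oneC_corner` for `permSet (Equiv.swap 0 i) K` and `mean_perm`.
`corner_main`: `potential`, the sum of `marg` over `i` and the definition of `tn`, exponentiated.
-/

open MeasureTheory Set

namespace Vale.Agent.P254U

variable {n : ℕ}

theorem marg_mean_pos {K : Set (Fin n → ℝ)} (h : Corner n K) (φ : (Fin n → ℝ) → ℝ)
    (hφ : Continuous φ) (h0 : ∀ x ∈ K, 0 ≤ φ x) (h1 : ∀ x : Fin n → ℝ, (∀ i, 0 < x i) → 0 < φ x) :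
    0 < mean K φ := by
  unfold mean
  refine div_pos ?_ h.vol_pos
  rw [setIntegral_pos_iff_support_of_nonneg_ae]
  · obtain ⟨ε, hε, hK⟩ := h.pos
    have hsub : Set.pi univ (fun _ : Fin n => Ioo (0 : ℝ) ε) ⊆ Function.support φ ∩ K := by
      intro x hx
      have hx' : ∀ i, x i ∈ Ioo (0 : ℝ) ε := fun i => hx i (mem_univ i)
      refine ⟨?_, ?_⟩
      · rw [Function.mem_support]
        exact (h1 x fun i => (hx' i).1).ne'
      · exact h.down _ hK x (fun i => (hx' i).1.le) (fun i => (hx' i).2.le)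
    refine lt_of_lt_of_le ?_ (measure_mono hsub)
    rw [Real.volume_pi_Ioo]
    refine CanonicallyOrderedAdd.prod_pos.mpr ?_
    intro i _
    simp [hε]
  · filter_upwards [ae_restrict_mem h.measurableSet] with x hx
    exact h0 x hx
  · exact hφ.continuousOn.integrableOn_compact h.compact

theorem mean_coord_pos {K : Set (Fin (n + 1) → ℝ)} (h : Corner (n + 1) K) (i : Fin (n + 1)) :
    0 < mean K (fun x => x i) :=
  marg_mean_pos h _ (continuous_apply i) (fun x hx => h.nonneg x hx i) (fun x hx => hx i)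

theorem mean_coord_sq_pos {K : Set (Fin (n + 1) → ℝ)} (h : Corner (n + 1) K) (i : Fin (n + 1)) :
    0 < mean K (fun x => x i ^ 2) :=
  marg_mean_pos h _ ((continuous_apply i).pow 2) (fun x _ => sq_nonneg _)
    (fun x hx => pow_pos (hx i) 2)

theorem marg (hn : 1 ≤ n) {K : Set (Fin (n + 1) → ℝ)} (h : Corner (n + 1) K) (i : Fin (n + 1)) :
    1 / 2 * Real.log (mean K (fun x => x i ^ 2)) - 1 - lm K i - VV K i / 2 < tn (n + 1) := by
  have h1 := oneC_corner hn (h.perm (Equiv.swap 0 i))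
  have hs : (Equiv.swap (0 : Fin (n + 1)) i).symm 0 = i := by
    rw [Equiv.symm_swap, Equiv.swap_apply_left]
  have e1 : mean (permSet (Equiv.swap 0 i) K) (fun x => x 0 ^ 2) = mean K (fun x => x i ^ 2) := by
    rw [mean_perm h]
    simp only [hs]
  have e2 : lm (permSet (Equiv.swap 0 i) K) 0 = lm K i := by
    unfold lm
    rw [mean_perm h]
    simp only [hs]
  have e3 : lm2 (permSet (Equiv.swap 0 i) K) 0 = lm2 K i := by
    unfold lm2
    rw [mean_perm h]
    simp only [hs]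
  have e4 : VV (permSet (Equiv.swap 0 i) K) 0 = VV K i := by
    unfold VV
    rw [e2, e3]
  rw [e1, e2, e4] at h1
  exact h1

/-- the inequality (E) in logarithmic form -/
theorem eapp (hn : 1 ≤ n) {K : Set (Fin (n + 1) → ℝ)} (h : Corner (n + 1) K) :
    (∑ i, 1 / 2 * Real.log (mean K (fun x => x i ^ 2))) - (n + 1) * tn (n + 1) - n * X0 <
      Real.log (vol K) := by
  have h1 := potential n h
  unfold DTC at h1
  have h2 : ∑ i, 1 / 2 * Real.log (mean K (fun x => x i ^ 2)) <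
      ∑ i : Fin (n + 1), ((1 + lm K i) + VV K i / 2 + tn (n + 1)) := by
    refine Finset.sum_lt_sum_of_nonempty ⟨0, Finset.mem_univ _⟩ fun i _ => ?_
    have := marg hn h i
    linarith
  rw [Finset.sum_add_distrib, Finset.sum_add_distrib, Finset.sum_const, Finset.card_univ,
    Fintype.card_fin, nsmul_eq_mul, ← Finset.sum_div] at h2
  push_cast at h2
  linarith

theorem corner_main {K : Set (Fin (n + 1) → ℝ)} (hn : 1 ≤ n) (h : Corner (n + 1) K) :
    ((n : ℝ) + 2) ^ (n + 2) * ((n : ℝ) + 3) ^ (n + 1) /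
        (4 ^ (n + 1) * ((n + 1).factorial : ℝ) ^ 2) * ∏ i, mean K (fun x => x i ^ 2) <
      vol K ^ 2 := by
  have hv := h.vol_pos
  have hf : (0 : ℝ) < ((n + 1).factorial : ℝ) := by exact_mod_cast Nat.factorial_pos _
  set P : ℝ := ∏ i, mean K (fun x => x i ^ 2) with hP
  have hP0 : 0 < P := Finset.prod_pos fun i _ => mean_coord_sq_pos h i
  have hlP : ∑ i, 1 / 2 * Real.log (mean K (fun x => x i ^ 2)) = 1 / 2 * Real.log P := by
    rw [← Finset.mul_sum, hP, Real.log_prod (fun i _ => (mean_coord_sq_pos h i).ne')]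
  have h1 := eapp hn h
  rw [hlP] at h1
  have hn1 : (0 : ℝ) < (n : ℝ) + 1 := by positivity
  set Q : ℝ := 4 ^ (n + 1) * ((n + 1).factorial : ℝ) ^ 2 /
    (((n : ℝ) + 1 + 1) ^ (n + 1 + 1) * ((n : ℝ) + 1 + 2) ^ (n + 1)) with hQ
  have hQ0 : 0 < Q := by positivity
  have htn : ((n : ℝ) + 1) * tn (n + 1) + n * X0 = 1 / 2 * Real.log Q := by
    unfold tn
    push_cast
    rw [← hQ]
    field_simp
    ring
  have h2 : Real.log P < Real.log (vol K ^ 2 * Q) := by
    rw [Real.log_mul (pow_pos hv 2).ne' hQ0.ne', Real.log_pow]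
    push_cast
    linarith
  have h3 : P < vol K ^ 2 * Q := (Real.log_lt_log_iff hP0 (by positivity)).mp h2
  have e : ((n : ℝ) + 2) ^ (n + 2) * ((n : ℝ) + 3) ^ (n + 1) /
        (4 ^ (n + 1) * ((n + 1).factorial : ℝ) ^ 2) * Q = 1 := by
    rw [hQ]
    have e1 : (n : ℝ) + 1 + 1 = n + 2 := by ring
    have e2 : (n : ℝ) + 1 + 2 = n + 3 := by ring
    rw [e1, e2]
    have h5 : (0 : ℝ) < (n : ℝ) + 2 := by positivity
    have h6 : (0 : ℝ) < (n : ℝ) + 3 := by positivity
    field_simp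
  have hc : 0 < ((n : ℝ) + 2) ^ (n + 2) * ((n : ℝ) + 3) ^ (n + 1) /
        (4 ^ (n + 1) * ((n + 1).factorial : ℝ) ^ 2) := by positivity
  calc ((n : ℝ) + 2) ^ (n + 2) * ((n : ℝ) + 3) ^ (n + 1) /
        (4 ^ (n + 1) * ((n + 1).factorial : ℝ) ^ 2) * P
      < ((n : ℝ) + 2) ^ (n + 2) * ((n : ℝ) + 3) ^ (n + 1) /
        (4 ^ (n + 1) * ((n + 1).factorial : ℝ) ^ 2) * (vol K ^ 2 * Q) :=
          mul_lt_mul_of_pos_left h3 hc
    _ = vol K ^ 2 * (((n : ℝ) + 2) ^ (n + 2) * ((n : ℝ) + 3) ^ (n + 1) /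
        (4 ^ (n + 1) * ((n + 1).factorial : ℝ) ^ 2) * Q) := by ring
    _ = vol K ^ 2 := by rw [e, mul_one]

end Vale.Agent.P254U
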