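import Vale.Agent.Lib.P254U.OneA1

/-!
P254U/OneA3: the tail beyond `1` (bathtub principle).
`kap` is nonnegative and nondecreasing on `[1,∞)` (`kap 1 = 0`,
`kap' t = (2 t - 19/10 - log t)/t ≥ 0`), `0 ≤ f ≤ p := exp (-2 μ)` on `(1,∞)` (`Dens.le_exp_two`) and
`∫_1^∞ f = μ` (`Dens.mass_eq`), so with `b = 1 + μ/p`:
`∫_1^∞ kap f - p ∫_1^b kap = ∫_1^b (kap - kap b)(f - p) + ∫_b^∞ (kap - kap b) f ≥ 0`.
-/

open MeasureTheory Set

namespace Vale.Agent.P254U

theorem OneA3_continuousOn : ContinuousOn kap (Ici 1) := by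
  unfold kap
  have h1 : ContinuousOn (fun t : ℝ => Real.log t) (Ici 1) := by
    refine Real.continuousOn_log.mono fun t ht => ?_
    have : (1 : ℝ) ≤ t := ht
    simp only [mem_compl_iff, mem_singleton_iff]
    linarith
  exact ((((continuousOn_const.mul continuousOn_id).sub (continuousOn_const.mul h1)).sub
    ((h1.pow 2).div_const 2)).sub continuousOn_const)

theorem OneA3_hasDerivAt {t : ℝ} (ht : 0 < t) :
    HasDerivAt kap (2 - 19 / 10 * t⁻¹ - (2 * Real.log t * t⁻¹) / 2) t := by
  unfold kap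
  have h1 := Real.hasDerivAt_log ht.ne'
  have h2 := ((((hasDerivAt_id t).const_mul 2).sub (h1.const_mul (19 / 10))).sub
    ((h1.pow 2).div_const 2)).sub_const (2 : ℝ)
  convert! h2 using 1
  ring

theorem kap_mono : MonotoneOn kap (Ici 1) := by
  refine monotoneOn_of_deriv_nonneg (convex_Ici 1) OneA3_continuousOn ?_ ?_
  · intro t ht
    rw [interior_Ici] at ht
    have h1 : (1 : ℝ) < t := ht
    exact (OneA3_hasDerivAt (by linarith)).differentiableAt.differentiableWithinAt
  · intro t ht
    rw [interior_Ici] at ht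
    have h1 : (1 : ℝ) < t := ht
    have h0 : 0 < t := by linarith
    rw [(OneA3_hasDerivAt h0).deriv]
    have h2 : Real.log t ≤ t - 1 := Real.log_le_sub_one_of_pos h0
    have h3 : 2 - 19 / 10 * t⁻¹ - (2 * Real.log t * t⁻¹) / 2 =
        (2 * t - 19 / 10 - Real.log t) * t⁻¹ := by
      field_simp
    rw [h3]
    exact mul_nonneg (by linarith) (by positivity)

theorem OneA3_kap_one : kap 1 = 0 := by
  unfold kap
  rw [Real.log_one]
  norm_num

theorem OneA3_kap_nonneg {t : ℝ} (ht : 1 ≤ t) : 0 ≤ kap t := by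
  have := kap_mono (mem_Ici.2 le_rfl) (mem_Ici.2 ht) ht
  rwa [OneA3_kap_one] at this

theorem OneA3_measurable : Measurable kap := by
  unfold kap
  fun_prop

theorem OneA3_integrable {f : ℝ → ℝ} (hf : Dens f) :
    IntegrableOn (fun t => kap t * f t) (Ioi 1) := by
  obtain ⟨H, hH, hsupp⟩ := hf.supp
  have h1 : IntegrableOn f (Ioi 1) :=
    hf.integrableOn_Ioi.mono_set (Ioi_subset_Ioi zero_le_one)
  have h2 : IntegrableOn (fun t => kap (max H 1) * f t) (Ioi 1) := h1.const_mul _
  refine Integrable.mono' h2 (OneA3_measurable.aestronglyMeasurable.mul h1.aestronglyMeasurable) ?_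
  rw [ae_restrict_iff' measurableSet_Ioi]
  refine Filter.Eventually.of_forall fun t ht => ?_
  have ht1 : (1 : ℝ) < t := ht
  have hf0 : 0 ≤ f t := hf.nonneg t (by linarith)
  rw [Real.norm_of_nonneg (mul_nonneg (OneA3_kap_nonneg ht1.le) hf0)]
  rcases le_or_gt t (max H 1) with h3 | h3
  · exact mul_le_mul_of_nonneg_right
      (kap_mono (mem_Ici.2 ht1.le) (mem_Ici.2 (le_max_right _ _)) h3) hf0
  · rw [hsupp t (lt_of_le_of_lt (le_max_left _ _) h3), mul_zero, mul_zero]

theorem tail_lower {f : ℝ → ℝ} (hf : Dens f) {μ : ℝ} (hμ : μ = ∫ t in (0 : ℝ)..1, (1 - f t)) :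
    Real.exp (-2 * μ) * ∫ x in (0 : ℝ)..(μ * Real.exp (2 * μ)), kap (1 + x) ≤
      ∫ t in Ioi (1 : ℝ), kap t * f t := by
  set p : ℝ := Real.exp (-2 * μ) with hp
  have hp0 : 0 < p := Real.exp_pos _
  have hpe : p * Real.exp (2 * μ) = 1 := by
    rw [hp, ← Real.exp_add]
    have : -2 * μ + 2 * μ = 0 := by ring
    rw [this, Real.exp_zero]
  have hμ0 : 0 ≤ μ := by
    rw [hμ]
    refine intervalIntegral.integral_nonneg zero_le_one fun t ht => ?_
    linarith [hf.le_one ht.1]
  set b : ℝ := 1 + μ * Real.exp (2 * μ) with hb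
  have hb1 : 1 ≤ b := by
    have : 0 ≤ μ * Real.exp (2 * μ) := mul_nonneg hμ0 (Real.exp_pos _).le
    linarith
  have hpb : p * (b - 1) = μ := by
    have : b - 1 = μ * Real.exp (2 * μ) := by rw [hb]; ring
    rw [this]
    calc p * (μ * Real.exp (2 * μ)) = μ * (p * Real.exp (2 * μ)) := by ring
      _ = μ := by rw [hpe, mul_one]
  have hfi : IntegrableOn f (Ioi 1) :=
    hf.integrableOn_Ioi.mono_set (Ioi_subset_Ioi zero_le_one)
  have hmass : ∫ t in Ioi (1 : ℝ), f t = μ := by rw [hμ, hf.mass_eq]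
  have hshift : ∫ x in (0 : ℝ)..(μ * Real.exp (2 * μ)), kap (1 + x) = ∫ t in (1 : ℝ)..b, kap t := by
    rw [intervalIntegral.integral_comp_add_left, add_zero]
  have hkint : IntervalIntegrable kap volume 1 b := by
    refine (OneA3_continuousOn.mono ?_).intervalIntegrable
    rw [uIcc_of_le hb1]
    exact fun t ht => ht.1
  -- the comparison function
  set q : ℝ → ℝ := (Ioc 1 b).indicator (fun t => p * (kap t - kap b)) with hq
  have hqint' : IntegrableOn (fun t => p * (kap t - kap b)) (Ioc 1 b) := by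
    have h1 : IntervalIntegrable (fun t => p * (kap t - kap b)) volume 1 b :=
      (hkint.sub intervalIntegrable_const).const_mul p
    rwa [intervalIntegrable_iff_integrableOn_Ioc_of_le hb1] at h1
  have hqint : IntegrableOn q (Ioi 1) := by
    rw [hq]
    exact ((integrable_indicator_iff measurableSet_Ioc).2 hqint').integrableOn
  have hqval : ∫ t in Ioi (1 : ℝ), q t = p * (∫ t in (1 : ℝ)..b, kap t) - kap b * μ := by
    rw [hq, setIntegral_indicator measurableSet_Ioc]
    have h1 : Ioi (1 : ℝ) ∩ Ioc 1 b = Ioc 1 b :=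
      inter_eq_right.2 fun t ht => ht.1
    rw [h1, ← intervalIntegral.integral_of_le hb1, intervalIntegral.integral_const_mul,
      intervalIntegral.integral_sub hkint intervalIntegrable_const,
      intervalIntegral.integral_const, smul_eq_mul, mul_sub, ← mul_assoc, hpb]
    ring
  have hle : ∫ t in Ioi (1 : ℝ), (kap b * f t + q t) ≤ ∫ t in Ioi (1 : ℝ), kap t * f t := by
    refine setIntegral_mono_on ((hfi.const_mul _).add hqint) (OneA3_integrable hf)
      measurableSet_Ioi fun t ht => ?_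
    have ht1 : (1 : ℝ) < t := ht
    have hf0 : 0 ≤ f t := hf.nonneg t (by linarith)
    rcases le_or_gt t b with h3 | h3
    · have h4 : q t = p * (kap t - kap b) := by
        rw [hq]
        exact indicator_of_mem (show t ∈ Ioc 1 b from ⟨ht1, h3⟩) _
      have h5 : kap t ≤ kap b := kap_mono (mem_Ici.2 ht1.le) (mem_Ici.2 hb1) h3
      have h6 : f t ≤ p := by
        have := hf.le_exp_two ht1
        rw [← hμ] at this
        exact this
      rw [h4]
      nlinarith
    · have h4 : q t = 0 := by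
        rw [hq]
        exact indicator_of_notMem (fun h => absurd h.2 (not_le.2 h3)) _
      have h5 : kap b ≤ kap t := kap_mono (mem_Ici.2 hb1) (mem_Ici.2 ht1.le) h3.le
      rw [h4, add_zero]
      exact mul_le_mul_of_nonneg_right h5 hf0
  rw [integral_add (hfi.const_mul _) hqint, integral_const_mul, hmass, hqval] at hle
  rw [hshift]
  linarith

end Vale.Agent.P254U
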