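import Vale.Agent.Lib.P254U.OneA1

/-!
P254U/OneA4: linearisation.
`(1/2) ℓ^2 ≥ -(9/10) ℓ - 81/200` for `ℓ = ∫ log t f`; `∫ f = 1`; so the left side below is at least
`∫ (2t - (19/10) log t - (log t)^2/2) f - 81/200 = ∫ kap f + 2 - 81/200`, and
`∫_{(0,∞)} kap f = ∫_0^1 kap - ∫_0^1 kap (1-f) + ∫_1^∞ kap f`, `∫_0^1 kap = -1/10`.
Integrability on `(0,∞)`: `0 ≤ f ≤ 1`, `f` vanishes beyond `H`, `log` and `log^2` are integrable on
`(0,H)`.
-/

open MeasureTheory Set

namespace Vale.Agent.P254U

private noncomputable def OneA4_G (t : ℝ) : ℝ :=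
  4 * (Real.sqrt t * Real.log (Real.sqrt t)) ^ 2 - 2 * (t * Real.log t) + 2 * t

private theorem OneA4_G_cont : Continuous OneA4_G := by
  have h1 : Continuous (fun t : ℝ => Real.sqrt t * Real.log (Real.sqrt t)) :=
    Real.continuous_mul_log.comp Real.continuous_sqrt
  have h2 : Continuous (fun t : ℝ => t * Real.log t) := Real.continuous_mul_log
  exact (((h1.pow 2).const_mul 4).sub (h2.const_mul 2)).add (continuous_id.const_mul 2)

private theorem OneA4_G_deriv {t : ℝ} (ht : 0 < t) :
    HasDerivAt OneA4_G (Real.log t ^ 2) t := by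
  have h : OneA4_G =ᶠ[nhds t] fun t => t * Real.log t ^ 2 - 2 * (t * Real.log t) + 2 * t := by
    filter_upwards [lt_mem_nhds ht] with s hs
    unfold OneA4_G
    rw [Real.log_sqrt hs.le, mul_pow, Real.sq_sqrt hs.le]
    ring
  refine HasDerivAt.congr_of_eventuallyEq ?_ h
  have hl := Real.hasDerivAt_log ht.ne'
  have h1 := (hasDerivAt_id t).mul (hl.pow 2)
  have h2 := ((hasDerivAt_id t).mul hl).const_mul 2
  have h3 := (hasDerivAt_id t).const_mul 2
  refine ((h1.sub h2).add h3).congr_deriv ?_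
  simp only [id, Nat.cast_ofNat, Pi.pow_apply]
  field_simp
  ring

private theorem OneA4_sq_int (H : ℝ) : IntegrableOn (fun t => Real.log t ^ 2) (Ioc 0 H) :=
  intervalIntegral.integrableOn_deriv_of_nonneg OneA4_G_cont.continuousOn
    (fun _ hx => OneA4_G_deriv hx.1) (fun _ _ => sq_nonneg _)

private theorem OneA4_log_int (H : ℝ) : IntegrableOn (fun t => Real.log t) (Ioc 0 H) :=
  (intervalIntegral.intervalIntegrable_log' (a := 0) (b := H)).1

private theorem OneA4_id_int (H : ℝ) : IntegrableOn (fun t : ℝ => t) (Ioc 0 H) :=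
  (continuous_id.intervalIntegrable (μ := volume) 0 H).1

private theorem OneA4_sq_val : ∫ t in (0 : ℝ)..1, Real.log t ^ 2 = 2 := by
  have h : IntervalIntegrable (fun t => Real.log t ^ 2) volume 0 1 := by
    rw [intervalIntegrable_iff_integrableOn_Ioc_of_le zero_le_one]
    exact OneA4_sq_int 1
  rw [intervalIntegral.integral_eq_sub_of_hasDerivAt_of_le zero_le_one
    OneA4_G_cont.continuousOn (fun x hx => OneA4_G_deriv hx.1) h]
  unfold OneA4_G
  norm_num

/-- product of a locally integrable weight and a density -/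
private theorem OneA4_mul {f : ℝ → ℝ} (hf : Dens f) {w : ℝ → ℝ}
    (hw : ∀ H : ℝ, IntegrableOn w (Ioc 0 H)) : IntegrableOn (fun t => w t * f t) (Ioi 0) := by
  obtain ⟨H, hH, hs⟩ := hf.supp
  rw [← Ioc_union_Ioi_eq_Ioi hH.le]
  refine IntegrableOn.union ?_ ?_
  · have hm : AEStronglyMeasurable f (volume.restrict (Ioc 0 H)) :=
      (hf.integrableOn_Ioi.mono_set Ioc_subset_Ioi_self).aestronglyMeasurable
    refine (hw H).norm.mono' ((hw H).aestronglyMeasurable.mul hm) ?_
    rw [ae_restrict_iff' measurableSet_Ioc]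
    refine Filter.Eventually.of_forall fun t ht => ?_
    rw [norm_mul]
    have h1 : ‖f t‖ ≤ 1 := by
      rw [Real.norm_eq_abs, abs_of_nonneg (hf.nonneg t ht.1.le)]
      exact hf.le_one ht.1.le
    exact mul_le_of_le_one_right (norm_nonneg _) h1
  · have h0 : IntegrableOn (fun _ : ℝ => (0 : ℝ)) (Ioi H) := integrableOn_zero
    refine h0.congr_fun (fun t ht => ?_) measurableSet_Ioi
    change (0 : ℝ) = w t * f t
    rw [hs t ht, mul_zero]

theorem Dens.integrable_log {f : ℝ → ℝ} (hf : Dens f) :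
    IntegrableOn (fun t => Real.log t * f t) (Ioi 0) :=
  OneA4_mul hf OneA4_log_int

theorem Dens.integrable_log_sq {f : ℝ → ℝ} (hf : Dens f) :
    IntegrableOn (fun t => Real.log t ^ 2 * f t) (Ioi 0) :=
  OneA4_mul hf OneA4_sq_int

theorem Dens.integrable_id {f : ℝ → ℝ} (hf : Dens f) :
    IntegrableOn (fun t => t * f t) (Ioi 0) :=
  OneA4_mul hf OneA4_id_int

private theorem OneA4_kap_ii : IntervalIntegrable kap volume 0 1 := by
  have h1 : IntervalIntegrable (fun t : ℝ => 2 * t) volume 0 1 :=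
    (continuous_const.mul continuous_id).intervalIntegrable 0 1
  have h2 : IntervalIntegrable (fun t : ℝ => 19 / 10 * Real.log t) volume 0 1 :=
    intervalIntegral.intervalIntegrable_log'.const_mul _
  have h3 : IntervalIntegrable (fun t : ℝ => Real.log t ^ 2 / 2) volume 0 1 := by
    refine IntervalIntegrable.div_const ?_ 2
    rw [intervalIntegrable_iff_integrableOn_Ioc_of_le zero_le_one]
    exact OneA4_sq_int 1
  have h4 : IntervalIntegrable (fun _ : ℝ => (2 : ℝ)) volume 0 1 := intervalIntegrable_const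
  exact ((h1.sub h2).sub h3).sub h4

private theorem OneA4_kap_val : ∫ t in (0 : ℝ)..1, kap t = -1 / 10 := by
  have h1 : IntervalIntegrable (fun t : ℝ => 2 * t) volume 0 1 :=
    (continuous_const.mul continuous_id).intervalIntegrable 0 1
  have h2 : IntervalIntegrable (fun t : ℝ => 19 / 10 * Real.log t) volume 0 1 :=
    intervalIntegral.intervalIntegrable_log'.const_mul _
  have h3 : IntervalIntegrable (fun t : ℝ => Real.log t ^ 2 / 2) volume 0 1 := by
    refine IntervalIntegrable.div_const ?_ 2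
    rw [intervalIntegrable_iff_integrableOn_Ioc_of_le zero_le_one]
    exact OneA4_sq_int 1
  have h4 : IntervalIntegrable (fun _ : ℝ => (2 : ℝ)) volume 0 1 := intervalIntegrable_const
  unfold kap
  rw [intervalIntegral.integral_sub ((h1.sub h2).sub h3) h4,
    intervalIntegral.integral_sub (h1.sub h2) h3, intervalIntegral.integral_sub h1 h2,
    intervalIntegral.integral_const_mul, intervalIntegral.integral_const_mul,
    intervalIntegral.integral_div, OneA4_sq_val, integral_log, integral_id,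
    intervalIntegral.integral_const]
  norm_num

private theorem OneA4_kap_int {f : ℝ → ℝ} (hf : Dens f) :
    IntegrableOn (fun t => kap t * f t) (Ioi 0) := by
  have h1 := hf.integrable_id.const_mul 2
  have h2 := hf.integrable_log.const_mul (19 / 10)
  have h3 := hf.integrable_log_sq.const_mul (1 / 2)
  have h4 := hf.integrableOn_Ioi.const_mul 2
  refine (((h1.sub h2).sub h3).sub h4).congr (Filter.Eventually.of_forall fun t => ?_)
  simp only [Pi.sub_apply]
  unfold kap
  ring

theorem kap_mul_integrable {f : ℝ → ℝ} (hf : Dens f) :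
    IntervalIntegrable (fun t => kap t * (1 - f t)) volume 0 1 := by
  have h1 : IntervalIntegrable (fun t => kap t * f t) volume 0 1 := by
    rw [intervalIntegrable_iff_integrableOn_Ioc_of_le zero_le_one]
    exact (OneA4_kap_int hf).mono_set Ioc_subset_Ioi_self
  refine (OneA4_kap_ii.sub h1).congr ?_
  exact fun t _ => by
    change kap t - kap t * f t = kap t * (1 - f t)
    ring

theorem linearise {f : ℝ → ℝ} (hf : Dens f) :
    3 / 2 - 1 / 200 - (∫ t in (0 : ℝ)..1, kap t * (1 - f t)) +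
        (∫ t in Ioi (1 : ℝ), kap t * f t) ≤
      (∫ t in Ioi (0 : ℝ), (2 * t - Real.log t - Real.log t ^ 2 / 2) * f t) +
        (∫ t in Ioi (0 : ℝ), Real.log t * f t) ^ 2 / 2 := by
  have h1 := hf.integrable_id.const_mul 2
  have h2 := hf.integrable_log
  have h2' := hf.integrable_log.const_mul (19 / 10)
  have h3 := hf.integrable_log_sq.const_mul (1 / 2)
  have h4 := hf.integrableOn_Ioi.const_mul 2
  have e1 : ∫ t in Ioi (0 : ℝ), (2 * t - Real.log t - Real.log t ^ 2 / 2) * f t =
      2 * (∫ t in Ioi (0 : ℝ), t * f t) - (∫ t in Ioi (0 : ℝ), Real.log t * f t) -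
        1 / 2 * ∫ t in Ioi (0 : ℝ), Real.log t ^ 2 * f t := by
    have h12 : Integrable (fun x => 2 * (x * f x) - Real.log x * f x)
        (volume.restrict (Ioi 0)) := h1.sub h2
    rw [← integral_const_mul, ← integral_const_mul, ← integral_sub h1 h2,
      ← integral_sub h12 h3]
    congr 1
    funext t
    ring
  have e2 : ∫ t in Ioi (0 : ℝ), kap t * f t =
      2 * (∫ t in Ioi (0 : ℝ), t * f t) - 19 / 10 * (∫ t in Ioi (0 : ℝ), Real.log t * f t) -
        1 / 2 * (∫ t in Ioi (0 : ℝ), Real.log t ^ 2 * f t) - 2 := by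
    have h5 : (2 : ℝ) = ∫ t in Ioi (0 : ℝ), 2 * f t := by
      rw [integral_const_mul, hf.mass, mul_one]
    have h6 : 2 * (∫ t in Ioi (0 : ℝ), t * f t) -
        19 / 10 * (∫ t in Ioi (0 : ℝ), Real.log t * f t) -
        1 / 2 * (∫ t in Ioi (0 : ℝ), Real.log t ^ 2 * f t) - 2 =
        (∫ t in Ioi (0 : ℝ), 2 * (t * f t)) - (∫ t in Ioi (0 : ℝ), 19 / 10 * (Real.log t * f t)) -
        (∫ t in Ioi (0 : ℝ), 1 / 2 * (Real.log t ^ 2 * f t)) - ∫ t in Ioi (0 : ℝ), 2 * f t := by
      rw [← h5, integral_const_mul, integral_const_mul, integral_const_mul]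
    have h12 : Integrable (fun x => 2 * (x * f x) - 19 / 10 * (Real.log x * f x))
        (volume.restrict (Ioi 0)) := h1.sub h2'
    have h123 : Integrable (fun x => 2 * (x * f x) - 19 / 10 * (Real.log x * f x) -
        1 / 2 * (Real.log x ^ 2 * f x)) (volume.restrict (Ioi 0)) := h12.sub h3
    rw [h6, ← integral_sub h1 h2', ← integral_sub h12 h3, ← integral_sub h123 h4]
    congr 1
    funext t
    unfold kap
    ring
  have hk := OneA4_kap_int hf
  have e3 : ∫ t in Ioi (0 : ℝ), kap t * f t =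
      (∫ t in (0 : ℝ)..1, kap t * f t) + ∫ t in Ioi (1 : ℝ), kap t * f t := by
    rw [intervalIntegral.integral_of_le zero_le_one, ← setIntegral_union
      (Ioc_disjoint_Ioi le_rfl) measurableSet_Ioi (hk.mono_set Ioc_subset_Ioi_self)
      (hk.mono_set (Ioi_subset_Ioi zero_le_one)), Ioc_union_Ioi_eq_Ioi zero_le_one]
  have e4 : ∫ t in (0 : ℝ)..1, kap t * f t =
      -1 / 10 - ∫ t in (0 : ℝ)..1, kap t * (1 - f t) := by
    rw [← OneA4_kap_val, ← intervalIntegral.integral_sub OneA4_kap_ii (kap_mul_integrable hf)]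
    congr 1
    funext t
    ring
  have h5 : 0 ≤ ((∫ t in Ioi (0 : ℝ), Real.log t * f t) + 9 / 10) ^ 2 := sq_nonneg _
  rw [e4] at e3
  rw [e1]
  nlinarith

end Vale.Agent.P254U
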