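import Vale.Agent.Lib.P254U.DensDefs

/-!
P254U/OneA5: the pointwise majorant `kap ≤ wbar` on `(0,1]`.
Numerically: `max kap on (0,1]` is `0.1732` at `t = 0.243`; `kap t ≤ 0.565 (0.87 - t)^2` on
`[0.3,0.87]` with slack at least `0.0005` (e.g. kap .35 = .1435 vs .1528, kap .4 = .1210 vs .1248,
kap .45 = .0984 vs .0997, kap .5 = .07675 vs .07735, kap .55 = .05719 vs .05786, kap .6 = .0401 vs .0412,
kap .7 = .0140 vs .0163, kap .8 = -.0009 vs .0028), and `kap ≤ 0` on `[0.8,1]`.
Derivatives: `kap' t = (2 t - 19/10 - log t)/t`, `kap'' t = (9/10 + log t)/t^2`.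
Suggestion: write `kap t = 2 t - 2 + 361/200 - (log t + 19/10)^2/2`; for `t ≥ 0.15` use good lower bounds for
`log t` on small intervals (tangent type bound `log t ≥ log c + 2 (t-c)/(t+c)` for `t ≥ c`, or
`log t ≥ log c + (t-c)/t`) or the convexity of `kap` on `[0.41,1]` / concavity on `(0,0.4]` (chords and
tangents); for `t ≤ 0.15` `kap` is increasing.
-/

open MeasureTheory Set

namespace Vale.Agent.P254U

/-- tangent inequality from a monotone derivative -/
theorem OneA5_tangent {f f' : ℝ → ℝ} {H : ℝ} (hf : ∀ x, 0 < x → HasDerivAt f (f' x) x)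
    (hm : ∀ a b, 0 < a → a ≤ b → b ≤ H → f' a ≤ f' b) {c t : ℝ} (hc : 0 < c) (ht : 0 < t)
    (hcH : c ≤ H) (htH : t ≤ H) : f c + f' c * (t - c) ≤ f t := by
  rcases lt_trichotomy c t with h | h | h
  · obtain ⟨ξ, hξ, h1⟩ := exists_hasDerivAt_eq_slope f f' h
      (fun x hx => (hf x (hc.trans_le hx.1)).continuousAt.continuousWithinAt)
      (fun x hx => hf x (hc.trans hx.1))
    have h2 := hm c ξ hc hξ.1.le (hξ.2.le.trans htH)
    rw [h1, le_div_iff₀ (by linarith)] at h2
    linarith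
  · subst h
    simp
  · obtain ⟨ξ, hξ, h1⟩ := exists_hasDerivAt_eq_slope f f' h
      (fun x hx => (hf x (ht.trans_le hx.1)).continuousAt.continuousWithinAt)
      (fun x hx => hf x (ht.trans hx.1))
    have h2 := hm ξ c (ht.trans hξ.1) hξ.2.le hcH
    rw [h1, div_le_iff₀ (by linarith)] at h2
    linarith

theorem OneA5_g {t : ℝ} (ht : 0 < t) : HasDerivAt (fun x => (19 / 10 + Real.log x) / x)
    (-(9 / 10 + Real.log t) / t ^ 2) t := by
  have h1 := ((Real.hasDerivAt_log ht.ne').const_add (19 / 10)).div (hasDerivAt_id t) ht.ne'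
  refine h1.congr_deriv ?_
  simp only [id_eq]
  field_simp
  ring

theorem OneA5_kap {t : ℝ} (ht : 0 < t) : HasDerivAt kap (2 - (19 / 10 + Real.log t) / t) t := by
  have h0 := Real.hasDerivAt_log ht.ne'
  have h1 := ((((hasDerivAt_id t).const_mul 2).sub (h0.const_mul (19 / 10))).sub
    ((h0.pow 2).div_const 2)).sub_const 2
  refine h1.congr_deriv ?_
  simp only [Nat.cast_ofNat]
  field_simp
  ring

/-- `9/10 + log t ≤ 113/100 t^2` -/
theorem OneA5_log {t : ℝ} (ht : 0 < t) : 9 / 10 + Real.log t ≤ 113 / 100 * t ^ 2 := by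
  have h1 : Real.log (226 / 100 * t ^ 2) ≤ 226 / 100 * t ^ 2 - 1 :=
    Real.log_le_sub_one_of_pos (by positivity)
  rw [Real.log_mul (by norm_num) (by positivity), Real.log_pow] at h1
  have h2 : (8 / 10 : ℝ) ≤ Real.log (226 / 100) := by
    rw [Real.le_log_iff_exp_le (by norm_num)]
    have h3 : Real.exp (8 / 10) ^ 5 ≤ (226 / 100 : ℝ) ^ 5 := by
      rw [← Real.exp_nat_mul]
      have h4 : ((5 : ℕ) : ℝ) * (8 / 10) = 4 * 1 := by norm_num
      rw [h4]
      have h5 : Real.exp (4 * 1) = Real.exp 1 ^ 4 := by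
        rw [← Real.exp_nat_mul]
        norm_num
      rw [h5]
      have h6 := Real.exp_one_lt_d9
      calc Real.exp 1 ^ 4 ≤ (2.7182818286 : ℝ) ^ 4 :=
            pow_le_pow_left₀ (Real.exp_pos 1).le h6.le 4
        _ ≤ _ := by norm_num
    exact le_of_pow_le_pow_left₀ (by norm_num) (by norm_num) h3
  push_cast at h1
  linarith

/-- monotonicity of `113/100 t + g t` -/
theorem OneA5_monoA {a b : ℝ} (ha : 0 < a) (hab : a ≤ b) :
    113 / 100 * a + (19 / 10 + Real.log a) / a ≤ 113 / 100 * b + (19 / 10 + Real.log b) / b := by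
  have hd : ∀ x ∈ Ioi (0 : ℝ), HasDerivAt (fun x => 113 / 100 * x + (19 / 10 + Real.log x) / x)
      (113 / 100 + -(9 / 10 + Real.log x) / x ^ 2) x := by
    intro x hx
    have h1 := ((hasDerivAt_id x).const_mul (113 / 100)).add (OneA5_g hx)
    refine h1.congr_deriv ?_
    rw [mul_one]
  have hm : MonotoneOn (fun x => 113 / 100 * x + (19 / 10 + Real.log x) / x) (Ioi (0 : ℝ)) := by
    apply monotoneOn_of_deriv_nonneg (convex_Ioi 0)
    · exact fun x hx => (hd x hx).continuousAt.continuousWithinAt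
    · rw [interior_Ioi]
      exact fun x hx => (hd x hx).differentiableAt.differentiableWithinAt
    · rw [interior_Ioi]
      intro x hx
      rw [(hd x hx).deriv]
      have hx' : (0 : ℝ) < x := hx
      have h1 := OneA5_log hx'
      have h2 : (9 / 10 + Real.log x) / x ^ 2 ≤ 113 / 100 := by
        rw [div_le_iff₀ (by positivity)]
        exact h1
      rw [neg_div]
      linarith
  exact hm (mem_Ioi.2 ha) (mem_Ioi.2 (ha.trans_le hab)) hab

theorem OneA5_log04 {t : ℝ} (ht : 0 < t) (h : t ≤ 2 / 5) : Real.log t ≤ -(9 / 10) := by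
  rw [Real.log_le_iff_le_exp ht]
  refine h.trans ?_
  rw [Real.exp_neg]
  have h1 : Real.exp (9 / 10) ≤ 5 / 2 := by
    have h3 : Real.exp (9 / 10) ^ 10 ≤ (5 / 2 : ℝ) ^ 10 := by
      rw [← Real.exp_nat_mul]
      have h5 : Real.exp (((10 : ℕ) : ℝ) * (9 / 10)) = Real.exp 1 ^ 9 := by
        rw [← Real.exp_nat_mul]
        norm_num
      rw [h5]
      have h6 := Real.exp_one_lt_d9
      calc Real.exp 1 ^ 9 ≤ (2.7182818286 : ℝ) ^ 9 :=
            pow_le_pow_left₀ (Real.exp_pos 1).le h6.le 9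
        _ ≤ _ := by norm_num
    exact le_of_pow_le_pow_left₀ (by norm_num) (by norm_num) h3
  have h2 := Real.exp_pos (9 / 10)
  rw [le_inv_comm₀ (by norm_num) h2]
  norm_num
  exact h1

/-- monotonicity of `g` on `(0, 2/5]` -/
theorem OneA5_monoB {a b : ℝ} (ha : 0 < a) (hab : a ≤ b) (hb : b ≤ 2 / 5) :
    (19 / 10 + Real.log a) / a ≤ (19 / 10 + Real.log b) / b := by
  have hm : MonotoneOn (fun x => (19 / 10 + Real.log x) / x) (Icc a b) := by
    apply monotoneOn_of_deriv_nonneg (convex_Icc a b)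
    · exact fun x hx => (OneA5_g (ha.trans_le hx.1)).continuousAt.continuousWithinAt
    · rw [interior_Icc]
      exact fun x hx => (OneA5_g (ha.trans hx.1)).differentiableAt.differentiableWithinAt
    · rw [interior_Icc]
      intro x hx
      rw [(OneA5_g (ha.trans hx.1)).deriv]
      have h1 := OneA5_log04 (ha.trans hx.1) (hx.2.le.trans hb)
      apply div_nonneg _ (sq_nonneg _)
      linarith
  exact hm (left_mem_Icc.2 hab) (right_mem_Icc.2 hab) hab

theorem OneA5_taylor {x : ℝ} (hx : |x| < 1) (n : ℕ) :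
    |(∑ i ∈ Finset.range n, x ^ (i + 1) / (i + 1)) + Real.log (1 - x)| ≤
      |x| ^ (n + 1) / (1 - |x|) := Real.abs_log_sub_add_sum_range_le hx n

theorem OneA5_log243 : -(14146940 / 10000000 : ℝ) ≤ Real.log (243 / 1000) ∧
    Real.log (243 / 1000) ≤ -(14146930 / 10000000) := by
  have h1 := Real.abs_log_sub_add_sum_range_le (x := 28 / 1000) (by norm_num [abs_of_pos]) 4
  have h2 : Real.log (243 / 1000) = -(2 * Real.log 2) + Real.log (1 - 28 / 1000) := by
    have h3 : (243 / 1000 : ℝ) = (2 ^ 2)⁻¹ * (1 - 28 / 1000) := by norm_num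
    rw [h3, Real.log_mul (by norm_num) (by norm_num), Real.log_inv, Real.log_pow]
    norm_num
  rw [abs_of_pos (by norm_num : (0 : ℝ) < 28 / 1000)] at h1
  simp only [Finset.sum_range_succ, Finset.sum_range_zero] at h1
  norm_num at h1
  rw [abs_le] at h1
  have h4 := Real.log_two_gt_d9
  have h5 := Real.log_two_lt_d9
  rw [h2]
  norm_num
  constructor <;> linarith [h1.1, h1.2]

theorem OneA5_log75 : -(28780 / 100000 : ℝ) ≤ Real.log (3 / 4) ∧
    Real.log (3 / 4) ≤ -(28755 / 100000) := by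
  have h1 := Real.abs_log_sub_add_sum_range_le (x := 1 / 4) (by norm_num [abs_of_pos]) 7
  rw [abs_of_pos (by norm_num : (0 : ℝ) < 1 / 4)] at h1
  simp only [Finset.sum_range_succ, Finset.sum_range_zero] at h1
  norm_num at h1
  rw [abs_le] at h1
  norm_num
  constructor <;> linarith [h1.1, h1.2]

/-- the tangent inequality for `113/200 (87/100 - t)^2 - kap t` -/
theorem OneA5_D {c t : ℝ} (hc : 0 < c) (ht : 0 < t) :
    (113 / 200 * (87 / 100 - c) ^ 2 - kap c) +
      (-(113 / 100) * (87 / 100 - c) - (2 - (19 / 10 + Real.log c) / c)) * (t - c) ≤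
      113 / 200 * (87 / 100 - t) ^ 2 - kap t := by
  refine OneA5_tangent (f := fun t => 113 / 200 * (87 / 100 - t) ^ 2 - kap t)
    (f' := fun c => -(113 / 100) * (87 / 100 - c) - (2 - (19 / 10 + Real.log c) / c))
    (H := max c t) ?_ ?_ hc ht (le_max_left _ _) (le_max_right _ _)
  · intro x hx
    have h1 := ((((hasDerivAt_id x).const_sub (87 / 100)).pow 2).const_mul (113 / 200)).sub
      (OneA5_kap hx)
    refine h1.congr_deriv ?_
    simp only [id_eq, Nat.cast_ofNat]
    ring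
  · intro a b ha hab _
    have h1 := OneA5_monoA ha hab
    linarith

/-- the tangent inequality for `kap` on `(0, 2/5]` -/
theorem OneA5_K {c t : ℝ} (hc : 0 < c) (ht : 0 < t) (hc2 : c ≤ 2 / 5) (ht2 : t ≤ 2 / 5) :
    kap t ≤ kap c + (2 - (19 / 10 + Real.log c) / c) * (t - c) := by
  have h := OneA5_tangent (f := fun t => - kap t)
    (f' := fun c => -(2 - (19 / 10 + Real.log c) / c)) (H := 2 / 5)
    (fun x hx => (OneA5_kap hx).neg) (fun a b ha hab hb => by
      have h1 := OneA5_monoB ha hab hb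
      linarith) hc ht hc2 ht2
  linarith

theorem OneA5_quad {t : ℝ} (h0 : 0 < t) (h1 : t ≤ 87 / 100) :
    kap t ≤ 113 / 200 * (87 / 100 - t) ^ 2 := by
  rcases le_or_gt t (3 / 5) with h | h
  · have h2 := OneA5_D (c := 1 / 2) (by norm_num) h0
    have h3 : Real.log (1 / 2) = - Real.log 2 := by rw [one_div, Real.log_inv]
    have h4 := Real.log_two_gt_d9
    have h5 := Real.log_two_lt_d9
    unfold kap at h2 ⊢
    rw [h3] at h2
    set L := Real.log 2 with hL
    have h6 : L ^ 2 ≤ 0.6931471808 * L := by nlinarith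
    have h7 : 0.6931471803 * L ≤ L ^ 2 := by nlinarith
    have h8 : (19 / 10 + -L) / (1 / 2) = 2 * (19 / 10 - L) := by ring
    rw [h8] at h2
    -- derivative at `1/2`
    have h9 : 0 ≤ (L - 0.6931471803) * (3 / 5 - t) := mul_nonneg (by linarith) (by linarith)
    have h10 : 0 ≤ (0.6931471808 - L) * (3 / 5 - t) := mul_nonneg (by linarith) (by linarith)
    nlinarith
  · have h2 := OneA5_D (c := 3 / 4) (by norm_num) h0
    obtain ⟨h4, h5⟩ := OneA5_log75
    unfold kap at h2 ⊢
    set L := Real.log (3 / 4) with hL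
    have h6 : L ^ 2 ≤ -(28780 / 100000) * L := by nlinarith
    have h8 : (19 / 10 + L) / (3 / 4) = 4 / 3 * (19 / 10 + L) := by ring
    rw [h8] at h2
    have h9 : 0 ≤ (L + 28780 / 100000) * (t - 3 / 5) := mul_nonneg (by linarith) (by linarith)
    have h10 : 0 ≤ (-(28755 / 100000) - L) * (t - 3 / 5) := mul_nonneg (by linarith) (by linarith)
    nlinarith

theorem OneA5_max {t : ℝ} (h0 : 0 < t) (h1 : t ≤ 317 / 1000) : kap t ≤ 347 / 2000 := by
  have h2 := OneA5_K (c := 243 / 1000) (by norm_num) h0 (by norm_num) (by linarith)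
  obtain ⟨h4, h5⟩ := OneA5_log243
  refine h2.trans ?_
  unfold kap
  set L := Real.log (243 / 1000) with hL
  have h6 : (1.414693 : ℝ) * (-L) ≤ L ^ 2 := by nlinarith
  have h8 : (19 / 10 + L) / (243 / 1000) = 1000 / 243 * (19 / 10 + L) := by ring
  rw [h8]
  have h9 : 0 ≤ (L + 14146940 / 10000000) * (317 / 1000 - t) :=
    mul_nonneg (by linarith) (by linarith)
  have h10 : 0 ≤ (-(14146930 / 10000000) - L) * (317 / 1000 - t) :=
    mul_nonneg (by linarith) (by linarith)
  nlinarith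

theorem OneA5_top {t : ℝ} (h0 : 87 / 100 ≤ t) (h1 : t ≤ 1) : kap t ≤ 0 := by
  have ht : 0 < t := by linarith
  obtain ⟨u, hu⟩ : ∃ u : ℝ, u = -Real.log t := ⟨_, rfl⟩
  have hL : Real.log t = -u := by rw [hu, neg_neg]
  have hu0 : 0 ≤ u := by
    rw [hu]
    have := Real.log_nonpos ht.le h1
    linarith
  have hu2 : u ≤ 13 / 87 := by
    have h2 := Real.one_sub_inv_le_log_of_pos ht
    have h3 : t⁻¹ ≤ 100 / 87 := by
      rw [inv_le_comm₀ ht (by norm_num)]
      norm_num
      exact h0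
    rw [hL] at h2
    linarith
  have htu : t = Real.exp (-u) := by rw [← hL, Real.exp_log ht]
  have h4 : t ≤ 1 - u + u ^ 2 / 2 := by
    have h5 := Real.quadratic_le_exp_of_nonneg hu0
    rw [htu, Real.exp_neg]
    have h6 : 0 < 1 + u + u ^ 2 / 2 := by positivity
    have h7 : (Real.exp u)⁻¹ ≤ (1 + u + u ^ 2 / 2)⁻¹ := inv_anti₀ h6 h5
    refine h7.trans ?_
    rw [inv_le_iff_one_le_mul₀ h6]
    have h8 : (1 - u + u ^ 2 / 2) * (1 + u + u ^ 2 / 2) = 1 + u ^ 4 / 4 := by ring
    rw [h8]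
    have : 0 ≤ u ^ 4 := by positivity
    linarith
  unfold kap
  rw [hL]
  nlinarith

theorem kap_le_wbar {t : ℝ} (h0 : 0 < t) (h1 : t ≤ 1) : kap t ≤ wbar t := by
  unfold wbar
  rcases le_or_gt t (87 / 100) with h | h
  · rw [max_eq_right (by linarith)]
    have h2 := OneA5_quad h0 h
    refine le_min ?_ h2
    rcases le_or_gt t (317 / 1000) with h3 | h3
    · exact OneA5_max h0 h3
    · refine h2.trans ?_
      nlinarith
  · rw [max_eq_left (by linarith)]
    have h2 := OneA5_top h.le h1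
    refine le_min (by linarith) (by simpa using h2)

end Vale.Agent.P254U
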