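import Vale.Agent.Lib.P254U.DensDefs

/-!
P254U/OneA6: numerical integrals.

`wbar_integral`: `1 - e^{-t} ≤ t - t^2/2 + t^3/6`; `wbar = 347/2000` on `[0,t1]`,
`= 113/200 (87/100 - t)^2` on `[t1, 87/100]`, `= 0` beyond, `t1 = 0.3159`; since `wbar` is a minimum one may
split at the rational point `0.316` using either branch as an upper bound.  Value of
`∫ wbar (t - t^2/2 + t^3/6) = 0.019475`, times `e` gives `0.05294`.

`kap_lower`: Taylor: `2x - 1.9 log(1+x) - log(1+x)^2/2 ≥ x/10 + 9 x^2/20 - 2 x^3/15` on `[0,1]`.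

`final_num`: with `X = μ e^{2μ} ≤ 0.77` and `kap_lower`
`e^{-2μ} ∫_0^X kap (1+x) ≥ μ^2 e^{2μ}/20 + 3 μ^3 e^{4μ}/20 - μ^4 e^{6μ}/30`; the maximum over
`μ ∈ [0,1/e]` of `0.0532 μ - (this)` is about `0.00566` (at `μ = 0.164`).
-/

open MeasureTheory Set

namespace Vale.Agent.P254U

theorem wbar_anti : AntitoneOn wbar (Icc 0 1) := by
  intro s _ t _ hst
  unfold wbar
  refine min_le_min_left _ (mul_le_mul_of_nonneg_left ?_ (by norm_num))
  refine pow_le_pow_left₀ (le_max_left _ _) ?_ 2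
  exact max_le_max_left _ (by linarith)

theorem wbar_nonneg (t : ℝ) : 0 ≤ wbar t := by
  unfold wbar
  exact le_min (by norm_num) (mul_nonneg (by norm_num) (sq_nonneg _))

/-- nonnegative derivative on `[0,∞)` and value zero at zero -/
private theorem OneA6_mono {F F' : ℝ → ℝ} (hF : ∀ x, 0 ≤ x → HasDerivAt F (F' x) x)
    (h0 : F 0 = 0) {b : ℝ} (hb : 0 ≤ b) (hF' : ∀ x, 0 ≤ x → x ≤ b → 0 ≤ F' x) : 0 ≤ F b := by
  have hmono : MonotoneOn F (Icc 0 b) := by
    refine monotoneOn_of_deriv_nonneg (convex_Icc 0 b) ?_ ?_ ?_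
    · exact fun x hx => (hF x hx.1).continuousAt.continuousWithinAt
    · intro x hx
      rw [interior_Icc] at hx
      exact (hF x hx.1.le).differentiableAt.differentiableWithinAt
    · intro x hx
      rw [interior_Icc] at hx
      rw [(hF x hx.1.le).deriv]
      exact hF' x hx.1.le hx.2.le
  have := hmono ⟨le_rfl, hb⟩ ⟨hb, le_rfl⟩ hb
  rwa [h0] at this

private theorem OneA6_exp1 {t : ℝ} (ht : 0 ≤ t) : 0 ≤ 1 - t + t ^ 2 / 2 - Real.exp (-t) := by
  refine OneA6_mono (F := fun t => 1 - t + t ^ 2 / 2 - Real.exp (-t))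
    (F' := fun t => -1 + t + Real.exp (-t)) (fun x _ => ?_) (by norm_num) ht (fun x _ _ => ?_)
  · have h1 : HasDerivAt (fun t : ℝ => Real.exp (-t)) (Real.exp (-x) * (-1)) x :=
      (hasDerivAt_neg x).exp
    have h2 := ((((hasDerivAt_const x (1 : ℝ)).sub (hasDerivAt_id x)).add
      ((hasDerivAt_pow 2 x).div_const 2)).sub h1)
    refine h2.congr_deriv ?_
    norm_num
  · have := Real.add_one_le_exp (-x)
    linarith

private theorem OneA6_exp2 {t : ℝ} (ht : 0 ≤ t) :
    1 - Real.exp (-t) ≤ t - t ^ 2 / 2 + t ^ 3 / 6 := by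
  have h := OneA6_mono (F := fun t => Real.exp (-t) - 1 + t - t ^ 2 / 2 + t ^ 3 / 6)
    (F' := fun t => 1 - t + t ^ 2 / 2 - Real.exp (-t)) (fun x _ => by
      have h1 : HasDerivAt (fun t : ℝ => Real.exp (-t)) (Real.exp (-x) * (-1)) x :=
        (hasDerivAt_neg x).exp
      have h2 := ((((h1.sub (hasDerivAt_const x (1 : ℝ))).add (hasDerivAt_id x)).sub
        ((hasDerivAt_pow 2 x).div_const 2)).add ((hasDerivAt_pow 3 x).div_const 6))
      refine h2.congr_deriv ?_
      norm_num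
      ring) (by norm_num) ht (fun x hx _ => OneA6_exp1 hx)
  linarith

private theorem OneA6_wc : Continuous wbar := by
  unfold wbar
  fun_prop

theorem wbar_integral :
    Real.exp 1 * (∫ t in (0 : ℝ)..1, wbar t * (1 - Real.exp (-t))) ≤ 133 / 2500 := by
  have hc : Continuous fun t => wbar t * (1 - Real.exp (-t)) :=
    OneA6_wc.mul (continuous_const.sub (Real.continuous_exp.comp continuous_neg))
  have hii : ∀ a b : ℝ, IntervalIntegrable (fun t => wbar t * (1 - Real.exp (-t))) volume a b :=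
    fun a b => hc.intervalIntegrable a b
  have h01 : ∀ t : ℝ, 0 ≤ t → 0 ≤ 1 - Real.exp (-t) := by
    intro t ht
    have : Real.exp (-t) ≤ 1 := Real.exp_le_one_iff.2 (by linarith)
    linarith
  have hp : ∀ t : ℝ, 0 ≤ t → 0 ≤ t - t ^ 2 / 2 + t ^ 3 / 6 := fun t ht =>
    (h01 t ht).trans (OneA6_exp2 ht)
  -- first piece
  have I1 : ∫ t in (0 : ℝ)..(79 / 250), wbar t * (1 - Real.exp (-t)) ≤
      347 / 2000 * ((79 / 250) ^ 2 / 2 - (79 / 250) ^ 3 / 6 + (79 / 250) ^ 4 / 24) := by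
    have hd : ∀ x ∈ uIcc (0 : ℝ) (79 / 250), HasDerivAt
        (fun t : ℝ => 347 / 2000 * (t ^ 2 / 2 - t ^ 3 / 6 + t ^ 4 / 24))
        (347 / 2000 * (x - x ^ 2 / 2 + x ^ 3 / 6)) x := by
      intro x _
      have h2 := (((hasDerivAt_pow 2 x).div_const 2).sub ((hasDerivAt_pow 3 x).div_const 6)).add
        ((hasDerivAt_pow 4 x).div_const 24)
      refine (h2.const_mul (347 / 2000)).congr_deriv ?_
      norm_num
      ring
    have hI := intervalIntegral.integral_eq_sub_of_hasDerivAt hd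
      (Continuous.intervalIntegrable (by fun_prop) _ _)
    have hle : ∫ t in (0 : ℝ)..(79 / 250), wbar t * (1 - Real.exp (-t)) ≤
        ∫ t in (0 : ℝ)..(79 / 250), 347 / 2000 * (t - t ^ 2 / 2 + t ^ 3 / 6) := by
      refine intervalIntegral.integral_mono_on (by norm_num) (hii _ _)
        (Continuous.intervalIntegrable (by fun_prop) _ _) ?_
      intro t ht
      exact mul_le_mul (min_le_left _ _) (OneA6_exp2 ht.1) (h01 t ht.1) (by norm_num)
    refine hle.trans ?_
    rw [hI]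
    norm_num
  -- second piece
  have I2 : ∫ t in (79 / 250 : ℝ)..(87 / 100), wbar t * (1 - Real.exp (-t)) ≤
      ∫ t in (79 / 250 : ℝ)..(87 / 100), 113 / 200 * (87 / 100 - t) ^ 2 *
        (t - t ^ 2 / 2 + t ^ 3 / 6) := by
    refine intervalIntegral.integral_mono_on (by norm_num) (hii _ _)
      (Continuous.intervalIntegrable (by fun_prop) _ _) ?_
    intro t ht
    have ht0 : (0 : ℝ) ≤ t := by linarith [ht.1]
    refine mul_le_mul ?_ (OneA6_exp2 ht0) (h01 t ht0) (by positivity)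
    refine (min_le_right _ _).trans (le_of_eq ?_)
    rw [max_eq_right (by linarith [ht.2])]
  have hd2 : ∀ x ∈ uIcc (79 / 250 : ℝ) (87 / 100), HasDerivAt
      (fun t : ℝ => 113 / 200 * ((87 / 100) ^ 2 * (t ^ 2 / 2) +
        (-(2 * (87 / 100)) - (87 / 100) ^ 2 / 2) * (t ^ 3 / 3) +
        (1 + 87 / 100 + (87 / 100) ^ 2 / 6) * (t ^ 4 / 4) +
        (-(1 / 2) - (87 / 100) / 3) * (t ^ 5 / 5) + 1 / 6 * (t ^ 6 / 6)))
      (113 / 200 * (87 / 100 - x) ^ 2 * (x - x ^ 2 / 2 + x ^ 3 / 6)) x := by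
    intro x _
    have h2 := ((((((hasDerivAt_pow 2 x).div_const 2).const_mul ((87 / 100 : ℝ) ^ 2)).add
      (((hasDerivAt_pow 3 x).div_const 3).const_mul
        (-(2 * (87 / 100)) - (87 / 100 : ℝ) ^ 2 / 2))).add
      (((hasDerivAt_pow 4 x).div_const 4).const_mul (1 + 87 / 100 + (87 / 100 : ℝ) ^ 2 / 6))).add
      (((hasDerivAt_pow 5 x).div_const 5).const_mul (-(1 / 2) - (87 / 100 : ℝ) / 3))).add
      (((hasDerivAt_pow 6 x).div_const 6).const_mul (1 / 6 : ℝ))
    refine (h2.const_mul (113 / 200)).congr_deriv ?_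
    norm_num
    ring
  have hI2 := intervalIntegral.integral_eq_sub_of_hasDerivAt hd2
    (Continuous.intervalIntegrable (by fun_prop) _ _)
  -- third piece
  have I3 : ∫ t in (87 / 100 : ℝ)..1, wbar t * (1 - Real.exp (-t)) ≤ 0 := by
    have hle : ∫ t in (87 / 100 : ℝ)..1, wbar t * (1 - Real.exp (-t)) ≤
        ∫ _ in (87 / 100 : ℝ)..1, (0 : ℝ) := by
      refine intervalIntegral.integral_mono_on (by norm_num) (hii _ _)
        (Continuous.intervalIntegrable (by fun_prop) _ _) ?_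
      intro t ht
      have h1 : wbar t ≤ 0 := by
        unfold wbar
        refine (min_le_right _ _).trans (le_of_eq ?_)
        rw [max_eq_left (by linarith [ht.1])]
        norm_num
      exact mul_nonpos_of_nonpos_of_nonneg h1 (h01 t (by linarith [ht.1]))
    refine hle.trans (le_of_eq ?_)
    simp
  have hsplit : ∫ t in (0 : ℝ)..1, wbar t * (1 - Real.exp (-t)) =
      (∫ t in (0 : ℝ)..(79 / 250), wbar t * (1 - Real.exp (-t))) +
      (∫ t in (79 / 250 : ℝ)..(87 / 100), wbar t * (1 - Real.exp (-t))) +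
      ∫ t in (87 / 100 : ℝ)..1, wbar t * (1 - Real.exp (-t)) := by
    rw [intervalIntegral.integral_add_adjacent_intervals (hii _ _) (hii _ _),
      intervalIntegral.integral_add_adjacent_intervals (hii _ _) (hii _ _)]
  rw [hI2] at I2
  have hval : ∫ t in (0 : ℝ)..1, wbar t * (1 - Real.exp (-t)) ≤ 1953 / 100000 := by
    rw [hsplit]
    norm_num at I1 I2
    linarith
  have h0 : 0 ≤ ∫ t in (0 : ℝ)..1, wbar t * (1 - Real.exp (-t)) :=
    intervalIntegral.integral_nonneg (by norm_num) fun t ht =>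
      mul_nonneg (wbar_nonneg t) (h01 t ht.1)
  have he := Real.exp_one_lt_d9
  calc Real.exp 1 * (∫ t in (0 : ℝ)..1, wbar t * (1 - Real.exp (-t)))
      ≤ 2.7182818286 * (1953 / 100000) := mul_le_mul he.le hval h0 (by norm_num)
    _ ≤ 133 / 2500 := by norm_num

private theorem OneA6_log {x : ℝ} (h0 : 0 ≤ x) :
    Real.log (1 + x) ≤ x - x ^ 2 / 2 + x ^ 3 / 3 := by
  have h := OneA6_mono (F := fun x => x - x ^ 2 / 2 + x ^ 3 / 3 - Real.log (1 + x))
    (F' := fun x => 1 - x + x ^ 2 - 1 / (1 + x)) (fun x hx => by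
      have h1 : HasDerivAt (fun t : ℝ => Real.log (1 + t)) (1 / (1 + x)) x := by
        have h3 : HasDerivAt (fun t : ℝ => 1 + t) 1 x := (hasDerivAt_id x).const_add 1
        exact h3.log (by positivity)
      have h2 := (((hasDerivAt_id x).sub ((hasDerivAt_pow 2 x).div_const 2)).add
        ((hasDerivAt_pow 3 x).div_const 3)).sub h1
      refine h2.congr_deriv ?_
      norm_num) (by norm_num) h0 (fun x hx _ => by
      have h1 : 0 < 1 + x := by linarith
      have h2 : 1 / (1 + x) ≤ 1 - x + x ^ 2 := by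
        rw [div_le_iff₀ h1]
        have : 0 ≤ x ^ 3 := by positivity
        nlinarith
      linarith)
  linarith

theorem kap_lower {x : ℝ} (h0 : 0 ≤ x) (h1 : x ≤ 1) :
    x / 10 + 9 / 20 * x ^ 2 - 2 / 15 * x ^ 3 ≤ kap (1 + x) := by
  have h := OneA6_mono
    (F := fun x => kap (1 + x) - (x / 10 + 9 / 20 * x ^ 2 - 2 / 15 * x ^ 3))
    (F' := fun x => 2 - 19 / 10 * (1 / (1 + x)) - Real.log (1 + x) * (1 / (1 + x)) -
      (1 / 10 + 9 / 10 * x - 2 / 5 * x ^ 2)) (fun x hx => by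
      have h3 : HasDerivAt (fun t : ℝ => 1 + t) 1 x := (hasDerivAt_id x).const_add 1
      have h4 : HasDerivAt (fun t : ℝ => Real.log (1 + t)) (1 / (1 + x)) x := h3.log (by positivity)
      have h5 : HasDerivAt (fun t : ℝ => kap (1 + t))
          (2 * 1 - 19 / 10 * (1 / (1 + x)) - ((2 : ℕ) * Real.log (1 + x) ^ (2 - 1) *
            (1 / (1 + x))) / 2) x := by
        unfold kap
        exact ((((h3.const_mul 2).sub (h4.const_mul (19 / 10))).sub ((h4.pow 2).div_const 2))).sub_const 2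
      have h6 := h5.sub (((((hasDerivAt_id x).div_const 10).add
        ((hasDerivAt_pow 2 x).const_mul (9 / 20))).sub
        ((hasDerivAt_pow 3 x).const_mul (2 / 15))))
      refine h6.congr_deriv ?_
      norm_num
      ring) (by norm_num [kap]) h0 (fun x hx _ => by
      have h1 : 0 < 1 + x := by linarith
      have h2 := OneA6_log hx
      have h3 : 2 - 19 / 10 * (1 / (1 + x)) - Real.log (1 + x) * (1 / (1 + x)) -
          (1 / 10 + 9 / 10 * x - 2 / 5 * x ^ 2) =
          (x - x ^ 2 / 2 + 2 / 5 * x ^ 3 - Real.log (1 + x)) / (1 + x) := by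
        field_simp
        ring
      rw [h3]
      refine div_nonneg ?_ h1.le
      have : 0 ≤ x ^ 3 := by positivity
      linarith)
  linarith

theorem final_num {μ : ℝ} (h0 : 0 ≤ μ) (h1 : μ ≤ Real.exp (-1)) :
    133 / 2500 * μ - Real.exp (-2 * μ) * ∫ x in (0 : ℝ)..(μ * Real.exp (2 * μ)), kap (1 + x) ≤
      6 / 1000 := by
  obtain ⟨y, hy⟩ : ∃ y, y = Real.exp (2 * μ) := ⟨_, rfl⟩
  have hyp : 0 < y := by rw [hy]; exact Real.exp_pos _
  have hX0 : 0 ≤ μ * y := by positivity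
  have he : Real.exp (-1) < 1 / 2 := by
    have := Real.exp_neg_one_lt_d9
    linarith
  have hX1 : μ * y ≤ 1 := by
    calc μ * y ≤ Real.exp (-1) * Real.exp 1 := by
          refine mul_le_mul h1 ?_ hyp.le (Real.exp_pos _).le
          rw [hy]
          exact Real.exp_le_exp.2 (by linarith)
      _ = 1 := by rw [← Real.exp_add]; norm_num
  have hy0 : 1 + 2 * μ + 2 * μ ^ 2 ≤ y := by
    rw [hy]
    have := Real.quadratic_le_exp_of_nonneg (x := 2 * μ) (by linarith)
    nlinarith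
  have hinv : Real.exp (-2 * μ) = y⁻¹ := by
    rw [hy, ← Real.exp_neg]
    congr 1
    ring
  -- lower bound of the integral
  have hint : (μ * y) ^ 2 / 20 + 3 / 20 * (μ * y) ^ 3 - (μ * y) ^ 4 / 30 ≤
      ∫ x in (0 : ℝ)..(μ * y), kap (1 + x) := by
    have hd : ∀ x ∈ uIcc (0 : ℝ) (μ * y), HasDerivAt
        (fun t : ℝ => t ^ 2 / 20 + 3 / 20 * t ^ 3 - t ^ 4 / 30)
        (x / 10 + 9 / 20 * x ^ 2 - 2 / 15 * x ^ 3) x := by
      intro x _
      have h2 := (((hasDerivAt_pow 2 x).div_const 20).add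
        ((hasDerivAt_pow 3 x).const_mul (3 / 20))).sub ((hasDerivAt_pow 4 x).div_const 30)
      refine h2.congr_deriv ?_
      norm_num
      ring
    have hI := intervalIntegral.integral_eq_sub_of_hasDerivAt hd
      (Continuous.intervalIntegrable (by fun_prop) _ _)
    have hle : ∫ x in (0 : ℝ)..(μ * y), (x / 10 + 9 / 20 * x ^ 2 - 2 / 15 * x ^ 3) ≤
        ∫ x in (0 : ℝ)..(μ * y), kap (1 + x) := by
      refine intervalIntegral.integral_mono_on hX0 (Continuous.intervalIntegrable (by fun_prop) _ _)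
        ?_ fun x hx => kap_lower hx.1 (hx.2.trans hX1)
      refine ContinuousOn.intervalIntegrable ?_
      rw [uIcc_of_le hX0]
      have hlog : ContinuousOn (fun x : ℝ => Real.log (1 + x)) (Icc 0 (μ * y)) := by
        refine ContinuousOn.log (by fun_prop) fun x hx => ?_
        have : 0 ≤ x := hx.1
        positivity
      unfold kap
      exact (((continuousOn_const.mul (by fun_prop)).sub (continuousOn_const.mul hlog)).sub
        ((hlog.pow 2).div_const 2)).sub continuousOn_const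
    rw [hI] at hle
    have hz : ((0 : ℝ) ^ 2 / 20 + 3 / 20 * 0 ^ 3 - 0 ^ 4 / 30) = 0 := by norm_num
    rw [hz, sub_zero] at hle
    exact hle
  rw [← hy, hinv]
  have h2 : y⁻¹ * ((μ * y) ^ 2 / 20 + 3 / 20 * (μ * y) ^ 3 - (μ * y) ^ 4 / 30) ≤
      y⁻¹ * ∫ x in (0 : ℝ)..(μ * y), kap (1 + x) :=
    mul_le_mul_of_nonneg_left hint (inv_nonneg.2 hyp.le)
  have h3 : y⁻¹ * ((μ * y) ^ 2 / 20 + 3 / 20 * (μ * y) ^ 3 - (μ * y) ^ 4 / 30) =
      μ ^ 2 * y / 20 + μ ^ 3 * y ^ 2 * (3 / 20 - (μ * y) / 30) := by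
    field_simp
    ring
  rw [h3] at h2
  have h4 : μ ^ 3 * y ^ 2 * (7 / 60) ≤ μ ^ 3 * y ^ 2 * (3 / 20 - (μ * y) / 30) :=
    mul_le_mul_of_nonneg_left (by linarith) (by positivity)
  have h5 : μ ^ 2 * (1 + 2 * μ + 2 * μ ^ 2) ≤ μ ^ 2 * y :=
    mul_le_mul_of_nonneg_left hy0 (by positivity)
  have h6 : μ ^ 3 * (1 + 2 * μ + 2 * μ ^ 2) ^ 2 ≤ μ ^ 3 * y ^ 2 :=
    mul_le_mul_of_nonneg_left (pow_le_pow_left₀ (by positivity) hy0 2) (by positivity)
  have h7 : 133 / 2500 * μ - (μ ^ 2 * (1 + 2 * μ + 2 * μ ^ 2) / 20 +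
      μ ^ 3 * (1 + 2 * μ + 2 * μ ^ 2) ^ 2 * (7 / 60)) ≤ 6 / 1000 := by
    have e0 := sq_nonneg (μ - 172 / 1000)
    have e1 := mul_nonneg h0 (sq_nonneg (μ - 172 / 1000))
    have e2 := mul_nonneg (pow_nonneg h0 2) (sq_nonneg (μ - 172 / 1000))
    have e3 := mul_nonneg (pow_nonneg h0 3) (sq_nonneg (μ - 172 / 1000))
    have e6 : 0 ≤ μ ^ 6 := by positivity
    have e7 : 0 ≤ μ ^ 7 := by positivity
    nlinarith
  linarith

end Vale.Agent.P254U
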