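import Vale.Agent.Lib.P254U.OneA2
import Vale.Agent.Lib.P254U.OneA3
import Vale.Agent.Lib.P254U.OneA4
import Vale.Agent.Lib.P254U.OneA5
import Vale.Agent.Lib.P254U.OneA6

/-!
P254U/OneA: the one variable inequality (A).
-/

open MeasureTheory Set

namespace Vale.Agent.P254U

theorem oneA {f : ℝ → ℝ} (hf : Dens f) :
    3 / 2 - X0 ≤ (∫ t in Ioi (0 : ℝ), (2 * t - Real.log t - Real.log t ^ 2 / 2) * f t) +
      (∫ t in Ioi (0 : ℝ), Real.log t * f t) ^ 2 / 2 := by
  have h1 := linearise hf
  have h2 := tail_lower hf rfl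
  have hm := mass_le hf
  set μ := ∫ t in (0 : ℝ)..1, (1 - f t) with hμ
  have h3 := final_num hm.1 hm.2
  have h4 : ∫ t in (0 : ℝ)..1, kap t * (1 - f t) ≤ ∫ t in (0 : ℝ)..1, wbar t * (1 - f t) := by
    refine intervalIntegral.integral_mono_on_of_le_Ioo (by norm_num) (kap_mul_integrable hf) ?_ ?_
    · have hc : Continuous wbar := by
        unfold wbar
        fun_prop
      have hi : IntervalIntegrable (fun t => 1 - f t) volume 0 1 := by
        apply MonotoneOn.intervalIntegrable
        rw [uIcc_of_le (by norm_num : (0 : ℝ) ≤ 1)]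
        intro a ha b hb hab
        have := hf.anti (show (0 : ℝ) ≤ a from ha.1) (show (0 : ℝ) ≤ b from hb.1) hab
        simp only
        linarith
      exact hi.continuousOn_mul hc.continuousOn
    · intro t ht
      exact mul_le_mul_of_nonneg_right (kap_le_wbar ht.1 ht.2.le)
        (sub_nonneg.2 (hf.le_one ht.1.le))
  have h5 := cheb hf wbar_anti (fun t _ => wbar_nonneg t)
  have h6 : Real.exp 1 * (∫ t in (0 : ℝ)..1, wbar t * (1 - Real.exp (-t))) * μ ≤ 133 / 2500 * μ :=
    mul_le_mul_of_nonneg_right wbar_integral hm.1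
  have h7 : X0 = 11 / 1000 := by norm_num [X0]
  rw [h7]
  linarith

end Vale.Agent.P254U
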