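import Vale.Agent.Lib.P254U.DensDefs

/-!
P254U/OneA1: basic facts on the class `Dens`.

`rpow_le`: for `h = t/b`, `F j = f (j h)`: `F (j-1) * F (j+1) ≤ F j ^ 2` (four with `x = (j-1)h`,
`y = j h`, `t = h`) and `F 0 = 1` give `F b ^ a ≤ F a ^ b` for `a ≤ b`, i.e. the claim for `s/t = a/b`
rational; for real `s` take rationals `q ≥ s/t`, `q → s/t`, and `f (q t) ≤ f s` by monotonicity.

`exp_neg_le` (classical for increasing failure rate): suppose `f x < exp (-x)` for some `0 < x < 1`.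
If `f x = 0` then `f = 0` on `[x,∞)` and `∫ f ≤ x < 1`.  Otherwise `log f` is concave on its support:
let `γ` be a supergradient of `-log f` at `x`: `log f t ≤ log f x - γ (t - x)` for all `t ≥ 0` with
`f t > 0`; `t = 0` gives `γ ≥ c := -log f x / x > 1`.  So `f t ≤ min 1 (f x * exp (-γ (t - x)))` and
`1 = ∫ f ≤ ∫_0^∞ min(1, f x exp(-γ(t-x)))`; if `c x ≥ γ x` the exponential is `≤ 1` everywhere on
`[0,∞)` and the integral is `exp(γ x - c x)/γ ≤ 1/γ < 1`; otherwise it is `(x - c x/γ) + 1/γ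
= x + (1 - c x)/γ` which is `< 1` (if `c x ≥ 1`, `≤ x`; if `c x < 1`, `≤ x + (1 - c x)/c = 1/c`).
The case `x = 0` is `f 0 = 1`.

`ratio`: with `f t = exp (-c t)`, `0 ≤ c ≤ 1` (`exp_neg_le`), `f s ≥ exp (-c s)` (`rpow_le`), so it
suffices `(1 - e^{-cs})(1 - e^{-t}) ≤ (1 - e^{-ct})(1 - e^{-s})` for `0 ≤ c ≤ 1`, `0 < s ≤ t`.
(e.g. `c ↦ (1 - e^{-ct})/(1 - e^{-cs})` is nonincreasing, or the function
`t ↦ (1 - e^{-ct})/(1 - e^{-t})` is nondecreasing.)

`le_exp_two`: for `t > 1`, `q = f t > 0`: `f s ≥ q^(s/t) ≥ q^s` for `s ∈ [0,1]`, so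
`μ = ∫_0^1 (1 - f) ≤ ∫_0^1 (1 - q^s) ≤ ∫_0^1 s (-log q) = -(log q)/2`.
-/

open MeasureTheory Set

namespace Vale.Agent.P254U

theorem Dens.le_one {f : ℝ → ℝ} (hf : Dens f) {t : ℝ} (ht : 0 ≤ t) : f t ≤ 1 := by
  rw [← hf.zero]
  exact hf.anti (mem_Ici.mpr le_rfl) (mem_Ici.mpr ht) ht

theorem Dens.integrableOn_Ioi {f : ℝ → ℝ} (hf : Dens f) : IntegrableOn f (Ioi 0) := by
  by_contra h
  have h1 : ∫ t in Ioi (0 : ℝ), f t = 0 := integral_undef h
  rw [hf.mass] at h1
  exact one_ne_zero h1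

/-- discrete convex sequences vanishing at `0` are star shaped -/
theorem OneA1_disc {n : ℕ} {φ : ℕ → ℝ} (h0 : φ 0 = 0)
    (hc : ∀ j, j + 2 ≤ n → φ (j + 1) - φ j ≤ φ (j + 2) - φ (j + 1)) {a b : ℕ} (hab : a ≤ b)
    (hb : b ≤ n) : (b : ℝ) * φ a ≤ a * φ b := by
  have h1 : ∀ j : ℕ, j + 1 ≤ n → φ j ≤ j * (φ (j + 1) - φ j) := by
    intro j
    induction j with
    | zero =>
      intro _
      rw [h0]
      simp
    | succ j ih =>
      intro hj
      have h2 := ih (by omega)
      have h3 := hc j (by omega)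
      have h4 : (0 : ℝ) ≤ j + 1 := by positivity
      have h5 := mul_le_mul_of_nonneg_left h3 h4
      push_cast
      have e : φ (j + 1 + 1) = φ (j + 2) := rfl
      rw [e]
      linarith
  induction b, hab using Nat.le_induction with
  | base => exact le_rfl
  | succ b hab ih =>
    have h2 := ih (by omega)
    rcases Nat.eq_zero_or_pos b with hb0 | hb0
    · have ha0 : a = 0 := by omega
      rw [hb0, ha0, h0]
      simp
    · have h3 := h1 b hb
      have hbp : (0 : ℝ) < b := by exact_mod_cast hb0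
      have ha : (0 : ℝ) ≤ a := by positivity
      have h4 : (a : ℝ) * φ b ≤ a * (b * (φ (b + 1) - φ b)) := mul_le_mul_of_nonneg_left h3 ha
      have h5 : ((b : ℝ) + 1) * (b * φ a) ≤ (b + 1) * (a * φ b) :=
        mul_le_mul_of_nonneg_left h2 (by positivity)
      have h6 : (b : ℝ) * (((b + 1 : ℕ) : ℝ) * φ a) ≤ b * (a * φ (b + 1)) := by
        push_cast
        linarith
      exact le_of_mul_le_mul_left h6 hbp

theorem OneA1_pos {f : ℝ → ℝ} (hf : Dens f) {y z : ℝ} (hy : 0 ≤ y) (hyz : y ≤ z) (hz : 0 < f z) :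
    0 < f y :=
  hz.trans_le (hf.anti (mem_Ici.mpr hy) (mem_Ici.mpr (hy.trans hyz)) hyz)

/-- chord inequality (log-concavity) -/
theorem OneA1_chord {f : ℝ → ℝ} (hf : Dens f) {x y z : ℝ} (hx : 0 ≤ x) (hxy : x < y)
    (hyz : y ≤ z) (hz : 0 < f z) :
    (z - x) * (Real.log (f x) - Real.log (f y)) ≤ (y - x) * (Real.log (f x) - Real.log (f z)) := by
  have hxz : 0 < z - x := by linarith
  have hdz : 0 ≤ Real.log (f x) - Real.log (f z) := by
    rw [sub_nonneg]
    exact Real.log_le_log hz (hf.anti (mem_Ici.mpr hx) (mem_Ici.mpr (by linarith)) (by linarith))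
  -- approximate inequality
  have key : ∀ n : ℕ, 1 ≤ n → (n : ℝ) * ((z - x) * (Real.log (f x) - Real.log (f y)) -
      (y - x) * (Real.log (f x) - Real.log (f z))) ≤
      (z - x) * (Real.log (f x) - Real.log (f z)) := by
    intro n hn
    have hn0 : (0 : ℝ) < n := by exact_mod_cast hn
    obtain ⟨h, hh⟩ : ∃ h : ℝ, h = (z - x) / n := ⟨_, rfl⟩
    have hhp : 0 < h := by rw [hh]; positivity
    have hnh : (n : ℝ) * h = z - x := by rw [hh]; field_simp
    have hle : ∀ j : ℕ, j ≤ n → x + j * h ≤ z := by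
      intro j hj
      have : (j : ℝ) * h ≤ n * h := mul_le_mul_of_nonneg_right (by exact_mod_cast hj) hhp.le
      linarith
    have hpos : ∀ j : ℕ, j ≤ n → 0 < f (x + j * h) := fun j hj =>
      OneA1_pos hf (by positivity) (hle j hj) hz
    obtain ⟨a, ha⟩ : ∃ a : ℕ, a = ⌈(y - x) / h⌉₊ := ⟨_, rfl⟩
    have ha1 : (y - x) / h ≤ a := by rw [ha]; exact Nat.le_ceil _
    have ha2 : (a : ℝ) < (y - x) / h + 1 := by
      rw [ha]
      exact Nat.ceil_lt_add_one (div_nonneg (by linarith) hhp.le)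
    have ha3 : a ≤ n := by
      rw [ha, Nat.ceil_le, div_le_iff₀ hhp, hnh]
      linarith
    have hD := OneA1_disc (n := n) (φ := fun j => Real.log (f x) - Real.log (f (x + j * h)))
      (by simp) (fun j hj => ?_) ha3 le_rfl
    · beta_reduce at hD
      rw [hnh, show x + (z - x) = z by ring] at hD
      have hya : y ≤ x + a * h := by
        rw [div_le_iff₀ hhp] at ha1
        linarith
      have hmono : Real.log (f (x + a * h)) ≤ Real.log (f y) :=
        Real.log_le_log (hpos a ha3)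
          (hf.anti (mem_Ici.mpr (by linarith)) (mem_Ici.mpr (by positivity)) hya)
      have h1 : (n : ℝ) * (Real.log (f x) - Real.log (f y)) ≤
          a * (Real.log (f x) - Real.log (f z)) := by
        refine le_trans (mul_le_mul_of_nonneg_left ?_ hn0.le) hD
        linarith
      have h2 : (a : ℝ) * (Real.log (f x) - Real.log (f z)) ≤
          ((y - x) / h + 1) * (Real.log (f x) - Real.log (f z)) :=
        mul_le_mul_of_nonneg_right ha2.le hdz
      have h3 : (z - x) * ((y - x) / h + 1) = n * (y - x) + (z - x) := by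
        rw [hh]
        field_simp
      have h4 := mul_le_mul_of_nonneg_left (h1.trans h2) hxz.le
      rw [← mul_assoc (z - x) ((y - x) / h + 1), h3] at h4
      linarith
    · have e1 := hf.four (x + j * h) (x + (j + 1 : ℕ) * h) h (by positivity)
        (by push_cast; linarith) hhp.le
      have e2 : x + (j + 1 : ℕ) * h + h = x + (j + 2 : ℕ) * h := by push_cast; ring
      have e3 : x + j * h + h = x + (j + 1 : ℕ) * h := by push_cast; ring
      rw [e2, e3] at e1
      have p0 := hpos j (by omega)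
      have p1 := hpos (j + 1) (by omega)
      have p2 := hpos (j + 2) hj
      have e4 := Real.log_le_log (mul_pos p0 p2) e1
      rw [Real.log_mul p0.ne' p2.ne', Real.log_mul p1.ne' p1.ne'] at e4
      linarith
  by_contra hcon
  rw [not_le] at hcon
  obtain ⟨A, hA⟩ : ∃ A : ℝ, A = (z - x) * (Real.log (f x) - Real.log (f y)) -
      (y - x) * (Real.log (f x) - Real.log (f z)) := ⟨_, rfl⟩
  obtain ⟨B, hB⟩ : ∃ B : ℝ, B = (z - x) * (Real.log (f x) - Real.log (f z)) := ⟨_, rfl⟩
  have hApos : 0 < A := by rw [hA]; linarith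
  have hBnn : 0 ≤ B := by rw [hB]; positivity
  obtain ⟨n, hn⟩ := exists_nat_gt (B / A)
  have hn0 : (0 : ℝ) < n := lt_of_le_of_lt (div_nonneg hBnn hApos.le) hn
  have h1 := key n (by exact_mod_cast hn0)
  rw [← hA, ← hB] at h1
  rw [div_lt_iff₀ hApos] at hn
  linarith

theorem Dens.rpow_le {f : ℝ → ℝ} (hf : Dens f) {s t : ℝ} (hs : 0 < s) (hst : s ≤ t) :
    f t ^ (s / t) ≤ f s := by
  have ht : 0 < t := hs.trans_le hst
  rcases (hf.nonneg t ht.le).eq_or_lt with h | h
  · rw [← h, Real.zero_rpow (div_pos hs ht).ne']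
    exact hf.nonneg s hs.le
  · have h1 := OneA1_chord hf le_rfl hs hst h
    rw [hf.zero, Real.log_one, sub_zero, sub_zero, zero_sub, zero_sub] at h1
    have hps := OneA1_pos hf hs.le hst h
    rw [Real.rpow_def_of_pos h, ← Real.le_log_iff_exp_le hps, mul_div_assoc', div_le_iff₀ ht]
    linarith

/-- the supergradient bound -/
theorem OneA1_super {f : ℝ → ℝ} (hf : Dens f) {x u : ℝ} (hx : 0 < x) (hxu : x < u)
    (hu : 0 < f u) : ∃ γ : ℝ, - Real.log (f x) / x ≤ γ ∧
      ∀ t, 0 ≤ t → f t ≤ Real.exp (Real.log (f x) - γ * (t - x)) := by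
  have hfx := OneA1_pos hf hx.le hxu.le hu
  -- left slopes are bounded by right slopes
  have three : ∀ t v : ℝ, 0 ≤ t → t < x → x < v → 0 < f v →
      (Real.log (f t) - Real.log (f x)) / (x - t) ≤ (Real.log (f x) - Real.log (f v)) / (v - x) := by
    intro t v ht htx hxv hv
    have h1 := OneA1_chord hf ht htx hxv.le hv
    rw [div_le_div_iff₀ (by linarith) (by linarith)]
    have e : (Real.log (f t) - Real.log (f x)) * (v - x) =
        (v - t) * (Real.log (f t) - Real.log (f x)) -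
          (x - t) * (Real.log (f t) - Real.log (f x)) := by ring
    rw [e]
    linarith
  obtain ⟨L, hL⟩ : ∃ L : Set ℝ, L = (fun t => (Real.log (f t) - Real.log (f x)) / (x - t)) ''
      Ico 0 x := ⟨_, rfl⟩
  have hbdd : BddAbove L := by
    refine ⟨(Real.log (f x) - Real.log (f u)) / (u - x), ?_⟩
    rw [hL]
    rintro _ ⟨t, ht, rfl⟩
    exact three t u ht.1 ht.2 hxu hu
  have hmem : ∀ t, 0 ≤ t → t < x → (Real.log (f t) - Real.log (f x)) / (x - t) ∈ L := by
    intro t h1 h2
    rw [hL]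
    exact ⟨t, ⟨h1, h2⟩, rfl⟩
  refine ⟨sSup L, ?_, fun t ht => ?_⟩
  · have h1 := le_csSup hbdd (hmem 0 le_rfl hx)
    rw [hf.zero, Real.log_one, zero_sub, sub_zero] at h1
    exact h1
  · rcases lt_trichotomy t x with htx | htx | htx
    · have h1 := le_csSup hbdd (hmem t ht htx)
      rw [div_le_iff₀ (by linarith)] at h1
      have hft := OneA1_pos hf ht htx.le hfx
      rw [← Real.log_le_iff_le_exp hft]
      linarith
    · rw [htx, sub_self, mul_zero, sub_zero, Real.exp_log hfx]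
    · rcases (hf.nonneg t ht).eq_or_lt with h0 | h0
      · rw [← h0]
        exact (Real.exp_pos _).le
      · have h1 : sSup L ≤ (Real.log (f x) - Real.log (f t)) / (t - x) := by
          refine csSup_le ⟨_, hmem 0 le_rfl hx⟩ ?_
          rw [hL]
          rintro _ ⟨v, hv, rfl⟩
          exact three v t hv.1 hv.2 htx h0
        rw [le_div_iff₀ (by linarith)] at h1
        rw [← Real.log_le_iff_le_exp h0]
        linarith

theorem OneA1_split {f : ℝ → ℝ} (hf : Dens f) {a : ℝ} (ha : 0 ≤ a) :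
    (∫ t in Ioc 0 a, f t) + ∫ t in Ioi a, f t = 1 := by
  rw [← setIntegral_union Ioc_disjoint_Ioi_same measurableSet_Ioi
    (hf.integrableOn_Ioi.mono_set Ioc_subset_Ioi_self)
    (hf.integrableOn_Ioi.mono_set (Ioi_subset_Ioi ha)), Ioc_union_Ioi_eq_Ioi ha, hf.mass]

theorem OneA1_first {f : ℝ → ℝ} (hf : Dens f) {a : ℝ} (ha : 0 ≤ a) :
    ∫ t in Ioc 0 a, f t ≤ a := by
  have h1 : ∫ t in Ioc 0 a, f t ≤ ∫ _ in Ioc 0 a, (1 : ℝ) := by
    refine setIntegral_mono_on (hf.integrableOn_Ioi.mono_set Ioc_subset_Ioi_self)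
      (integrableOn_const (by simp)) measurableSet_Ioc fun t ht => hf.le_one ht.1.le
  refine h1.trans (le_of_eq ?_)
  simp [ha]

theorem Dens.exp_neg_le {f : ℝ → ℝ} (hf : Dens f) {t : ℝ} (h0 : 0 ≤ t) (h1 : t < 1) :
    Real.exp (-t) ≤ f t := by
  obtain ⟨x, hx⟩ : ∃ x : ℝ, x = t := ⟨t, rfl⟩
  rw [← hx] at h0 h1 ⊢
  rcases h0.eq_or_lt with hx0 | hx0
  · rw [← hx0, neg_zero, Real.exp_zero, hf.zero]
  by_contra hcon
  rw [not_le] at hcon
  by_cases hex : ∃ u, x < u ∧ 0 < f u
  · obtain ⟨u, hxu, hu⟩ := hex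
    obtain ⟨γ, hγ, hb⟩ := OneA1_super hf hx0 hxu hu
    have hfx := OneA1_pos hf hx0.le hxu.le hu
    have hlog : Real.log (f x) < -x := by
      rw [Real.log_lt_iff_lt_exp hfx]
      exact hcon
    obtain ⟨c, hc⟩ : ∃ c : ℝ, c = - Real.log (f x) / x := ⟨_, rfl⟩
    have hcx : c * x = - Real.log (f x) := by rw [hc]; field_simp
    have hc1 : 1 < c := by
      rw [hc, lt_div_iff₀ hx0]
      linarith
    rw [← hc] at hγ
    have hγ0 : 0 < γ := by linarith
    obtain ⟨t0, ht0⟩ : ∃ t0 : ℝ, t0 = x - c * x / γ := ⟨_, rfl⟩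
    have ht0nn : 0 ≤ t0 := by
      rw [ht0, sub_nonneg, div_le_iff₀ hγ0]
      nlinarith
    have hγt : γ * (x - t0) = c * x := by
      rw [ht0]
      field_simp
      ring
    have hint : ∫ t in Ioi t0, f t ≤ 1 / γ := by
      have i1 : IntegrableOn (fun t => Real.exp (Real.log (f x) + γ * x) * Real.exp ((-γ) * t))
          (Ioi t0) := (integrableOn_exp_mul_Ioi (by linarith) t0).const_mul _
      have h2 : ∫ t in Ioi t0, f t ≤
          ∫ t in Ioi t0, Real.exp (Real.log (f x) + γ * x) * Real.exp ((-γ) * t) := by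
        refine setIntegral_mono_on (hf.integrableOn_Ioi.mono_set (Ioi_subset_Ioi ht0nn)) i1
          measurableSet_Ioi fun t ht => ?_
        refine (hb t (ht0nn.trans (le_of_lt ht))).trans (le_of_eq ?_)
        rw [← Real.exp_add]
        congr 1
        ring
      refine h2.trans (le_of_eq ?_)
      rw [integral_const_mul, integral_exp_mul_Ioi (by linarith) t0]
      have h3 : Real.exp (Real.log (f x) + γ * x) * Real.exp (-γ * t0) = 1 := by
        rw [← Real.exp_add, Real.exp_eq_one_iff]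
        linarith
      have h4 : Real.exp (Real.log (f x) + γ * x) * (-Real.exp (-γ * t0) / -γ) =
          (Real.exp (Real.log (f x) + γ * x) * Real.exp (-γ * t0)) / γ := by
        rw [neg_div_neg_eq]
        ring
      rw [h4, h3]
    have h5 := OneA1_split hf ht0nn
    have h6 := OneA1_first hf ht0nn
    have h7 : 1 ≤ t0 + 1 / γ := by linarith
    have h8 : t0 + 1 / γ = x + (1 - c * x) / γ := by
      rw [ht0]
      ring
    rw [h8] at h7
    rcases le_or_gt 1 (c * x) with h9 | h9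
    · have : (1 - c * x) / γ ≤ 0 := div_nonpos_of_nonpos_of_nonneg (by linarith) hγ0.le
      linarith
    · have h10 : (1 - c * x) / γ ≤ (1 - c * x) / c :=
        div_le_div_of_nonneg_left (by linarith) (by linarith) hγ
      have h11 : x + (1 - c * x) / c = 1 / c := by
        field_simp
        ring
      have h12 : 1 / c < 1 := by
        rw [div_lt_one (by linarith)]
        exact hc1
      linarith
  · have hz : ∀ u ∈ Ioi x, f u = 0 := by
      intro u hu
      have h2 := hf.nonneg u (hx0.le.trans (le_of_lt hu))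
      by_contra h3
      exact hex ⟨u, hu, lt_of_le_of_ne h2 (Ne.symm h3)⟩
    have h4 := OneA1_split hf hx0.le
    have h5 := OneA1_first hf hx0.le
    have h6 : ∫ t in Ioi x, f t = 0 := by
      rw [setIntegral_congr_fun measurableSet_Ioi hz]
      simp
    linarith

theorem Dens.mass_eq {f : ℝ → ℝ} (hf : Dens f) :
    ∫ t in (0 : ℝ)..1, (1 - f t) = ∫ t in Ioi (1 : ℝ), f t := by
  have h1 := OneA1_split hf zero_le_one
  have h2 : IntervalIntegrable f volume 0 1 := by
    rw [intervalIntegrable_iff_integrableOn_Ioc_of_le zero_le_one]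
    exact hf.integrableOn_Ioi.mono_set Ioc_subset_Ioi_self
  rw [intervalIntegral.integral_sub intervalIntegrable_const h2,
    intervalIntegral.integral_of_le zero_le_one (f := f)]
  simp only [intervalIntegral.integral_const, sub_zero, smul_eq_mul, mul_one]
  linarith

/-- the elementary inequality -/
theorem OneA1_elem {c s t : ℝ} (hc0 : 0 ≤ c) (hc1 : c ≤ 1) (hs : 0 < s) (hst : s ≤ t) :
    (1 - Real.exp (-(c * s))) * (1 - Real.exp (-t)) ≤
      (1 - Real.exp (-(c * t))) * (1 - Real.exp (-s)) := by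
  obtain ⟨l, hl⟩ : ∃ l : ℝ, l = t / s := ⟨_, rfl⟩
  have hl1 : 1 ≤ l := by rw [hl, le_div_iff₀ hs]; linarith
  have hls : l * s = t := by rw [hl]; field_simp
  obtain ⟨p, hp⟩ : ∃ p : ℝ, p = Real.exp (-s) := ⟨_, rfl⟩
  obtain ⟨q, hq⟩ : ∃ q : ℝ, q = Real.exp (-(c * s)) := ⟨_, rfl⟩
  have hp0 : 0 < p := by rw [hp]; exact Real.exp_pos _
  have hp1 : p < 1 := by rw [hp, Real.exp_lt_one_iff]; linarith
  have hq1 : q ≤ 1 := by rw [hq, Real.exp_le_one_iff]; nlinarith
  have hpq : p ≤ q := by rw [hp, hq, Real.exp_le_exp]; nlinarith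
  have hpl : p ^ l = Real.exp (-t) := by
    rw [hp, ← Real.exp_mul]
    congr 1
    linarith
  have hql : q ^ l = Real.exp (-(c * t)) := by
    rw [hq, ← Real.exp_mul, ← hls]
    congr 1
    ring
  rw [← hp, ← hq, ← hpl, ← hql]
  -- q = (1 - θ) p + θ
  obtain ⟨w, hw⟩ : ∃ w : ℝ, w = (1 - q) / (1 - p) := ⟨_, rfl⟩
  have h1p : 0 < 1 - p := by linarith
  have hw0 : 0 ≤ w := by rw [hw]; exact div_nonneg (by linarith) h1p.le
  have hw1 : w ≤ 1 := by rw [hw, div_le_one h1p]; linarith
  have hwq : 1 - q = w * (1 - p) := by rw [hw]; field_simp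
  have hconv := (convexOn_rpow hl1).2 (mem_Ici.mpr hp0.le) (mem_Ici.mpr zero_le_one) hw0
    (by linarith : 0 ≤ 1 - w) (by ring)
  simp only [smul_eq_mul, Real.one_rpow, mul_one] at hconv
  have hq' : w * p + (1 - w) = q := by linarith
  rw [hq'] at hconv
  rw [hwq]
  have h2 : w * (1 - p ^ l) ≤ 1 - q ^ l := by linarith
  have h3 := mul_le_mul_of_nonneg_right h2 h1p.le
  linarith

theorem Dens.ratio {f : ℝ → ℝ} (hf : Dens f) {s t : ℝ} (hs : 0 < s) (hst : s ≤ t) (ht : t < 1) :
    (1 - f s) * (1 - Real.exp (-t)) ≤ (1 - f t) * (1 - Real.exp (-s)) := by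
  have ht0 : 0 < t := hs.trans_le hst
  have h1 := hf.exp_neg_le ht0.le ht
  have h2 := hf.le_one ht0.le
  have hft : 0 < f t := (Real.exp_pos _).trans_le h1
  obtain ⟨c, hc⟩ : ∃ c : ℝ, c = - Real.log (f t) / t := ⟨_, rfl⟩
  have hct : c * t = - Real.log (f t) := by rw [hc]; field_simp
  have hc0 : 0 ≤ c := by
    rw [hc]
    exact div_nonneg (neg_nonneg.mpr (Real.log_nonpos hft.le h2)) ht0.le
  have hc1 : c ≤ 1 := by
    rw [hc, div_le_one ht0]
    have := (Real.le_log_iff_exp_le hft).mpr h1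
    linarith
  have h3 : Real.exp (-(c * t)) = f t := by rw [hct, neg_neg, Real.exp_log hft]
  have h4 : Real.exp (-(c * s)) ≤ f s := by
    refine le_trans (le_of_eq ?_) (hf.rpow_le hs hst)
    rw [Real.rpow_def_of_pos hft]
    congr 1
    rw [hc]
    field_simp
  have h5 := OneA1_elem hc0 hc1 hs hst
  rw [h3] at h5
  refine le_trans (mul_le_mul_of_nonneg_right ?_ ?_) h5
  · linarith
  · have : Real.exp (-t) ≤ 1 := by rw [Real.exp_le_one_iff]; linarith
    linarith

theorem Dens.le_exp_two {f : ℝ → ℝ} (hf : Dens f) {t : ℝ} (ht : 1 < t) :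
    f t ≤ Real.exp (-2 * ∫ s in (0 : ℝ)..1, (1 - f s)) := by
  have ht0 : 0 < t := by linarith
  rcases (hf.nonneg t ht0.le).eq_or_lt with h0 | h0
  · rw [← h0]
    exact (Real.exp_pos _).le
  have hint : IntervalIntegrable f volume 0 1 := by
    rw [intervalIntegrable_iff_integrableOn_Ioc_of_le zero_le_one]
    exact hf.integrableOn_Ioi.mono_set Ioc_subset_Ioi_self
  have hl : Real.log (f t) ≤ 0 := Real.log_nonpos h0.le (hf.le_one ht0.le)
  have hb : ∀ s ∈ Icc (0 : ℝ) 1, 1 - f s ≤ (-Real.log (f t)) * s := by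
    intro s hs
    rcases hs.1.eq_or_lt with hs0 | hs0
    · rw [← hs0, hf.zero]
      simp
    · have h1 := hf.rpow_le hs0 (hs.2.trans ht.le)
      rw [Real.rpow_def_of_pos h0] at h1
      have h2 := Real.add_one_le_exp (Real.log (f t) * (s / t))
      have h3 : Real.log (f t) * s ≤ Real.log (f t) * (s / t) := by
        apply mul_le_mul_of_nonpos_left _ hl
        exact div_le_self hs0.le ht.le
      linarith
  have h1 : ∫ s in (0 : ℝ)..1, (1 - f s) ≤ ∫ s in (0 : ℝ)..1, (-Real.log (f t)) * s := by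
    refine intervalIntegral.integral_mono_on zero_le_one
      (intervalIntegrable_const.sub hint) ?_ hb
    apply Continuous.intervalIntegrable
    fun_prop
  rw [intervalIntegral.integral_const_mul, integral_id] at h1
  rw [← Real.log_le_iff_le_exp h0]
  norm_num at h1
  linarith

end Vale.Agent.P254U
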