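import Vale.Agent.Lib.P254U.OneA1

/-!
P254U/OneA2: Chebyshev inequality against the measure `(1 - e^{-t}) dt` on `[0,1]` (total mass `1/e`).
`R t = (1 - f t)/(1 - e^{-t})` is nondecreasing on `(0,1)` (`Dens.ratio`), `w` nonincreasing:
`∬ (w s - w t)(R s - R t) (1 - e^{-s})(1 - e^{-t}) ds dt ≤ 0`.
-/

open MeasureTheory Set

namespace Vale.Agent.P254U

theorem oneA2_int_f {f : ℝ → ℝ} (hf : Dens f) : IntervalIntegrable f volume 0 1 := by
  apply AntitoneOn.intervalIntegrable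
  rw [uIcc_of_le zero_le_one]
  exact hf.anti.mono Icc_subset_Ici_self

theorem oneA2_int_a {f : ℝ → ℝ} (hf : Dens f) :
    IntervalIntegrable (fun t => 1 - f t) volume 0 1 :=
  intervalIntegrable_const.sub (oneA2_int_f hf)

theorem oneA2_int_b : IntervalIntegrable (fun t : ℝ => 1 - Real.exp (-t)) volume 0 1 := by
  apply Continuous.intervalIntegrable
  fun_prop

theorem oneA2_mass_b : ∫ t in (0 : ℝ)..1, (1 - Real.exp (-t)) = Real.exp (-1) := by
  have hderiv : ∀ x ∈ uIcc (0 : ℝ) 1,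
      HasDerivAt (fun x : ℝ => x + Real.exp (-x)) (1 - Real.exp (-x)) x := by
    intro x _
    have h1 : HasDerivAt (fun x : ℝ => Real.exp (-x)) (Real.exp (-x) * (-1)) x :=
      (hasDerivAt_neg x).exp
    have h2 : HasDerivAt (fun x : ℝ => x + Real.exp (-x)) (1 + Real.exp (-x) * (-1)) x :=
      (hasDerivAt_id x).add h1
    have e : 1 + Real.exp (-x) * (-1) = 1 - Real.exp (-x) := by ring
    rw [e] at h2
    exact h2
  rw [intervalIntegral.integral_eq_sub_of_hasDerivAt hderiv oneA2_int_b]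
  simp

theorem oneA2_mul_int {w g : ℝ → ℝ} (hw : AntitoneOn w (Icc 0 1))
    (hw0 : ∀ t ∈ Icc (0 : ℝ) 1, 0 ≤ w t) (hg : IntervalIntegrable g volume 0 1) :
    IntervalIntegrable (fun t => w t * g t) volume 0 1 := by
  have hwi : IntervalIntegrable w volume 0 1 := by
    apply AntitoneOn.intervalIntegrable
    rw [uIcc_of_le zero_le_one]
    exact hw
  rw [intervalIntegrable_iff_integrableOn_Ioc_of_le zero_le_one] at hg hwi ⊢
  refine Integrable.bdd_mul (c := w 0) hg hwi.aestronglyMeasurable ?_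
  rw [ae_restrict_iff' measurableSet_Ioc]
  refine Filter.Eventually.of_forall ?_
  intro t ht
  have ht' : t ∈ Icc (0 : ℝ) 1 := ⟨ht.1.le, ht.2⟩
  rw [Real.norm_of_nonneg (hw0 t ht')]
  exact hw (left_mem_Icc.2 zero_le_one) ht' ht.1.le

theorem mass_le {f : ℝ → ℝ} (hf : Dens f) :
    0 ≤ ∫ t in (0 : ℝ)..1, (1 - f t) ∧ ∫ t in (0 : ℝ)..1, (1 - f t) ≤ Real.exp (-1) := by
  constructor
  · apply intervalIntegral.integral_nonneg zero_le_one
    intro t ht
    have := hf.le_one ht.1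
    linarith
  · rw [← oneA2_mass_b]
    apply intervalIntegral.integral_mono_on_of_le_Ioo zero_le_one (oneA2_int_a hf) oneA2_int_b
    intro t ht
    have := hf.exp_neg_le ht.1.le ht.2
    linarith

theorem cheb {f w : ℝ → ℝ} (hf : Dens f) (hw : AntitoneOn w (Icc 0 1))
    (hw0 : ∀ t ∈ Icc (0 : ℝ) 1, 0 ≤ w t) :
    ∫ t in (0 : ℝ)..1, w t * (1 - f t) ≤
      Real.exp 1 * (∫ t in (0 : ℝ)..1, w t * (1 - Real.exp (-t))) *
        ∫ t in (0 : ℝ)..1, (1 - f t) := by
  set A : ℝ := ∫ t in (0 : ℝ)..1, (1 - f t) with hA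
  set B : ℝ := Real.exp (-1) with hB
  have hBpos : 0 < B := Real.exp_pos _
  have hA0 : 0 ≤ A := (mass_le hf).1
  set h : ℝ → ℝ := fun t => (1 - f t) * B - (1 - Real.exp (-t)) * A with hh
  have hbpos : ∀ t : ℝ, 0 < t → 0 < 1 - Real.exp (-t) := by
    intro t ht
    have : Real.exp (-t) < 1 := by
      rw [Real.exp_lt_one_iff]
      linarith
    linarith
  have hint1 := (oneA2_int_a hf).mul_const B
  have hint2 := oneA2_int_b.mul_const A
  have hinth : IntervalIntegrable h volume 0 1 := hint1.sub hint2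
  have hh0 : ∫ t in (0 : ℝ)..1, h t = 0 := by
    have e := intervalIntegral.integral_sub hint1 hint2
    rw [intervalIntegral.integral_mul_const, intervalIntegral.integral_mul_const,
      oneA2_mass_b] at e
    show ∫ t in (0 : ℝ)..1, ((1 - f t) * B - (1 - Real.exp (-t)) * A) = 0
    rw [e, ← hA, ← hB]
    ring
  set S : Set ℝ := {t | t ∈ Ioo (0 : ℝ) 1 ∧ h t < 0} with hS
  set t0 : ℝ := sSup S with ht0
  have hbdd : BddAbove S := ⟨1, fun t ht => ht.1.2.le⟩
  have ht0nn : 0 ≤ t0 := Real.sSup_nonneg (fun t ht => ht.1.1.le)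
  have ht01 : t0 ≤ 1 := Real.sSup_le (fun t ht => ht.1.2.le) zero_le_one
  have hlow : ∀ t ∈ Ioo (0 : ℝ) 1, t < t0 → h t ≤ 0 := by
    intro t ht htt
    have hne : S.Nonempty := by
      by_contra hcon
      rw [Set.not_nonempty_iff_eq_empty] at hcon
      rw [ht0, hcon, Real.sSup_empty] at htt
      exact absurd htt (not_lt.2 ht.1.le)
    obtain ⟨s, hsS, hts⟩ := exists_lt_of_lt_csSup hne htt
    have hr := hf.ratio ht.1 hts.le hsS.1.2
    have hs2 : (1 - f s) * B < (1 - Real.exp (-s)) * A := by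
      have := hsS.2
      simp only [hh] at this
      linarith
    have hbs := hbpos s hsS.1.1
    have hbt := hbpos t ht.1
    have h3 : ((1 - f t) * B - (1 - Real.exp (-t)) * A) * (1 - Real.exp (-s)) ≤ 0 := by
      nlinarith
    by_contra hcon
    push Not at hcon
    have : 0 < ((1 - f t) * B - (1 - Real.exp (-t)) * A) * (1 - Real.exp (-s)) :=
      mul_pos hcon hbs
    linarith
  have hhigh : ∀ t ∈ Ioo (0 : ℝ) 1, t0 < t → 0 ≤ h t := by
    intro t ht htt
    by_contra hcon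
    push Not at hcon
    have : t ≤ t0 := le_csSup hbdd ⟨ht, hcon⟩
    linarith
  have hwt0 : t0 ∈ Icc (0 : ℝ) 1 := ⟨ht0nn, ht01⟩
  have hpt : ∀ t ∈ Ioo (0 : ℝ) 1, w t * h t ≤ w t0 * h t := by
    intro t ht
    have ht' : t ∈ Icc (0 : ℝ) 1 := ⟨ht.1.le, ht.2.le⟩
    rcases lt_trichotomy t t0 with hlt | heq | hgt
    · have h1 := hlow t ht hlt
      have h2 := hw ht' hwt0 hlt.le
      nlinarith
    · rw [heq]
    · have h1 := hhigh t ht hgt
      have h2 := hw hwt0 ht' hgt.le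
      nlinarith
  have hmain : ∫ t in (0 : ℝ)..1, w t * h t ≤ ∫ t in (0 : ℝ)..1, w t0 * h t :=
    intervalIntegral.integral_mono_on_of_le_Ioo zero_le_one (oneA2_mul_int hw hw0 hinth)
      (hinth.const_mul _) hpt
  rw [intervalIntegral.integral_const_mul, hh0, mul_zero] at hmain
  have hi1 := (oneA2_mul_int hw hw0 (oneA2_int_a hf)).mul_const B
  have hi2 := (oneA2_mul_int hw hw0 oneA2_int_b).mul_const A
  have e2 : ∫ t in (0 : ℝ)..1, w t * h t =
      (∫ t in (0 : ℝ)..1, w t * (1 - f t)) * B -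
        (∫ t in (0 : ℝ)..1, w t * (1 - Real.exp (-t))) * A := by
    rw [← intervalIntegral.integral_mul_const, ← intervalIntegral.integral_mul_const,
      ← intervalIntegral.integral_sub hi1 hi2]
    apply intervalIntegral.integral_congr
    intro t _
    simp only [hh]
    ring
  rw [e2] at hmain
  have hee : Real.exp 1 * B = 1 := by
    rw [hB, ← Real.exp_add]
    simp
  have he1 : 0 < Real.exp 1 := Real.exp_pos 1
  have h5 : Real.exp 1 * ((∫ t in (0 : ℝ)..1, w t * (1 - f t)) * B) ≤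
      Real.exp 1 * ((∫ t in (0 : ℝ)..1, w t * (1 - Real.exp (-t))) * A) :=
    mul_le_mul_of_nonneg_left (by linarith) he1.le
  calc ∫ t in (0 : ℝ)..1, w t * (1 - f t)
      = Real.exp 1 * ((∫ t in (0 : ℝ)..1, w t * (1 - f t)) * B) := by
        rw [mul_comm (∫ t in (0 : ℝ)..1, w t * (1 - f t)) B, ← mul_assoc, hee, one_mul]
    _ ≤ Real.exp 1 * ((∫ t in (0 : ℝ)..1, w t * (1 - Real.exp (-t))) * A) := h5
    _ = Real.exp 1 * (∫ t in (0 : ℝ)..1, w t * (1 - Real.exp (-t))) * A := by ring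

end Vale.Agent.P254U
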