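import Vale.Agent.Lib.P262F.PL1
import Vale.Agent.Lib.P254U.Basic

/-!
P254U/PLG: the Prekopa-Leindler inequality for Lebesgue measure on `Fin n → ℝ` with general weights.
Copy of `pl_pi` in `Vale/Agent/Lib/P347/PLn.lean` with `l` instead of `1/2`
(`Vale.Agent.P262F.pl_one` has general weights).
-/

open MeasureTheory Set
open scoped ENNReal

namespace Vale.Agent.P254U

private theorem plg_measurable_cons (n : ℕ) :
    Measurable (fun z : ℝ × (Fin n → ℝ) => (Fin.cons z.1 z.2 : Fin (n + 1) → ℝ)) := by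
  refine measurable_pi_lambda _ fun i => ?_
  refine Fin.cases ?_ (fun i => ?_) i
  · simp only [Fin.cons_zero]
    exact measurable_fst
  · simp only [Fin.cons_succ]
    exact (measurable_pi_apply i).comp measurable_snd

private theorem plg_symm_cons (n : ℕ) (z : ℝ × (Fin n → ℝ)) :
    (MeasurableEquiv.piFinSuccAbove (fun _ : Fin (n + 1) => ℝ) 0).symm z =
      (Fin.cons z.1 z.2 : Fin (n + 1) → ℝ) := by
  funext i
  refine Fin.cases ?_ (fun i => ?_) i
  · rfl
  · rfl

theorem plg_lintegral_succ (n : ℕ) {f : (Fin (n + 1) → ℝ) → ℝ≥0∞} (hf : Measurable f) :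
    ∫⁻ x, f x = ∫⁻ a : ℝ, ∫⁻ b : Fin n → ℝ, f (Fin.cons a b) := by
  have hmp := (volume_preserving_piFinSuccAbove (n := n) (fun _ : Fin (n + 1) => ℝ) 0).symm
  have h1 := hmp.lintegral_comp hf
  rw [← h1]
  have h2 : Measurable (fun z : ℝ × (Fin n → ℝ) => f (Fin.cons z.1 z.2)) :=
    hf.comp (plg_measurable_cons n)
  simp only [plg_symm_cons]
  exact lintegral_prod (μ := (volume : Measure ℝ)) (ν := (volume : Measure (Fin n → ℝ)))
    (fun z : ℝ × (Fin n → ℝ) => f (Fin.cons z.1 z.2)) h2.aemeasurable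

theorem pl_gen (n : ℕ) {f g h : (Fin n → ℝ) → ℝ≥0∞} (hf : Measurable f) (hg : Measurable g)
    (hh : Measurable h) {l : ℝ} (h0 : 0 < l) (h1 : l < 1)
    (H : ∀ x y, f x ^ (1 - l) * g y ^ l ≤ h ((1 - l) • x + l • y)) :
    (∫⁻ x, f x) ^ (1 - l) * (∫⁻ x, g x) ^ l ≤ ∫⁻ x, h x := by
  induction n with
  | zero =>
    have e : (volume : Measure (Fin 0 → ℝ)) = Measure.dirac 0 := by
      rw [volume_pi, Measure.pi_of_empty]
      congr 1
      exact Subsingleton.elim _ _
    rw [e, lintegral_dirac' _ hf, lintegral_dirac' _ hg, lintegral_dirac' _ hh]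
    refine (H 0 0).trans (le_of_eq ?_)
    congr 1
    exact Subsingleton.elim _ _
  | succ n ih =>
    rw [plg_lintegral_succ n hf, plg_lintegral_succ n hg, plg_lintegral_succ n hh]
    have hfm : Measurable fun a => ∫⁻ b, f (Fin.cons a b) :=
      (hf.comp (plg_measurable_cons n)).lintegral_prod_right'
    have hgm : Measurable fun a => ∫⁻ b, g (Fin.cons a b) :=
      (hg.comp (plg_measurable_cons n)).lintegral_prod_right'
    have hhm : Measurable fun a => ∫⁻ b, h (Fin.cons a b) :=
      (hh.comp (plg_measurable_cons n)).lintegral_prod_right'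
    have key := Vale.Agent.P262F.pl_one hfm hgm hhm (l := l) h0 h1
    refine key fun a a' => ?_
    refine ih ((hf.comp (plg_measurable_cons n)).comp measurable_prodMk_left)
      ((hg.comp (plg_measurable_cons n)).comp measurable_prodMk_left)
      ((hh.comp (plg_measurable_cons n)).comp measurable_prodMk_left) fun x y => ?_
    refine (H _ _).trans (le_of_eq ?_)
    have e : (1 - l) • (Fin.cons a x : Fin (n + 1) → ℝ)
          + l • (Fin.cons a' y : Fin (n + 1) → ℝ) =
        Fin.cons ((1 - l) * a + l * a') ((1 - l) • x + l • y) := by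
      funext i
      refine Fin.cases ?_ (fun i => ?_) i
      · rfl
      · rfl
    change h ((1 - l) • (Fin.cons a x : Fin (n + 1) → ℝ) +
      l • (Fin.cons a' y : Fin (n + 1) → ℝ)) = _
    rw [e]

end Vale.Agent.P254U
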