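import Vale.Agent.Lib.P254U.PLG
import Vale.Agent.Lib.P254U.CV
import Vale.Agent.Lib.P254U.LogInt

/-!
P254U/PLT: the tilted Prekopa-Leindler inequality.

Proof.  Put `b i = a θ i`, `β = 1 + b`, `β' = 1 - b`, `m = (t+s)/2`,
`c i = ((β i)^(β i) * (β' i)^(β' i))^(-1/2)`.
`f1 v = exp(∑ v) * 1[(exp(v i/β i)) ∈ slice K t]`, `f2 v = exp(∑ v) * 1[(exp(v i/β' i)) ∈ slice K s]`,
`h v = exp(∑ v) * 1[(c i * exp (v i)) ∈ slice K m]`.
If `x = exp(v/β) ∈ slice K t`, `y = exp(v'/β') ∈ slice K s` then `z = (x+y)/2 ∈ slice K m` and by the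
weighted AM-GM inequality (weights `β i/2`, `β' i/2`)
`z i = (β i/2) * (x i/β i) + (β' i/2) * (y i/β' i) ≥ (x i/β i)^(β i/2) * (y i/β' i)^(β' i/2)
     = c i * exp ((v i + v' i)/2)`, so `(c i * exp((v i+v' i)/2))_i ∈ slice K m` (down closed).
`pl_gen` with `l = 1/2` gives `(∫ f1) (∫ f2) ≤ (∫ h)^2`.  By `cv`,
`∫ f1 = ∏ β i * ∫_{slice K t} exp (a * LL θ x)` (as `∏ x i^(b i) = exp (a LL θ x)`), same for `f2`
with `-a`, and `∫ h = ∏ (c i)⁻¹ * vol (slice K m)` by `cv_scaled`.
Finally `∏ (c i)^(-2) / ∏ (β i β' i) = ∏ (1+b)^b (1-b)^(-b)`.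
-/

open MeasureTheory Set
open scoped ENNReal

namespace Vale.Agent.P254U

variable {n : ℕ}

/-- weighted AM-GM for one coordinate -/
private theorem PLT_amgm {b x y : ℝ} (hb : |b| < 1) :
    Real.exp (-((1 + b) * Real.log (1 + b) + (1 - b) * Real.log (1 - b)) / 2) *
        Real.exp ((1 - 1 / 2) * x + 1 / 2 * y) ≤
      1 / 2 * Real.exp (x / (1 + b)) + 1 / 2 * Real.exp (y / (1 - b)) := by
  have hb' := abs_lt.1 hb
  have h1 : 0 < 1 + b := by linarith
  have h2 : 0 < 1 - b := by linarith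
  have h3 := Real.geom_mean_le_arith_mean2_weighted (w₁ := (1 + b) / 2) (w₂ := (1 - b) / 2)
    (p₁ := Real.exp (x / (1 + b)) / (1 + b)) (p₂ := Real.exp (y / (1 - b)) / (1 - b))
    (by linarith) (by linarith) (by positivity) (by positivity) (by ring)
  have e1 : (Real.exp (x / (1 + b)) / (1 + b)) ^ ((1 + b) / 2) =
      Real.exp (x / 2 - (1 + b) * Real.log (1 + b) / 2) := by
    rw [Real.rpow_def_of_pos (by positivity), Real.log_div (Real.exp_pos _).ne' h1.ne',
      Real.log_exp]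
    congr 1
    field_simp
  have e2 : (Real.exp (y / (1 - b)) / (1 - b)) ^ ((1 - b) / 2) =
      Real.exp (y / 2 - (1 - b) * Real.log (1 - b) / 2) := by
    rw [Real.rpow_def_of_pos (by positivity), Real.log_div (Real.exp_pos _).ne' h2.ne',
      Real.log_exp]
    congr 1
    field_simp
  rw [e1, e2, ← Real.exp_add] at h3
  rw [← Real.exp_add]
  have e3 : (1 + b) / 2 * (Real.exp (x / (1 + b)) / (1 + b)) = 1 / 2 * Real.exp (x / (1 + b)) := by
    field_simp
  have e4 : (1 - b) / 2 * (Real.exp (y / (1 - b)) / (1 - b)) = 1 / 2 * Real.exp (y / (1 - b)) := by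
    field_simp
  rw [e3, e4] at h3
  refine le_trans (le_of_eq ?_) h3
  congr 1
  ring

/-- convexity in the slices -/
private theorem PLT_mid {K : Set (Fin (n + 1) → ℝ)} (h : Corner (n + 1) K) {t s : ℝ}
    (ht : 0 ≤ t) (hs : 0 ≤ s) {x y z : Fin n → ℝ} (hx : x ∈ slice K t) (hy : y ∈ slice K s)
    (hz0 : ∀ i, 0 ≤ z i) (hz : ∀ i, z i ≤ 1 / 2 * x i + 1 / 2 * y i) :
    z ∈ slice K ((t + s) / 2) := by
  have h1 := h.convex hx hy (by norm_num : (0 : ℝ) ≤ 1 / 2) (by norm_num : (0 : ℝ) ≤ 1 / 2)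
    (by norm_num)
  refine h.down _ h1 _ (fun i => ?_) (fun i => ?_)
  · refine Fin.cases ?_ (fun j => ?_) i
    · rw [Fin.cons_zero]
      linarith
    · rw [Fin.cons_succ]
      exact hz0 j
  · refine Fin.cases ?_ (fun j => ?_) i
    · simp only [Fin.cons_zero, Pi.add_apply, Pi.smul_apply, smul_eq_mul]
      linarith
    · simp only [Fin.cons_succ, Pi.add_apply, Pi.smul_apply, smul_eq_mul]
      exact hz j

private theorem PLT_measP : MeasurableSet {x : Fin n → ℝ | ∀ i, 0 < x i} := by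
  have : {x : Fin n → ℝ | ∀ i, 0 < x i} = ⋂ i, {x | 0 < x i} := by
    ext x
    simp
  rw [this]
  exact MeasurableSet.iInter fun i => measurableSet_lt measurable_const (measurable_pi_apply i)

/-- the boundary of the orthant is a null set -/
private theorem PLT_ae {A : Set (Fin n → ℝ)} (hA : Corner n A) :
    A =ᵐ[volume] (A ∩ {x : Fin n → ℝ | ∀ i, 0 < x i} : Set (Fin n → ℝ)) := by
  have h1 : ∀ i : Fin n, volume {x : Fin n → ℝ | x i = 0} = 0 := by
    intro i
    exact Measure.pi_hyperplane (fun _ : Fin n => (volume : Measure ℝ)) i 0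
  have h2 : volume (⋃ i : Fin n, {x : Fin n → ℝ | x i = 0}) = 0 :=
    measure_iUnion_null h1
  have h3 : ∀ᵐ x : Fin n → ℝ, x ∉ ⋃ i : Fin n, {x : Fin n → ℝ | x i = 0} :=
    measure_eq_zero_iff_ae_notMem.1 h2
  filter_upwards [h3] with x hx
  apply propext
  constructor
  · intro hxA
    refine ⟨hxA, fun i => lt_of_le_of_ne (hA.nonneg x hxA i) fun h0 => hx ?_⟩
    exact mem_iUnion.2 ⟨i, h0.symm⟩
  · intro hxA
    exact hxA.1

private theorem PLT_int {A : Set (Fin n → ℝ)} (hA : Corner n A) (θ : Fin n → ℝ) (a : ℝ) :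
    ∫⁻ x in {x : Fin n → ℝ | ∀ i, 0 < x i},
        A.indicator 1 x * ENNReal.ofReal (∏ i, x i ^ ((1 + a * θ i) - 1)) =
      ∫⁻ x in A, ENNReal.ofReal (Real.exp (a * LL θ x)) := by
  have h1 : ∫⁻ x in {x : Fin n → ℝ | ∀ i, 0 < x i},
        A.indicator 1 x * ENNReal.ofReal (∏ i, x i ^ ((1 + a * θ i) - 1)) =
      ∫⁻ x in {x : Fin n → ℝ | ∀ i, 0 < x i},
        A.indicator (fun x => ENNReal.ofReal (Real.exp (a * LL θ x))) x := by
    refine setLIntegral_congr_fun PLT_measP fun x hx => ?_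
    by_cases hxA : x ∈ A
    · simp only [indicator_of_mem hxA, Pi.one_apply, one_mul]
      congr 1
      unfold LL
      rw [Finset.mul_sum, Real.exp_sum]
      refine Finset.prod_congr rfl fun i _ => ?_
      rw [Real.rpow_def_of_pos (hx i)]
      congr 1
      ring
    · simp only [indicator_of_notMem hxA, zero_mul]
  rw [h1, setLIntegral_indicator hA.measurableSet]
  exact (setLIntegral_congr (PLT_ae hA)).symm

theorem pl_tilt {K : Set (Fin (n + 1) → ℝ)} (h : Corner (n + 1) K) {t s : ℝ}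
    (ht : t ∈ Ico (0 : ℝ) (top K)) (hs : s ∈ Ico (0 : ℝ) (top K)) (θ : Fin n → ℝ) {a : ℝ}
    (ha : ∀ i, |a * θ i| < 1) :
    (∫ x in slice K t, Real.exp (a * LL θ x)) * (∫ x in slice K s, Real.exp (-a * LL θ x)) ≤
      vol (slice K ((t + s) / 2)) ^ 2 *
        Real.exp (∑ i, a * θ i * (Real.log (1 + a * θ i) - Real.log (1 - a * θ i))) := by
  have hA1 : Corner n (slice K t) := slice_corner h ht.1 ht.2
  have hA2 : Corner n (slice K s) := slice_corner h hs.1 hs.2
  have hA3 : Corner n (slice K ((t + s) / 2)) :=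
    slice_corner h (by linarith [ht.1, hs.1]) (by linarith [ht.2, hs.2])
  have hb1 : ∀ i, 0 < 1 + a * θ i := fun i => by linarith [(abs_lt.1 (ha i)).1]
  have hb2 : ∀ i, 0 < 1 - a * θ i := fun i => by linarith [(abs_lt.1 (ha i)).2]
  have hb2' : ∀ i, 0 < 1 + (-a) * θ i := fun i => by linarith [(abs_lt.1 (ha i)).2]
  have e2' : ∀ i, 1 + (-a) * θ i = 1 - a * θ i := fun i => by ring
  set c : Fin n → ℝ := fun i => Real.exp (-((1 + a * θ i) * Real.log (1 + a * θ i) +
    (1 - a * θ i) * Real.log (1 - a * θ i)) / 2) with hc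
  have hcpos : ∀ i, 0 < c i := fun i => Real.exp_pos _
  have m1 : Measurable ((slice K t).indicator (1 : (Fin n → ℝ) → ℝ≥0∞)) :=
    measurable_one.indicator hA1.measurableSet
  have m2 : Measurable ((slice K s).indicator (1 : (Fin n → ℝ) → ℝ≥0∞)) :=
    measurable_one.indicator hA2.measurableSet
  have m3 : Measurable ((slice K ((t + s) / 2)).indicator (1 : (Fin n → ℝ) → ℝ≥0∞)) :=
    measurable_one.indicator hA3.measurableSet
  have me : Measurable fun v : Fin n → ℝ => ENNReal.ofReal (Real.exp (∑ i, v i)) := by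
    fun_prop
  have PL := pl_gen n
    (f := fun v => (slice K t).indicator 1 (fun i => Real.exp (v i / (1 + a * θ i))) *
      ENNReal.ofReal (Real.exp (∑ i, v i)))
    (g := fun v => (slice K s).indicator 1 (fun i => Real.exp (v i / (1 + (-a) * θ i))) *
      ENNReal.ofReal (Real.exp (∑ i, v i)))
    (h := fun v => (slice K ((t + s) / 2)).indicator 1 (fun i => c i * Real.exp (v i)) *
      ENNReal.ofReal (Real.exp (∑ i, v i)))
    ((m1.comp (by fun_prop)).mul me) ((m2.comp (by fun_prop)).mul me)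
    ((m3.comp (by fun_prop)).mul me) (l := 1 / 2) (by norm_num) (by norm_num) ?_
  swap
  · intro x y
    by_cases hx : (fun i => Real.exp (x i / (1 + a * θ i))) ∈ slice K t
    · by_cases hy : (fun i => Real.exp (y i / (1 + (-a) * θ i))) ∈ slice K s
      · have hz : (fun i => c i * Real.exp (((1 - 1 / 2 : ℝ) • x + (1 / 2 : ℝ) • y) i)) ∈
            slice K ((t + s) / 2) := by
          refine PLT_mid h ht.1 hs.1 hx hy (fun i => by have := hcpos i; positivity) fun i => ?_
          have h1 := PLT_amgm (b := a * θ i) (x := x i) (y := y i) (ha i)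
          simp only [Pi.add_apply, Pi.smul_apply, smul_eq_mul]
          rw [e2' i]
          exact h1
        simp only [indicator_of_mem hx, indicator_of_mem hy, indicator_of_mem hz, Pi.one_apply,
          one_mul]
        rw [ENNReal.ofReal_rpow_of_pos (Real.exp_pos _), ENNReal.ofReal_rpow_of_pos (Real.exp_pos _),
          ← ENNReal.ofReal_mul (by positivity), ← Real.exp_mul, ← Real.exp_mul, ← Real.exp_add]
        refine le_of_eq ?_
        congr 2
        simp only [Pi.add_apply, Pi.smul_apply, smul_eq_mul]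
        rw [Finset.sum_add_distrib, ← Finset.mul_sum, ← Finset.mul_sum]
        ring
      · simp only [indicator_of_notMem hy, zero_mul]
        rw [ENNReal.zero_rpow_of_pos (by norm_num), mul_zero]
        exact zero_le
    · simp only [indicator_of_notMem hx, zero_mul]
      rw [ENNReal.zero_rpow_of_pos (by norm_num), zero_mul]
      exact zero_le
  have c1 := cv n (fun i => 1 + a * θ i) hb1 (φ := (slice K t).indicator 1) m1
  have c2 := cv n (fun i => 1 + (-a) * θ i) hb2' (φ := (slice K s).indicator 1) m2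
  have c3 := cv_scaled n c hcpos hA3.measurableSet hA3.nonneg
  rw [PLT_int hA1 θ a] at c1
  rw [PLT_int hA2 θ (-a)] at c2
  rw [c1, c2, c3] at PL
  set I1 := ∫⁻ x in slice K t, ENNReal.ofReal (Real.exp (a * LL θ x)) with hI1
  set I2 := ∫⁻ x in slice K s, ENNReal.ofReal (Real.exp (-a * LL θ x)) with hI2
  have r1 : ∫ x in slice K t, Real.exp (a * LL θ x) = I1.toReal :=
    integral_eq_lintegral_of_nonneg_ae (Filter.Eventually.of_forall fun x => (Real.exp_pos _).le)
      (hA1.integrableOn_exp_LL θ ha).aestronglyMeasurable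
  have r2 : ∫ x in slice K s, Real.exp (-a * LL θ x) = I2.toReal :=
    integral_eq_lintegral_of_nonneg_ae (Filter.Eventually.of_forall fun x => (Real.exp_pos _).le)
      (hA2.integrableOn_exp_LL θ (a := -a) (fun i => by
        rw [neg_mul, abs_neg]
        exact ha i)).aestronglyMeasurable
  -- square the inequality
  have hsq : ∀ u v w : ℝ≥0∞, u ^ ((1 : ℝ) - 1 / 2) * v ^ ((1 : ℝ) / 2) ≤ w → u * v ≤ w ^ 2 := by
    intro u v w huv
    have h1 := pow_le_pow_left' huv 2
    rw [mul_pow, ← ENNReal.rpow_natCast, ← ENNReal.rpow_natCast, ← ENNReal.rpow_mul,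
      ← ENNReal.rpow_mul] at h1
    norm_num at h1
    exact h1
  have PL2 := hsq _ _ _ PL
  have hfin : (ENNReal.ofReal (∏ i, (c i)⁻¹) * volume (slice K ((t + s) / 2))) ^ 2 ≠ ⊤ :=
    ENNReal.pow_ne_top (ENNReal.mul_ne_top ENNReal.ofReal_ne_top hA3.volume_ne_top)
  have PL3 := ENNReal.toReal_mono hfin PL2
  have p1 : 0 < ∏ i, (1 + a * θ i) := Finset.prod_pos fun i _ => hb1 i
  have p2 : 0 < ∏ i, (1 + (-a) * θ i) := Finset.prod_pos fun i _ => hb2' i
  have p3 : 0 < ∏ i, (c i)⁻¹ := Finset.prod_pos fun i _ => inv_pos.2 (hcpos i)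
  rw [ENNReal.toReal_mul, ENNReal.toReal_mul, ENNReal.toReal_mul, ENNReal.toReal_pow,
    ENNReal.toReal_mul, ENNReal.toReal_ofReal p1.le, ENNReal.toReal_ofReal p2.le,
    ENNReal.toReal_ofReal p3.le] at PL3
  rw [r1, r2]
  have key : (∏ i, (c i)⁻¹) ^ 2 = (∏ i, (1 + a * θ i)) * (∏ i, (1 + (-a) * θ i)) *
      Real.exp (∑ i, a * θ i * (Real.log (1 + a * θ i) - Real.log (1 - a * θ i))) := by
    rw [Real.exp_sum, ← Finset.prod_pow, ← Finset.prod_mul_distrib, ← Finset.prod_mul_distrib]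
    refine Finset.prod_congr rfl fun i _ => ?_
    rw [e2' i]
    have q3 : (c i)⁻¹ ^ 2 = Real.exp ((1 + a * θ i) * Real.log (1 + a * θ i) +
        (1 - a * θ i) * Real.log (1 - a * θ i)) := by
      rw [hc]
      simp only
      rw [← Real.exp_neg, ← Real.exp_nat_mul]
      congr 1
      push_cast
      ring
    calc (c i)⁻¹ ^ 2 = Real.exp (Real.log (1 + a * θ i)) * Real.exp (Real.log (1 - a * θ i)) *
          Real.exp (a * θ i * (Real.log (1 + a * θ i) - Real.log (1 - a * θ i))) := by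
          rw [q3, ← Real.exp_add, ← Real.exp_add]
          congr 1
          ring
      _ = _ := by rw [Real.exp_log (hb1 i), Real.exp_log (hb2 i)]
  have hP : 0 < (∏ i, (1 + a * θ i)) * (∏ i, (1 + (-a) * θ i)) := mul_pos p1 p2
  refine le_of_mul_le_mul_left ?_ hP
  calc (∏ i, (1 + a * θ i)) * (∏ i, (1 + (-a) * θ i)) * (I1.toReal * I2.toReal)
      = (∏ i, (1 + a * θ i)) * I1.toReal * ((∏ i, (1 + (-a) * θ i)) * I2.toReal) := by ring
    _ ≤ ((∏ i, (c i)⁻¹) * (volume (slice K ((t + s) / 2))).toReal) ^ 2 := PL3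
    _ = _ := by
      rw [mul_pow, key]
      unfold vol
      ring

end Vale.Agent.P254U
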