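import Vale.Agent.Lib.P254U.SliceConv
import Vale.Agent.Lib.P254U.Gam
import Vale.Agent.Lib.P254U.BLin
import Vale.Agent.Lib.P254U.OneA

/-!
P254U/Scale: the one variable inequalities applied to the first marginal of a corner.

`F t = ff K (t / a) / a`, `a = ff K 0 > 0`, satisfies `Dens F` (`ff_anti`, `ff_four`, `SS_zero`), and
`∫ φ t * F t = ∫_0^H φ (a u) ff K u du` by the substitution `t = a u`.
Facts: `lm K 0 = ∫_0^H log u * ff K u`, `lm2 K 0 = ∫_0^H (log u)^2 ff K u`,
`mean K (x 0) = ∫_0^H u ff K u = RR K 0` (`integral_slices`, `RR_eq`).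
Then `oneA` becomes
`3/2 - X0 ≤ 2 a RR K 0 - lm K 0 - log a - (lm2 K 0 - (lm K 0)^2)/2` with `log a = - gg K 0`
(the inequality from `oneC2` is in `ScaleC`).
-/

open MeasureTheory Set

namespace Vale.Agent.P254U

variable {n : ℕ}

theorem scale_slice {K : Set (Fin (n + 1) → ℝ)} (g : ℝ → ℝ) (t : ℝ) :
    ∫ y in slice K t, g ((Fin.cons t y : Fin (n + 1) → ℝ) 0) = g t * vol (slice K t) := by
  simp only [Fin.cons_zero, MeasureTheory.setIntegral_const, smul_eq_mul]
  rw [mul_comm]
  rfl

theorem scale_mean {K : Set (Fin (n + 1) → ℝ)} (h : Corner (n + 1) K) (g : ℝ → ℝ)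
    (hg : IntegrableOn (fun x : Fin (n + 1) → ℝ => g (x 0)) K) :
    mean K (fun x => g (x 0)) = ∫ t in (0 : ℝ)..top K, g t * ff K t := by
  unfold mean
  rw [integral_slices h hg]
  simp only [scale_slice]
  rw [div_eq_mul_inv, ← intervalIntegral.integral_mul_const]
  refine intervalIntegral.integral_congr ?_
  intro t _
  simp only [ff]
  rw [div_eq_mul_inv, mul_assoc]

theorem scale_int {K : Set (Fin (n + 1) → ℝ)} (h : Corner (n + 1) K) (g : ℝ → ℝ)
    (hg : IntegrableOn (fun x : Fin (n + 1) → ℝ => g (x 0)) K) :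
    IntervalIntegrable (fun t => g t * ff K t) volume 0 (top K) := by
  have h1 := intervalIntegrable_slices h hg
  simp only [scale_slice] at h1
  have h2 := h1.mul_const (vol K)⁻¹
  have e : (fun t => g t * vol (slice K t) * (vol K)⁻¹) = fun t => g t * ff K t := by
    funext t
    simp only [ff]
    rw [div_eq_mul_inv, mul_assoc]
  rw [e] at h2
  exact h2

theorem scale_log {K : Set (Fin (n + 1) → ℝ)} (h : Corner (n + 1) K) :
    IntegrableOn (fun x : Fin (n + 1) → ℝ => Real.log (x 0)) K := by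
  have := h.integrableOn_log 0 1
  simpa using this

theorem lm_zero_eq {K : Set (Fin (n + 1) → ℝ)} (h : Corner (n + 1) K) :
    lm K 0 = ∫ t in (0 : ℝ)..top K, Real.log t * ff K t :=
  scale_mean h (fun t => Real.log t) (scale_log h)

theorem lm2_zero_eq {K : Set (Fin (n + 1) → ℝ)} (h : Corner (n + 1) K) :
    lm2 K 0 = ∫ t in (0 : ℝ)..top K, Real.log t ^ 2 * ff K t :=
  scale_mean h (fun t => Real.log t ^ 2) (h.integrableOn_log 0 2)

theorem scale_id {K : Set (Fin (n + 1) → ℝ)} (h : Corner (n + 1) K) :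
    IntegrableOn (fun x : Fin (n + 1) → ℝ => x 0) K :=
  (continuous_apply (0 : Fin (n + 1))).continuousOn.integrableOn_compact h.compact

theorem mean_zero_eq {K : Set (Fin (n + 1) → ℝ)} (h : Corner (n + 1) K) :
    mean K (fun x => x 0) = RR K 0 := by
  rw [RR_eq h le_rfl (top_pos h).le]
  simp only [sub_zero]
  exact scale_mean h (fun t => t) (scale_id h)

theorem scale_one {K : Set (Fin (n + 1) → ℝ)} (h : Corner (n + 1) K) :
    IntegrableOn (fun _ : Fin (n + 1) → ℝ => (1 : ℝ)) K :=
  continuous_const.continuousOn.integrableOn_compact h.compact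

theorem scale_ff_top {K : Set (Fin (n + 1) → ℝ)} (h : Corner (n + 1) K) {t : ℝ}
    (ht : top K < t) : ff K t = 0 := by
  unfold ff vol
  rw [slice_eq_empty h (Or.inr ht)]
  simp

theorem scale_ff_nonneg {K : Set (Fin (n + 1) → ℝ)} (t : ℝ) : 0 ≤ ff K t := by
  unfold ff vol
  positivity

theorem scale_sub {K : Set (Fin (n + 1) → ℝ)} (h : Corner (n + 1) K) (φ : ℝ → ℝ) {a : ℝ}
    (ha : 0 < a) : ∫ t in Ioi (0 : ℝ), φ t * (ff K (t / a) / a)
      = ∫ u in (0 : ℝ)..top K, φ (a * u) * ff K u := by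
  have h1 := MeasureTheory.integral_comp_mul_left_Ioi
    (fun t => φ t * (ff K (t / a) / a)) 0 ha
  rw [mul_zero] at h1
  have h2 : (∫ x in Ioi (0 : ℝ), φ (a * x) * (ff K (a * x / a) / a))
      = a⁻¹ * ∫ u in Ioi (0 : ℝ), φ (a * u) * ff K u := by
    rw [← MeasureTheory.integral_const_mul]
    refine MeasureTheory.integral_congr_ae (Filter.Eventually.of_forall ?_)
    intro x
    simp only
    rw [mul_div_cancel_left₀ x ha.ne']
    ring
  rw [h2, smul_eq_mul] at h1
  have h3 : ∫ u in Ioi (0 : ℝ), φ (a * u) * ff K u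
      = ∫ t in Ioi (0 : ℝ), φ t * (ff K (t / a) / a) := by
    have := congrArg (fun z => a * z) h1
    simp only [← mul_assoc, mul_inv_cancel₀ ha.ne', one_mul] at this
    exact this
  rw [← h3, intervalIntegral.integral_of_le (top_pos h).le]
  refine MeasureTheory.setIntegral_eq_of_subset_of_forall_sdiff_eq_zero measurableSet_Ioi
    Ioc_subset_Ioi_self ?_
  intro x hx
  have hx1 : 0 < x := hx.1
  have hx2 : top K < x := by
    by_contra hc
    exact hx.2 ⟨hx1, not_lt.mp hc⟩
  rw [scale_ff_top h hx2, mul_zero]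

theorem scale_mass {K : Set (Fin (n + 1) → ℝ)} (h : Corner (n + 1) K) :
    ∫ u in (0 : ℝ)..top K, ff K u = 1 := by
  have h1 := SS_zero h
  unfold SS at h1
  exact h1

theorem scale_dens {K : Set (Fin (n + 1) → ℝ)} (h : Corner (n + 1) K) :
    Dens (fun t => ff K (t / ff K 0) / ff K 0) := by
  have ha : 0 < ff K 0 := ff_pos h ⟨le_rfl, top_pos h⟩
  refine ⟨?_, ?_, ?_, ?_, ?_, ?_⟩
  · intro x hx y hy hxy
    have hx0 : 0 ≤ x := hx
    have hy0 : 0 ≤ y := hy
    have := ff_anti h (a := x / ff K 0) (b := y / ff K 0) (div_nonneg hx0 ha.le)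
      (div_nonneg hy0 ha.le) (div_le_div_of_nonneg_right hxy ha.le)
    exact div_le_div_of_nonneg_right this ha.le
  · intro t _
    exact div_nonneg (scale_ff_nonneg _) ha.le
  · simp [ha.ne']
  · intro x y t hx hxy ht
    have := ff_four h (x := x / ff K 0) (y := y / ff K 0) (t := t / ff K 0)
      (div_nonneg hx ha.le) (div_le_div_of_nonneg_right hxy ha.le) (div_nonneg ht ha.le)
    rw [add_div, add_div, div_mul_div_comm, div_mul_div_comm]
    exact div_le_div_of_nonneg_right this (mul_pos ha ha).le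
  · refine ⟨ff K 0 * top K, mul_pos ha (top_pos h), ?_⟩
    intro t ht
    have : top K < t / ff K 0 := by
      rw [lt_div_iff₀ ha]; linarith
    rw [scale_ff_top h this, zero_div]
  · have h1 := scale_sub h (fun _ => (1 : ℝ)) ha
    simp only [one_mul] at h1
    rw [h1]
    exact scale_mass h

theorem scale_ints {K : Set (Fin (n + 1) → ℝ)} (h : Corner (n + 1) K) :
    (∫ u in (0 : ℝ)..top K, Real.log (ff K 0 * u) * ff K u) = Real.log (ff K 0) + lm K 0 ∧
    (∫ u in (0 : ℝ)..top K, Real.log (ff K 0 * u) ^ 2 * ff K u)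
      = Real.log (ff K 0) ^ 2 + 2 * Real.log (ff K 0) * lm K 0 + lm2 K 0 ∧
    (∫ u in (0 : ℝ)..top K, (ff K 0 * u) * ff K u) = ff K 0 * RR K 0 ∧
    IntervalIntegrable (fun u => Real.log (ff K 0 * u) * ff K u) volume 0 (top K) ∧
    IntervalIntegrable (fun u => Real.log (ff K 0 * u) ^ 2 * ff K u) volume 0 (top K) ∧
    IntervalIntegrable (fun u => (ff K 0 * u) * ff K u) volume 0 (top K) := by
  have ha : 0 < ff K 0 := ff_pos h ⟨le_rfl, top_pos h⟩
  have i0 : IntervalIntegrable (fun t => ff K t) volume 0 (top K) := by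
    have := scale_int h (fun _ => (1 : ℝ)) (scale_one h)
    simpa using this
  have i1 := scale_int h (fun t => Real.log t) (scale_log h)
  have i2 := scale_int h (fun t => Real.log t ^ 2) (h.integrableOn_log 0 2)
  have i3 := scale_int h (fun t => t) (scale_id h)
  set l : ℝ := Real.log (ff K 0) with hl
  have c1 : ∀ u ∈ Set.uIoc (0 : ℝ) (top K), l * ff K u + Real.log u * ff K u
      = Real.log (ff K 0 * u) * ff K u := by
    intro u hu
    rw [uIoc_of_le (top_pos h).le] at hu
    rw [Real.log_mul ha.ne' hu.1.ne']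
    ring
  have c2 : ∀ u ∈ Set.uIoc (0 : ℝ) (top K), l ^ 2 * ff K u + 2 * l * (Real.log u * ff K u)
      + Real.log u ^ 2 * ff K u = Real.log (ff K 0 * u) ^ 2 * ff K u := by
    intro u hu
    rw [uIoc_of_le (top_pos h).le] at hu
    rw [Real.log_mul ha.ne' hu.1.ne']
    ring
  have j1 := (i0.const_mul l).add i1
  have j2 := ((i0.const_mul (l ^ 2)).add (i1.const_mul (2 * l))).add i2
  have e1 : (∫ u in (0 : ℝ)..top K, Real.log (ff K 0 * u) * ff K u)
      = ∫ u in (0 : ℝ)..top K, (l * ff K u + Real.log u * ff K u) :=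
    intervalIntegral.integral_congr_ae (Filter.Eventually.of_forall (fun u hu => (c1 u hu).symm))
  have e2 : (∫ u in (0 : ℝ)..top K, Real.log (ff K 0 * u) ^ 2 * ff K u)
      = ∫ u in (0 : ℝ)..top K, (l ^ 2 * ff K u + 2 * l * (Real.log u * ff K u)
        + Real.log u ^ 2 * ff K u) :=
    intervalIntegral.integral_congr_ae (Filter.Eventually.of_forall (fun u hu => (c2 u hu).symm))
  refine ⟨?_, ?_, ?_, ?_, ?_, ?_⟩
  · rw [e1, intervalIntegral.integral_add (i0.const_mul l) i1, intervalIntegral.integral_const_mul,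
      scale_mass h, mul_one, lm_zero_eq h]
  · rw [e2, intervalIntegral.integral_add ((i0.const_mul (l ^ 2)).add (i1.const_mul (2 * l))) i2,
      intervalIntegral.integral_add (i0.const_mul (l ^ 2)) (i1.const_mul (2 * l)),
      intervalIntegral.integral_const_mul, intervalIntegral.integral_const_mul,
      scale_mass h, mul_one, lm_zero_eq h, lm2_zero_eq h]
  · simp only [mul_assoc]
    rw [intervalIntegral.integral_const_mul, RR_eq h le_rfl (top_pos h).le]
    simp only [sub_zero]
  · exact j1.congr c1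
  · exact j2.congr c2
  · have := i3.const_mul (ff K 0)
    simpa only [mul_assoc] using this

theorem oneA_corner {K : Set (Fin (n + 1) → ℝ)} (h : Corner (n + 1) K) :
    3 / 2 - X0 ≤ 2 * ff K 0 * RR K 0 - lm K 0 + gg K 0 - (lm2 K 0 - lm K 0 ^ 2) / 2 := by
  have ha : 0 < ff K 0 := ff_pos h ⟨le_rfl, top_pos h⟩
  have h1 := oneA (scale_dens h)
  rw [scale_sub h (fun t => 2 * t - Real.log t - Real.log t ^ 2 / 2) ha,
    scale_sub h (fun t => Real.log t) ha] at h1
  obtain ⟨e1, e2, e3, i1, i2, i3⟩ := scale_ints h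
  have e4 : (∫ u in (0 : ℝ)..top K, (2 * (ff K 0 * u) - Real.log (ff K 0 * u)
      - Real.log (ff K 0 * u) ^ 2 / 2) * ff K u)
      = 2 * (ff K 0 * RR K 0) - (Real.log (ff K 0) + lm K 0)
        - (Real.log (ff K 0) ^ 2 + 2 * Real.log (ff K 0) * lm K 0 + lm2 K 0) / 2 := by
    rw [← e1, ← e2, ← e3, ← intervalIntegral.integral_const_mul, ← intervalIntegral.integral_div,
      ← intervalIntegral.integral_sub (i3.const_mul 2) i1,
      ← intervalIntegral.integral_sub ((i3.const_mul 2).sub i1) (i2.div_const 2)]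
    refine intervalIntegral.integral_congr ?_
    intro u _
    simp only
    ring
  rw [e4, e1] at h1
  unfold gg
  nlinarith [h1]

end Vale.Agent.P254U
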