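import Vale.Agent.Lib.P254U.PLG

/-!
P254U/SliceConv: volumes of slices are log-concave (Prekopa-Leindler with indicators of slices:
if `x ∈ slice K s`, `y ∈ slice K t` then `(1-l) x + l y ∈ slice K ((1-l) s + l t)` by convexity),
hence `gg K = - log (ff K)` is convex and nondecreasing on `[0, top K)`.
-/

open MeasureTheory Set

namespace Vale.Agent.P254U

variable {n : ℕ}

theorem SliceConv_mem {K : Set (Fin (n + 1) → ℝ)} (h : Corner (n + 1) K) {s t l : ℝ}
    (h0 : 0 < l) (h1 : l < 1) {x y : Fin n → ℝ} (hx : x ∈ slice K s) (hy : y ∈ slice K t) :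
    (1 - l) • x + l • y ∈ slice K ((1 - l) * s + l * t) := by
  have h2 := h.convex hx hy (by linarith : (0 : ℝ) ≤ 1 - l) h0.le (by ring)
  have h3 : (1 - l) • (Fin.cons s x : Fin (n + 1) → ℝ) + l • (Fin.cons t y : Fin (n + 1) → ℝ) =
      Fin.cons ((1 - l) * s + l * t) ((1 - l) • x + l • y) := by
    funext i
    refine Fin.cases ?_ (fun j => ?_) i
    · simp
    · simp
  rw [h3] at h2
  exact h2

theorem vol_slice_logconcave {K : Set (Fin (n + 1) → ℝ)} (h : Corner (n + 1) K) {s t l : ℝ}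
    (hs : s ∈ Icc (0 : ℝ) (top K)) (ht : t ∈ Icc (0 : ℝ) (top K)) (h0 : 0 < l) (h1 : l < 1) :
    vol (slice K s) ^ (1 - l) * vol (slice K t) ^ l ≤ vol (slice K ((1 - l) * s + l * t)) := by
  have hm : ∀ u, MeasurableSet (slice K u) := fun u => (slice_compact h u).measurableSet
  have hfin : ∀ u, volume (slice K u) ≠ ⊤ := fun u => (slice_compact h u).measure_lt_top.ne
  have h2 : (0 : ℝ) < 1 - l := by linarith
  have key := pl_gen n (f := (slice K s).indicator 1) (g := (slice K t).indicator 1)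
    (h := (slice K ((1 - l) * s + l * t)).indicator 1)
    (measurable_one.indicator (hm s)) (measurable_one.indicator (hm t))
    (measurable_one.indicator (hm _)) h0 h1 (by
      intro x y
      by_cases hx : x ∈ slice K s
      · by_cases hy : y ∈ slice K t
        · rw [indicator_of_mem hx, indicator_of_mem hy,
            indicator_of_mem (SliceConv_mem h h0 h1 hx hy)]
          simp
        · rw [indicator_of_notMem hy, ENNReal.zero_rpow_of_pos h0, mul_zero]
          exact zero_le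
      · rw [indicator_of_notMem hx, ENNReal.zero_rpow_of_pos h2, zero_mul]
        exact zero_le)
  rw [lintegral_indicator_one (hm _), lintegral_indicator_one (hm _),
    lintegral_indicator_one (hm _)] at key
  have h3 := ENNReal.toReal_mono (hfin _) key
  rw [ENNReal.toReal_mul, ← ENNReal.toReal_rpow, ← ENNReal.toReal_rpow] at h3
  exact h3

theorem SliceConv_ff_nonneg {K : Set (Fin (n + 1) → ℝ)} (t : ℝ) : 0 ≤ ff K t :=
  div_nonneg ENNReal.toReal_nonneg ENNReal.toReal_nonneg

theorem SliceConv_ff_lc {K : Set (Fin (n + 1) → ℝ)} (h : Corner (n + 1) K) {s t l : ℝ}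
    (hs : s ∈ Icc (0 : ℝ) (top K)) (ht : t ∈ Icc (0 : ℝ) (top K)) (h0 : 0 < l) (h1 : l < 1) :
    ff K s ^ (1 - l) * ff K t ^ l ≤ ff K ((1 - l) * s + l * t) := by
  have hK := h.vol_pos
  have hs0 : ∀ u, 0 ≤ vol (slice K u) := fun u => ENNReal.toReal_nonneg
  unfold ff
  rw [Real.div_rpow (hs0 s) hK.le, Real.div_rpow (hs0 t) hK.le, div_mul_div_comm,
    ← Real.rpow_add hK, sub_add_cancel, Real.rpow_one]
  exact div_le_div_of_nonneg_right (vol_slice_logconcave h hs ht h0 h1) hK.le

theorem ff_pos {K : Set (Fin (n + 1) → ℝ)} (h : Corner (n + 1) K) {t : ℝ}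
    (ht : t ∈ Ico (0 : ℝ) (top K)) : 0 < ff K t :=
  div_pos (slice_corner h ht.1 ht.2).vol_pos h.vol_pos

theorem ff_anti {K : Set (Fin (n + 1) → ℝ)} (h : Corner (n + 1) K) :
    AntitoneOn (ff K) (Ici 0) := by
  intro s hs t _ hst
  refine div_le_div_of_nonneg_right ?_ h.vol_pos.le
  exact ENNReal.toReal_mono (slice_compact h s).measure_lt_top.ne
    (measure_mono (slice_anti h hs hst))

theorem exp_neg_gg {K : Set (Fin (n + 1) → ℝ)} (h : Corner (n + 1) K) {t : ℝ}
    (ht : t ∈ Ico (0 : ℝ) (top K)) : Real.exp (- gg K t) = ff K t := by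
  unfold gg
  rw [neg_neg, Real.exp_log (ff_pos h ht)]

theorem convexOn_gg {K : Set (Fin (n + 1) → ℝ)} (h : Corner (n + 1) K) :
    ConvexOn ℝ (Ico (0 : ℝ) (top K)) (gg K) := by
  refine ⟨convex_Ico _ _, fun x hx y hy a b ha hb hab => ?_⟩
  rcases ha.eq_or_lt with ha0 | ha0
  · have hb1 : b = 1 := by linarith
    subst hb1
    rw [← ha0]
    simp
  rcases hb.eq_or_lt with hb0 | hb0
  · have ha1 : a = 1 := by linarith
    subst ha1
    rw [← hb0]
    simp
  have ha1 : a = 1 - b := by linarith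
  have hb1 : b < 1 := by linarith
  have h2 := SliceConv_ff_lc h ⟨hx.1, hx.2.le⟩ ⟨hy.1, hy.2.le⟩ hb0 hb1
  have fx := ff_pos h hx
  have fy := ff_pos h hy
  have h3 := Real.log_le_log (mul_pos (Real.rpow_pos_of_pos fx _) (Real.rpow_pos_of_pos fy _)) h2
  rw [Real.log_mul (Real.rpow_pos_of_pos fx _).ne' (Real.rpow_pos_of_pos fy _).ne',
    Real.log_rpow fx, Real.log_rpow fy] at h3
  simp only [smul_eq_mul]
  unfold gg
  rw [ha1]
  linarith

theorem monotoneOn_gg {K : Set (Fin (n + 1) → ℝ)} (h : Corner (n + 1) K) :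
    MonotoneOn (gg K) (Ico (0 : ℝ) (top K)) := by
  intro s hs t ht hst
  unfold gg
  exact neg_le_neg (Real.log_le_log (ff_pos h ht)
    (ff_anti h (mem_Ici.mpr hs.1) (mem_Ici.mpr ht.1) hst))

/-- four point form of log-concavity for all nonnegative arguments (slices beyond `top K` are
empty); with `w = y + t > x`, `l = (y - x)/(w - x)`: `ff y ≥ ff x ^ (1-l) * ff w ^ l` and
`ff (x+t) ≥ ff x ^ l * ff w ^ (1-l)` -/
theorem ff_four {K : Set (Fin (n + 1) → ℝ)} (h : Corner (n + 1) K) {x y t : ℝ} (hx : 0 ≤ x)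
    (hxy : x ≤ y) (ht : 0 ≤ t) :
    ff K x * ff K (y + t) ≤ ff K y * ff K (x + t) := by
  rcases hxy.eq_or_lt with h2 | h2
  · rw [h2]
  rcases ht.eq_or_lt with h3 | h3
  · rw [← h3, add_zero, add_zero, mul_comm]
  rcases lt_or_ge (top K) (y + t) with h4 | h4
  · have h5 : ff K (y + t) = 0 := by
      unfold ff
      rw [slice_eq_empty h (Or.inr h4)]
      simp [vol]
    rw [h5, mul_zero]
    exact mul_nonneg (SliceConv_ff_nonneg _) (SliceConv_ff_nonneg _)
  set w := y + t with hw
  have hwx : 0 < w - x := by linarith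
  set l := (y - x) / (w - x) with hl
  have hl0 : 0 < l := div_pos (by linarith) hwx
  have hl1 : l < 1 := by
    rw [hl, div_lt_one hwx]
    linarith
  have hlw : l * (w - x) = y - x := by
    rw [hl, div_mul_cancel₀ _ hwx.ne']
  have hxm : x ∈ Icc (0 : ℝ) (top K) := ⟨hx, by linarith⟩
  have hwm : w ∈ Icc (0 : ℝ) (top K) := ⟨by linarith, h4⟩
  have e1 : (1 - l) * x + l * w = y := by linarith
  have e2 : (1 - (1 - l)) * x + (1 - l) * w = x + t := by
    have : t = w - y := by rw [hw]; ring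
    linarith
  have k1 := SliceConv_ff_lc h hxm hwm hl0 hl1
  have k2 := SliceConv_ff_lc h hxm hwm (l := 1 - l) (by linarith) (by linarith)
  rw [e1] at k1
  rw [e2, sub_sub_cancel] at k2
  have fx := SliceConv_ff_nonneg (K := K) x
  have fw := SliceConv_ff_nonneg (K := K) w
  have k3 := mul_le_mul k1 k2 (by positivity) (SliceConv_ff_nonneg _)
  refine le_trans (le_of_eq ?_) k3
  have e3 : ff K x ^ (1 - l) * ff K x ^ l = ff K x := by
    rw [← Real.rpow_add' fx (by norm_num), sub_add_cancel, Real.rpow_one]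
  have e4 : ff K w ^ l * ff K w ^ (1 - l) = ff K w := by
    rw [← Real.rpow_add' fw (by norm_num), add_sub_cancel, Real.rpow_one]
  calc ff K x * ff K w = (ff K x ^ (1 - l) * ff K x ^ l) * (ff K w ^ l * ff K w ^ (1 - l)) := by
        rw [e3, e4]
    _ = _ := by ring

end Vale.Agent.P254U
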