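import Vale.Agent.Lib.P254U.VSQ
import Vale.Agent.Lib.P254U.BLin
import Vale.Agent.Lib.P254U.Disc
import Vale.Agent.Lib.P254U.Gam

/-!
P254U/Star: the static inequality.

`star_lin`: fix `0 < s < τ < H = top K`, a unit vector `θ`, `k` real, `G = g'(s) ≥ 0`.
If `G = 0` the claim is `blin` together with `varL_le_two`
(`ff * 2 ≥ ff * varL ≥ 2 k EE - k^2 GG`).
If `G > 0`: for `ω > 0` and `N` large apply `disc` to the values at the points `s + j δ`,
`δ = (τ - s)/N` (`f = ff`, `g = gg`, `S = SS`, `E = EE K θ`, `Γ = GG`, `lam = lamL (slice ·) θ`,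
`V = varL (slice ·) θ`); `hG0` holds as `gg (s+δ) - gg s ≥ G δ > 0` by convexity.  Let `N → ∞`:
`(g 1 - g 0)/δ → G`, `S 2 → SS s`, `Γ 1 → GG s`, `E 1 → EE s`, `f 1 → ff s` (all continuous on `[s,τ]`
by `Lip`/`Gam`), the error terms tend to `0`; then `ω → 0`:
`2 G (SS s - SS τ) ≤ k^2 GG s + 2 ff s - 2 k EE s`; finally `τ → H`, `SS τ → 0`.

`star`: the quadratic polynomial in `k` is nonnegative for all real `k`, so
`EE^2 ≤ GG * (2 ff - 2 G SS)` for unit `θ`; `EE K θ t` is linear in `θ`, and with
`e_i = EE K (Pi.single i 1) t`, `θ = e/|e|` we get `|e|^2 = EE K θ t ^ 2`.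
-/

open MeasureTheory Set

namespace Vale.Agent.P254U

variable {n : ℕ}

private theorem star_tendsto (a : ℝ) (ha : 0 < a) :
    Filter.Tendsto (fun N : ℕ => a / (N : ℝ)) Filter.atTop (nhds 0) ∧
    ∀ᶠ N : ℕ in Filter.atTop, 0 < a / (N : ℝ) := by
  refine ⟨tendsto_const_div_atTop_nhds_zero_nat a, ?_⟩
  filter_upwards [Filter.eventually_gt_atTop 0] with N hN
  have : (0 : ℝ) < N := by exact_mod_cast hN
  positivity

private theorem star_slope {f : ℝ → ℝ} {s G : ℝ} (hG : HasDerivAt f G s) (a : ℝ) (ha : 0 < a) :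
    Filter.Tendsto (fun N : ℕ => (f (s + a / (N : ℝ)) - f s) / (a / (N : ℝ))) Filter.atTop
      (nhds G) := by
  have h1 := hasDerivAt_iff_tendsto_slope_zero.1 hG
  obtain ⟨h2, h3⟩ := star_tendsto a ha
  have h4 : Filter.Tendsto (fun N : ℕ => a / (N : ℝ)) Filter.atTop (nhdsWithin 0 {0}ᶜ) := by
    rw [tendsto_nhdsWithin_iff]
    exact ⟨h2, h3.mono fun N hN => hN.ne'⟩
  have h5 := h1.comp h4
  refine h5.congr fun N => ?_
  simp only [Function.comp, smul_eq_mul]
  rw [div_eq_inv_mul (f (s + a / (N : ℝ)) - f s)]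

private theorem star_aux {K : Set (Fin (n + 1) → ℝ)} (h : Corner (n + 1) K) {s : ℝ} (h0 : 0 < s)
    {τ : ℝ} (hsτ : s < τ) (hτ : τ < top K) {θ : Fin n → ℝ} (hθ : ∑ i, θ i ^ 2 = 1) (k : ℝ) {G : ℝ}
    (hG : HasDerivAt (gg K) G s) (hG0 : 0 < G) {ω : ℝ} (hω : 0 < ω) :
    G * (2 * (SS K s - SS K τ)) ≤ k ^ 2 * GG K s + (2 + ω) * ff K s - 2 * k * EE K θ s := by
  have hτ0 : 0 ≤ τ := by linarith
  obtain ⟨δ0, hδ0, hsd⟩ := second_diff h hτ0 hτ hθ hω
  obtain ⟨C, hC, hEE⟩ := EE_sub h hτ0 hτ θ
  obtain ⟨D, hD, hlam⟩ := lip_lamL h hτ0 hτ θ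
  have ha : 0 < τ - s := by linarith
  obtain ⟨hδt, hδp⟩ := star_tendsto (τ - s) ha
  have hsl := star_slope hG (τ - s) ha
  have hfτ : 0 < ff K τ := ff_pos h ⟨hτ0, hτ⟩
  have hfs : 0 < ff K s := ff_pos h ⟨h0.le, hsτ.trans hτ⟩
  have hSs : 0 ≤ SS K s := SS_nonneg h h0.le (hsτ.trans hτ).le
  -- the inequality for large `N`
  have main : ∀ᶠ N : ℕ in Filter.atTop,
      (gg K (s + (τ - s) / (N : ℝ)) - gg K s) / ((τ - s) / (N : ℝ)) *
        (2 * ((SS K s - ff K s * (2 * ((τ - s) / (N : ℝ)))) - SS K τ)
          - k ^ 2 * ((τ - s) / (N : ℝ)) * SS K s ^ 2 / ff K τ)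
        - 2 * |k| * (C * (τ - s) * ((τ - s) / (N : ℝ)) + D * ((τ - s) / (N : ℝ)) * SS K s)
        - 2 * |k| * (C * ((τ - s) / (N : ℝ)) ^ 2 + SS K s * (D * ((τ - s) / (N : ℝ)))) ≤
      k ^ 2 * GG K s + (2 + ω) * ff K s - 2 * k * EE K θ s := by
    filter_upwards [Filter.eventually_ge_atTop 3, hsl.eventually (lt_mem_nhds hG0),
      hδt.eventually (gt_mem_nhds hδ0), hδp] with N hN3 hq hδN hd
    set d : ℝ := (τ - s) / (N : ℝ) with hdd
    have hNR : (0 : ℝ) < N := by
      have : 0 < N := by omega
      exact_mod_cast this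
    have hNd : (N : ℝ) * d = τ - s := by
      rw [hdd]; field_simp
    set x : ℕ → ℝ := fun j => s + j * d with hx
    have hx0 : x 0 = s := by simp [hx]
    have hx1 : x 1 = s + d := by simp [hx]
    have hx2 : x 2 = s + 2 * d := by simp [hx]
    have hxN : x N = τ := by simp only [hx]; linarith
    have hxs : ∀ j, s ≤ x j := fun j => by
      simp only [hx]
      have : 0 ≤ (j : ℝ) * d := by positivity
      linarith
    have hx0' : ∀ j, 0 ≤ x j := fun j => h0.le.trans (hxs j)
    have hxτ : ∀ j, j ≤ N → x j ≤ τ := fun j hj => by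
      simp only [hx]
      have h1 : (j : ℝ) * d ≤ N * d := mul_le_mul_of_nonneg_right (by exact_mod_cast hj) hd.le
      linarith
    have hxt : ∀ j, j ≤ N → x j < top K := fun j hj => (hxτ j hj).trans_lt hτ
    have hxstep : ∀ j, x (j + 1) - x j = d := fun j => by simp only [hx]; push_cast; ring
    have hxle : ∀ j, x j ≤ x (j + 1) := fun j => by have := hxstep j; linarith
    have hxpred : ∀ j, 1 ≤ j → x (j - 1) = x j - d := fun j hj => by
      have h1 := hxstep (j - 1)
      rw [Nat.sub_add_cancel hj] at h1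
      linarith
    have hdisc := disc N hN3 d k ω D C hd hω.le hD hC (fun j => ff K (x j)) (fun j => gg K (x j))
      (fun j => SS K (x j)) (fun j => EE K θ (x j)) (fun j => GG K (x j))
      (fun j => lamL (slice K (x j)) θ) (fun j => varL (slice K (x j)) θ)
      (fun j hj => ff_pos h ⟨hx0' j, hxt j hj⟩)
      (fun j _ => ff_anti h (hx0' j) (hx0' (j + 1)) (hxle j))
      (fun j hj => ff_sub_ge h (hx0' j) (hxle j) (hxt (j + 1) hj))
      (by
        have h1 : (gg K (s + d) - gg K s) = (gg K (s + d) - gg K s) / d * d := by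
          field_simp
        have h2 : 0 < gg K (s + d) - gg K s := by
          rw [h1]; exact mul_pos hq hd
        simp only [hx1, hx0]
        exact h2)
      (fun j hj1 hj => by
        have hc := (convexOn_gg h).2 (x := x (j - 1)) (y := x (j + 1))
          ⟨hx0' _, hxt _ (by omega)⟩ ⟨hx0' _, hxt _ (by omega)⟩
          (by norm_num : (0 : ℝ) ≤ 1 / 2) (by norm_num : (0 : ℝ) ≤ 1 / 2) (by norm_num)
        have hmid : (1 / 2 : ℝ) • x (j - 1) + (1 / 2 : ℝ) • x (j + 1) = x j := by
          have h1 := hxpred j hj1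
          have h2 := hxstep j
          simp only [smul_eq_mul]
          linarith
        rw [hmid] at hc
        simp only [smul_eq_mul] at hc
        show gg K (x j) - gg K (x (j - 1)) ≤ gg K (x (j + 1)) - gg K (x j)
        linarith)
      (by
        show 0 ≤ SS K (x N)
        rw [hxN]
        exact SS_nonneg h hτ0 hτ.le)
      (fun j hj => by
        have := (SS_sub_le h (hx0' j) (hxle j) (hxt (j + 1) hj)).1
        rw [hxstep] at this
        exact this)
      (fun j hj => by
        have := (SS_sub_le h (hx0' j) (hxle j) (hxt (j + 1) hj)).2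
        rw [hxstep] at this
        exact this)
      (fun j hj => by
        have := hEE (x j) (x (j + 1)) (hx0' j) (hxle j) (hxτ (j + 1) hj)
        rw [hxstep] at this
        exact this)
      (fun j hj => GG_sub_ge h (hx0' j) (hxle j) (hxt (j + 1) hj))
      (fun j hj => by
        have := hlam (x j) (x (j + 1)) (hx0' j) (hxle j) (hxτ (j + 1) hj)
        rw [hxstep, abs_sub_comm] at this
        exact this)
      (fun j hj => blin h (hx0' j) (hxt j hj) θ k)
      (fun j hj => varL_le_two h ⟨hx0' j, hxt j hj⟩ hθ)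
      (fun j hj1 hj => by
        have h1 := hxpred j hj1
        have h2 := hxstep j
        have h3 : x (j + 1) = x j + d := by linarith
        have := hsd d hd hδN (x j) (by rw [← h1]; exact hx0' _)
          (by rw [← h3]; exact hxτ _ (by omega))
        simp only [h1, h3]
        exact this)
    simp only [hx0, hx1, hx2, hxN] at hdisc
    -- compare the values at `s + d`, `s + 2 d` with those at `s`
    have hs2 : s + 2 * d ≤ τ := by rw [← hx2]; exact hxτ 2 (by omega)
    have hs1 : s + d ≤ τ := by linarith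
    have hS2 := (SS_sub_le h h0.le (by linarith : s ≤ s + 2 * d) (hs2.trans_lt hτ)).2
    have hGG : GG K (s + d) ≤ GG K s := by
      have h1 := GG_sub_ge h h0.le (by linarith : s ≤ s + d) (hs1.trans_lt hτ)
      have h2 : gg K s ≤ gg K (s + d) := monotoneOn_gg h ⟨h0.le, hsτ.trans hτ⟩
        ⟨by linarith, hs1.trans_lt hτ⟩ (by linarith)
      have h3 : 0 ≤ SS K (s + d) ^ 2 * (gg K (s + d) - gg K s) / ff K s :=
        div_nonneg (mul_nonneg (sq_nonneg _) (by linarith)) hfs.le
      linarith
    have hff : ff K (s + d) ≤ ff K s := ff_anti h (a := s) (b := s + d) h0.le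
      (by show (0 : ℝ) ≤ s + d; linarith) (by linarith)
    have hE1 : |EE K θ s - EE K θ (s + d)| ≤ C * d ^ 2 + SS K s * (D * d) := by
      have h1 := hEE s (s + d) h0.le (by linarith) hs1
      have h2 := hlam s (s + d) h0.le (by linarith) hs1
      rw [add_sub_cancel_left] at h1 h2
      have h3 : EE K θ s - EE K θ (s + d) = (EE K θ s - EE K θ (s + d) +
          SS K s * (lamL (slice K (s + d)) θ - lamL (slice K s) θ)) +
          SS K s * (lamL (slice K s) θ - lamL (slice K (s + d)) θ) := by ring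
      rw [h3]
      refine (abs_add_le _ _).trans (add_le_add h1 ?_)
      rw [abs_mul, abs_of_nonneg hSs]
      exact mul_le_mul_of_nonneg_left h2 hSs
    have hkE : - 2 * k * EE K θ (s + d) ≤ - 2 * k * EE K θ s +
        2 * |k| * (C * d ^ 2 + SS K s * (D * d)) := by
      have h1 : 2 * k * (EE K θ s - EE K θ (s + d)) ≤ 2 * |k| * |EE K θ s - EE K θ (s + d)| := by
        have := le_abs_self (k * (EE K θ s - EE K θ (s + d)))
        rw [abs_mul] at this
        linarith
      have h2 : 2 * |k| * |EE K θ s - EE K θ (s + d)| ≤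
          2 * |k| * (C * d ^ 2 + SS K s * (D * d)) :=
        mul_le_mul_of_nonneg_left hE1 (by positivity)
      linarith
    have hk2 : k ^ 2 * GG K (s + d) ≤ k ^ 2 * GG K s :=
      mul_le_mul_of_nonneg_left hGG (sq_nonneg _)
    have hω2 : (2 + ω) * ff K (s + d) ≤ (2 + ω) * ff K s :=
      mul_le_mul_of_nonneg_left hff (by linarith)
    have hq2 : (gg K (s + d) - gg K s) / d *
        (2 * ((SS K s - ff K s * (2 * d)) - SS K τ) - k ^ 2 * d * SS K s ^ 2 / ff K τ) ≤
        (gg K (s + d) - gg K s) / d *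
        (2 * (SS K (s + 2 * d) - SS K τ) - k ^ 2 * d * SS K s ^ 2 / ff K τ) := by
      refine mul_le_mul_of_nonneg_left ?_ hq.le
      have h1 : s + 2 * d - s = 2 * d := by ring
      rw [h1] at hS2
      linarith
    have hCN : C * N * d ^ 2 = C * (τ - s) * d := by
      rw [← hNd]; ring
    rw [hCN] at hdisc
    linarith
  -- the limit
  set Φ : ℝ × ℝ → ℝ := fun p =>
      p.1 * (2 * ((SS K s - ff K s * (2 * p.2)) - SS K τ)
          - k ^ 2 * p.2 * SS K s ^ 2 / ff K τ)
        - 2 * |k| * (C * (τ - s) * p.2 + D * p.2 * SS K s)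
        - 2 * |k| * (C * p.2 ^ 2 + SS K s * (D * p.2)) with hΦ
  have hcont : Continuous Φ := by
    rw [hΦ]
    fun_prop
  have hlim : Filter.Tendsto (fun N : ℕ =>
      Φ ((gg K (s + (τ - s) / (N : ℝ)) - gg K s) / ((τ - s) / (N : ℝ)), (τ - s) / (N : ℝ)))
      Filter.atTop (nhds (Φ (G, 0))) :=
    (hcont.tendsto (G, 0)).comp (hsl.prodMk_nhds hδt)
  have hfin := le_of_tendsto hlim main
  have hval : Φ (G, 0) = G * (2 * (SS K s - SS K τ)) := by
    simp only [hΦ]
    ring
  rw [hval] at hfin
  exact hfin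

private theorem star_top {K : Set (Fin (n + 1) → ℝ)} (h : Corner (n + 1) K) {t : ℝ}
    (h0 : 0 ≤ t) (ht : t < top K) : SS K t ≤ ff K 0 * (top K - t) := by
  unfold SS
  have hanti : AntitoneOn (ff K) (Set.uIcc t (top K)) := by
    refine (ff_anti h).mono ?_
    rw [Set.uIcc_of_le ht.le]
    intro u hu
    exact h0.trans hu.1
  have h1 : ∫ u in t..top K, ff K u ≤ ∫ _ in t..top K, ff K 0 := by
    refine intervalIntegral.integral_mono_on ht.le hanti.intervalIntegrable
      intervalIntegrable_const fun u hu => ?_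
    exact ff_anti h (a := 0) (b := u) (Set.mem_Ici.2 le_rfl) (h0.trans hu.1) (h0.trans hu.1)
  refine h1.trans (le_of_eq ?_)
  rw [intervalIntegral.integral_const, smul_eq_mul, mul_comm]

theorem star_lin {K : Set (Fin (n + 1) → ℝ)} (h : Corner (n + 1) K) {s : ℝ} (h0 : 0 < s)
    (hs : s < top K) {θ : Fin n → ℝ} (hθ : ∑ i, θ i ^ 2 = 1) (k : ℝ) {G : ℝ}
    (hG : HasDerivAt (gg K) G s) :
    2 * G * SS K s ≤ k ^ 2 * GG K s + 2 * ff K s - 2 * k * EE K θ s := by
  have hfs : 0 < ff K s := ff_pos h ⟨h0.le, hs⟩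
  have hG0 : 0 ≤ G := by
    have ha : 0 < (top K - s) / 2 := by linarith
    obtain ⟨h1, h2⟩ := star_tendsto ((top K - s) / 2) ha
    have h3 := star_slope hG ((top K - s) / 2) ha
    refine ge_of_tendsto h3 ?_
    filter_upwards [h2, Filter.eventually_ge_atTop 1] with N hN hN1
    refine div_nonneg ?_ hN.le
    have hNR : (1 : ℝ) ≤ N := by exact_mod_cast hN1
    have h4 : (top K - s) / 2 / (N : ℝ) ≤ (top K - s) / 2 := div_le_self ha.le hNR
    have h5 : gg K s ≤ gg K (s + (top K - s) / 2 / (N : ℝ)) :=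
      monotoneOn_gg h ⟨h0.le, hs⟩ ⟨by linarith, by linarith⟩ (by linarith)
    linarith
  rcases hG0.eq_or_lt with hG1 | hG1
  · rw [← hG1]
    have h1 := blin h h0.le hs θ k
    have h2 := mul_le_mul_of_nonneg_left (varL_le_two h ⟨h0.le, hs⟩ hθ) hfs.le
    linarith
  · have hω : ∀ τ, s < τ → τ < top K → G * (2 * (SS K s - SS K τ)) ≤
        k ^ 2 * GG K s + 2 * ff K s - 2 * k * EE K θ s := by
      intro τ h1 h2
      refine le_of_forall_pos_le_add fun e he => ?_
      have h3 := star_aux h h0 h1 h2 hθ k hG hG1 (ω := e / ff K s) (div_pos he hfs)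
      have h4 : (2 + e / ff K s) * ff K s = 2 * ff K s + e := by
        field_simp
      rw [h4] at h3
      linarith
    refine le_of_forall_pos_le_add fun e he => ?_
    have hf0 : 0 < ff K 0 := ff_pos h ⟨le_rfl, h0.trans hs⟩
    set w : ℝ := min ((top K - s) / 2) (e / (2 * G * ff K 0)) with hw
    have hw0 : 0 < w := lt_min (by linarith) (by positivity)
    have hw1 : w ≤ (top K - s) / 2 := min_le_left _ _
    have hw2 : 2 * G * ff K 0 * w ≤ e := by
      have : w ≤ e / (2 * G * ff K 0) := min_le_right _ _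
      rw [le_div_iff₀ (by positivity)] at this
      linarith
    have h1 := hω (top K - w) (by linarith) (by linarith)
    have h2 := star_top h (t := top K - w) (by linarith) (by linarith)
    have h3 : top K - (top K - w) = w := by ring
    rw [h3] at h2
    have h4 : 2 * G * SS K (top K - w) ≤ 2 * G * (ff K 0 * w) :=
      mul_le_mul_of_nonneg_left h2 (by linarith)
    linarith

private theorem star_ffl {K : Set (Fin (n + 1) → ℝ)} (h : Corner (n + 1) K) (θ : Fin n → ℝ)
    (u : ℝ) : ff K u * lamL (slice K u) θ = (∫ y in slice K u, LL θ y) / vol K := by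
  unfold ff lamL mean
  by_cases hv : vol (slice K u) = 0
  · have h1 : volume (slice K u) = 0 := by
      have h2 : (volume (slice K u)).toReal = 0 := hv
      rcases (ENNReal.toReal_eq_zero_iff _).1 h2 with h3 | h3
      · exact h3
      · exact absurd h3 (slice_compact h u).measure_lt_top.ne
    rw [hv, setIntegral_measure_zero _ h1]
    simp
  · field_simp

private theorem star_LL (θ : Fin n → ℝ) (y : Fin n → ℝ) :
    LL θ y = ∑ i, θ i * LL (Pi.single i 1) y := by
  have h1 : ∀ i : Fin n, LL (Pi.single i 1) y = Real.log (y i) := by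
    intro i
    unfold LL
    rw [Finset.sum_eq_single i]
    · simp
    · intro j _ hj
      simp [hj]
    · intro hi; exact absurd (Finset.mem_univ i) hi
  simp only [h1]
  rfl

private theorem star_LLint {A : Set (Fin n → ℝ)} (hA : Corner n A) (θ : Fin n → ℝ) :
    IntegrableOn (LL θ) A := by
  have := hA.integrableOn_LL θ 0 1
  simpa using this

private theorem star_intLL {A : Set (Fin n → ℝ)} (hA : Corner n A) (θ : Fin n → ℝ) :
    ∫ y in A, LL θ y = ∑ i, θ i * ∫ y in A, LL (Pi.single i 1) y := by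
  have h1 : ∫ y in A, LL θ y = ∫ y in A, ∑ i, θ i * LL (Pi.single i 1) y := by
    refine integral_congr_ae (Filter.Eventually.of_forall fun y => ?_)
    exact star_LL θ y
  rw [h1, integral_finsetSum _ fun i _ => (star_LLint hA (Pi.single i 1)).const_mul (θ i)]
  refine Finset.sum_congr rfl fun i _ => ?_
  rw [integral_const_mul]

theorem EE_linear {K : Set (Fin (n + 1) → ℝ)} (h : Corner (n + 1) K) (θ : Fin n → ℝ) {t : ℝ}
    (h0 : 0 ≤ t) (ht : t < top K) :
    EE K θ t = ∑ i, θ i * EE K (Pi.single i 1) t := by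
  have hlam : lamL (slice K t) θ = ∑ i, θ i * lamL (slice K t) (Pi.single i 1) := by
    unfold lamL mean
    rw [star_intLL (slice_corner h h0 ht) θ, Finset.sum_div]
    refine Finset.sum_congr rfl fun i _ => ?_
    rw [mul_div_assoc]
  have hint : ∀ i : Fin n, IntervalIntegrable
      (fun u => ff K u * lamL (slice K u) (Pi.single i 1)) volume t (top K) := by
    intro i
    have h1 := intervalIntegrable_slices h (φ := fun x => Real.log (x i.succ) ^ 1)
      (h.integrableOn_log i.succ 1)
    have h2 := (h1.mono_set (c := t) (d := top K) (by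
      rw [Set.uIcc_of_le ht.le, Set.uIcc_of_le (h0.trans ht.le)]
      exact Set.Icc_subset_Icc h0 le_rfl)).div_const (vol K)
    refine h2.congr (fun u _ => ?_)
    simp only [star_ffl h, Fin.cons_succ, pow_one]
    congr 1
    refine integral_congr_ae (Filter.Eventually.of_forall fun y => ?_)
    have h3 := star_LL (Pi.single i 1) y
    show Real.log (y i) = LL (Pi.single i 1) y
    unfold LL
    rw [Finset.sum_eq_single i]
    · simp
    · intro j _ hj
      simp [hj]
    · intro hi; exact absurd (Finset.mem_univ i) hi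
  have hI : ∫ u in t..top K, ff K u * lamL (slice K u) θ =
      ∑ i, θ i * ∫ u in t..top K, ff K u * lamL (slice K u) (Pi.single i 1) := by
    have h1 : ∫ u in t..top K, ff K u * lamL (slice K u) θ =
        ∫ u in t..top K, ∑ i, θ i * (ff K u * lamL (slice K u) (Pi.single i 1)) := by
      refine intervalIntegral.integral_congr_ae ?_
      have hne : ∀ᵐ u : ℝ, u ≠ top K := by
        have : (volume ({top K} : Set ℝ)) = 0 := Real.volume_singleton
        exact measure_eq_zero_iff_ae_notMem.1 this
      filter_upwards [hne] with u hu hut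
      rw [Set.uIoc_of_le ht.le] at hut
      have hu1 : 0 ≤ u := h0.trans hut.1.le
      have hu2 : u < top K := lt_of_le_of_ne hut.2 hu
      simp only [star_ffl h]
      rw [star_intLL (slice_corner h hu1 hu2) θ, Finset.sum_div]
      refine Finset.sum_congr rfl fun i _ => ?_
      rw [mul_div_assoc]
    rw [h1, intervalIntegral.integral_finsetSum fun i _ => (hint i).const_mul (θ i)]
    refine Finset.sum_congr rfl fun i _ => ?_
    rw [intervalIntegral.integral_const_mul]
  unfold EE
  rw [hlam, hI, Finset.mul_sum, ← Finset.sum_sub_distrib]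
  refine Finset.sum_congr rfl fun i _ => ?_
  ring

private theorem star_quad {a b c : ℝ} (h : ∀ k : ℝ, 0 ≤ k ^ 2 * a + c - 2 * k * b) :
    b ^ 2 ≤ a * c := by
  have h1 := discrim_le_zero (a := a) (b := -2 * b) (c := c) (fun k => by
    have := h k
    nlinarith)
  unfold discrim at h1
  nlinarith

private theorem star_unit {K : Set (Fin (n + 1) → ℝ)} (h : Corner (n + 1) K) {s : ℝ} (h0 : 0 < s)
    (hs : s < top K) {G : ℝ} (hG : HasDerivAt (gg K) G s) {θ : Fin n → ℝ}
    (hθ : ∑ i, θ i ^ 2 = 1) :
    EE K θ s ^ 2 ≤ GG K s * (2 * (ff K s - G * SS K s)) := by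
  apply star_quad
  intro k
  have := star_lin h h0 hs hθ k hG
  linarith

theorem star {K : Set (Fin (n + 1) → ℝ)} (h : Corner (n + 1) K) {s : ℝ} (h0 : 0 < s)
    (hs : s < top K) {G : ℝ} (hG : HasDerivAt (gg K) G s) :
    ∑ i : Fin n, EE K (Pi.single i 1) s ^ 2 ≤ GG K s * (2 * (ff K s - G * SS K s)) := by
  set e : Fin n → ℝ := fun i => EE K (Pi.single i 1) s with he
  show ∑ i, e i ^ 2 ≤ _
  have hnn : 0 ≤ ∑ i, e i ^ 2 := Finset.sum_nonneg fun i _ => sq_nonneg _
  rcases hnn.eq_or_lt with hz | hz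
  · rw [← hz]
    rcases isEmpty_or_nonempty (Fin n) with hn | ⟨⟨i0⟩⟩
    · -- dimension zero: all slices have the same volume
      have hslice : ∀ u, 0 ≤ u → u < top K → slice K u = Set.univ := by
        intro u hu1 hu2
        obtain ⟨ε, hε, hmem⟩ := (slice_corner h hu1 hu2).pos
        refine Set.eq_univ_of_forall fun y => ?_
        rw [Subsingleton.elim y (fun _ => ε)]
        exact hmem
      have hconst : gg K =ᶠ[nhds s] fun _ => gg K s := by
        filter_upwards [Ioo_mem_nhds h0 hs] with u hu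
        unfold gg ff
        rw [hslice u hu.1.le hu.2, hslice s h0.le hs]
      have hG0 : G = 0 := hG.unique ((hasDerivAt_const s (gg K s)).congr_of_eventuallyEq hconst)
      have hGG : 0 ≤ GG K s := by
        by_contra hcon
        push Not at hcon
        have hb := blin h h0.le hs (fun _ => (0 : ℝ))
        have hE0 : EE K (fun _ => (0 : ℝ)) s = 0 := by
          rw [EE_linear h _ h0.le hs]
          simp
        have hb1 : ∀ k : ℝ, 0 ≤ k ^ 2 * GG K s +
            ff K s * varL (slice K s) (fun _ => 0) - 2 * k * 0 := by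
          intro k
          have := hb k
          rw [hE0] at this
          linarith
        set P := ff K s * varL (slice K s) (fun _ => 0) with hP
        have hP0 : 0 ≤ P := by have := hb1 0; simpa using this
        have h3 := hb1 (Real.sqrt ((P + 1) / (-GG K s)))
        rw [Real.sq_sqrt (div_nonneg (by linarith) (by linarith))] at h3
        have hne : GG K s ≠ 0 := hcon.ne
        have h4 : (P + 1) / (-GG K s) * GG K s = -(P + 1) := by
          field_simp
        rw [h4] at h3
        linarith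
      rw [hG0]
      have hfs : 0 < ff K s := ff_pos h ⟨h0.le, hs⟩
      have : 0 ≤ 2 * (ff K s - 0 * SS K s) := by linarith
      positivity
    · have h1 := star_unit h h0 hs hG (θ := Pi.single i0 1) (by
        rw [Finset.sum_eq_single i0]
        · simp
        · intro j _ hj; simp [hj]
        · intro hi; exact absurd (Finset.mem_univ i0) hi)
      exact (sq_nonneg _).trans h1
  · set r : ℝ := Real.sqrt (∑ i, e i ^ 2) with hr
    have hr0 : 0 < r := Real.sqrt_pos.2 hz
    have hr2 : r ^ 2 = ∑ i, e i ^ 2 := Real.sq_sqrt hz.le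
    have h1 := star_unit h h0 hs hG (θ := fun i => e i / r) (by
      simp only [div_pow]
      rw [← Finset.sum_div, hr2, div_self hz.ne'])
    have h2 : EE K (fun i => e i / r) s = r := by
      rw [EE_linear h _ h0.le hs]
      have h3 : ∑ i, e i / r * EE K (Pi.single i 1) s = (∑ i, e i ^ 2) / r := by
        rw [Finset.sum_div]
        refine Finset.sum_congr rfl fun i _ => ?_
        show e i / r * e i = _
        ring
      rw [h3, ← hr2]
      field_simp
    rw [h2, hr2] at h1
    exact h1

end Vale.Agent.P254U
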