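import Vale.Agent.Lib.P254U.VarSum
import Vale.Agent.Lib.P254U.Scale
import Vale.Agent.Lib.P254U.Base

/-!
P254U/Step: the induction on the dimension.

Let `H = top K`, `f = ff K`, `λ_i t = lm (slice K t) i`.  By `integral_slices`:
`lm K i.succ = ∫_0^H f λ_i`, `lm2 K i.succ = ∫_0^H f * lm2 (slice K t) i`, and for `t ∈ [0,H)`
`log (vol (slice K t)) = log (vol K) + log (f t) = log (vol K) - gg K t`.
Multiply `DTC (slice K t) ≥ (1/2) ∑ VV (slice K t) i - (n-1) X0` by `f t` and integrate:
`log vol K - ∫ f gg - ∑_i (1 + lm K i.succ) ≥ (1/2) ∑_i (lm2 K i.succ - ∫ f λ_i^2 - 1) - (n-1) X0`.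
So `DTC K = log vol K - (1 + lm K 0) - ∑_i (1 + lm K i.succ)
 ≥ ∫ f gg - 1 - lm K 0 + (1/2) ∑_i VV K i.succ - (1/2) ∑_i (∫ f λ_i^2 - (lm K i.succ)^2) - (n-1) X0`.
By `var_sum_le` the sum of variances is `≤ 2 + 2 ∫ f gg - 2 gg K 0 - 4 ff K 0 * RR K 0`, so
`DTC K ≥ (1/2) ∑_i VV K i.succ - 2 - lm K 0 + gg K 0 + 2 ff K 0 * RR K 0 - (n-1) X0` and by
`oneA_corner` `2 ff K 0 RR K 0 - lm K 0 + gg K 0 ≥ 3/2 - X0 + (VV K 0 + 1)/2 = 2 + VV K 0/2 - X0`.
Base case: dimension one (`DTC_one`, `VV_one`).
-/

open MeasureTheory Set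

namespace Vale.Agent.P254U

private theorem step_mul {m : ℕ} {s : Set (Fin m → ℝ)} (hs : IsCompact s)
    (φ : (Fin m → ℝ) → ℝ) : vol s * mean s φ = ∫ x in s, φ x := by
  unfold mean
  rcases eq_or_ne (vol s) 0 with h0 | h0
  · have h1 : volume s = 0 := by
      rcases (ENNReal.toReal_eq_zero_iff _).1 h0 with h2 | h2
      · exact h2
      · exact absurd h2 hs.measure_lt_top.ne
    rw [h0, zero_mul, setIntegral_measure_zero _ h1]
  · rw [mul_div_cancel₀ _ h0]

private theorem step_mean {n : ℕ} {K : Set (Fin (n + 1) → ℝ)} (h : Corner (n + 1) K)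
    (φ : (Fin n → ℝ) → ℝ) (hφ : IntegrableOn (fun x : Fin (n + 1) → ℝ => φ (Fin.tail x)) K) :
    mean K (fun x => φ (Fin.tail x)) = ∫ t in (0 : ℝ)..top K, ff K t * mean (slice K t) φ := by
  have h1 : ∀ t, ff K t * mean (slice K t) φ =
      (∫ y in slice K t, φ (Fin.tail (Fin.cons t y : Fin (n + 1) → ℝ))) / vol K := by
    intro t
    simp only [Fin.tail_cons]
    rw [ff, div_mul_eq_mul_div, step_mul (slice_compact h t)]
  simp only [h1]
  rw [intervalIntegral.integral_div, mean, integral_slices h hφ]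

private theorem step_int {n : ℕ} {K : Set (Fin (n + 1) → ℝ)} (h : Corner (n + 1) K)
    (φ : (Fin n → ℝ) → ℝ) (hφ : IntegrableOn (fun x : Fin (n + 1) → ℝ => φ (Fin.tail x)) K) :
    IntervalIntegrable (fun t => ff K t * mean (slice K t) φ) volume 0 (top K) := by
  have h1 : ∀ t, ff K t * mean (slice K t) φ =
      (∫ y in slice K t, φ (Fin.tail (Fin.cons t y : Fin (n + 1) → ℝ))) / vol K := by
    intro t
    simp only [Fin.tail_cons]
    rw [ff, div_mul_eq_mul_div, step_mul (slice_compact h t)]
  simp only [h1]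
  exact (intervalIntegrable_slices h hφ).div_const _

private theorem step_lm {n : ℕ} {K : Set (Fin (n + 1) → ℝ)} (h : Corner (n + 1) K) (i : Fin n) :
    lm K i.succ = ∫ t in (0 : ℝ)..top K, ff K t * lm (slice K t) i := by
  have h1 := h.integrableOn_log i.succ 1
  simp only [pow_one] at h1
  exact step_mean h (fun y => Real.log (y i)) h1

private theorem step_lm2 {n : ℕ} {K : Set (Fin (n + 1) → ℝ)} (h : Corner (n + 1) K) (i : Fin n) :
    lm2 K i.succ = ∫ t in (0 : ℝ)..top K, ff K t * lm2 (slice K t) i :=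
  step_mean h (fun y => Real.log (y i) ^ 2) (h.integrableOn_log i.succ 2)

private theorem step_lm2_int {n : ℕ} {K : Set (Fin (n + 1) → ℝ)} (h : Corner (n + 1) K)
    (i : Fin n) :
    IntervalIntegrable (fun t => ff K t * lm2 (slice K t) i) volume 0 (top K) :=
  step_int h (fun y => Real.log (y i) ^ 2) (h.integrableOn_log i.succ 2)

private theorem step_ff {n : ℕ} {K : Set (Fin (n + 1) → ℝ)} (h : Corner (n + 1) K) :
    ∫ t in (0 : ℝ)..top K, ff K t = 1 := by
  unfold ff
  rw [intervalIntegral.integral_div, ← vol_eq_integral_slice h, div_self h.vol_pos.ne']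

theorem potential_step (n : ℕ) {K : Set (Fin (n + 1) → ℝ)} (h : Corner (n + 1) K) (c : ℝ)
    (ih : ∀ t ∈ Ico (0 : ℝ) (top K),
      (∑ i, VV (slice K t) i) / 2 - c ≤ DTC (slice K t)) :
    (∑ i, VV K i) / 2 - c - X0 ≤ DTC K := by
  have hH := top_pos h
  have iff0 := intervalIntegrable_ff h
  have ifg := intervalIntegrable_ff_gg h
  have ifl := intervalIntegrable_ff_lm h
  have ifq := intervalIntegrable_ff_lm_sq h
  have if2 := step_lm2_int h
  have hvar := var_sum_le h
  have hA := oneA_corner h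
  -- the integrated lower bound
  have hL : ∫ t in (0 : ℝ)..top K, (((∑ i, (ff K t * lm2 (slice K t) i -
      ff K t * lm (slice K t) i ^ 2 - ff K t)) / 2) - c * ff K t) =
      (∑ i : Fin n, (lm2 K i.succ -
        (∫ t in (0 : ℝ)..top K, ff K t * lm (slice K t) i ^ 2) - 1)) / 2 - c := by
    have i1 : ∀ i : Fin n, IntervalIntegrable (fun t => ff K t * lm2 (slice K t) i -
        ff K t * lm (slice K t) i ^ 2 - ff K t) volume 0 (top K) := fun i =>
      ((if2 i).sub (ifq i)).sub iff0
    have i2 : IntervalIntegrable (fun t => ∑ i : Fin n, (ff K t * lm2 (slice K t) i -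
        ff K t * lm (slice K t) i ^ 2 - ff K t)) volume 0 (top K) := by
      have := IntervalIntegrable.sum Finset.univ (fun i _ => i1 i)
      refine this.congr (fun t _ => ?_)
      simp
    rw [intervalIntegral.integral_sub (i2.div_const 2) (iff0.const_mul c),
      intervalIntegral.integral_div, intervalIntegral.integral_finsetSum (fun i _ => i1 i),
      intervalIntegral.integral_const_mul, step_ff h, mul_one]
    congr 2
    refine Finset.sum_congr rfl fun i _ => ?_
    rw [intervalIntegral.integral_sub ((if2 i).sub (ifq i)) iff0,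
      intervalIntegral.integral_sub (if2 i) (ifq i), step_ff h, ← step_lm2 h]
  have hR : ∫ t in (0 : ℝ)..top K, (Real.log (vol K) * ff K t - ff K t * gg K t -
      ∑ i, (ff K t + ff K t * lm (slice K t) i)) =
      Real.log (vol K) - (∫ t in (0 : ℝ)..top K, ff K t * gg K t) -
        ∑ i : Fin n, (1 + lm K i.succ) := by
    have i1 : ∀ i : Fin n, IntervalIntegrable (fun t => ff K t + ff K t * lm (slice K t) i)
        volume 0 (top K) := fun i => iff0.add (ifl i)
    have i2 : IntervalIntegrable (fun t => ∑ i : Fin n, (ff K t + ff K t * lm (slice K t) i))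
        volume 0 (top K) := by
      have := IntervalIntegrable.sum Finset.univ (fun i _ => i1 i)
      refine this.congr (fun t _ => ?_)
      simp
    rw [intervalIntegral.integral_sub ((iff0.const_mul _).sub ifg) i2,
      intervalIntegral.integral_sub (iff0.const_mul _) ifg,
      intervalIntegral.integral_finsetSum (fun i _ => i1 i),
      intervalIntegral.integral_const_mul, step_ff h, mul_one]
    congr 1
    refine Finset.sum_congr rfl fun i _ => ?_
    rw [intervalIntegral.integral_add iff0 (ifl i), step_ff h, ← step_lm h]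
  have hineq : (∑ i : Fin n, (lm2 K i.succ -
        (∫ t in (0 : ℝ)..top K, ff K t * lm (slice K t) i ^ 2) - 1)) / 2 - c ≤
      Real.log (vol K) - (∫ t in (0 : ℝ)..top K, ff K t * gg K t) -
        ∑ i : Fin n, (1 + lm K i.succ) := by
    rw [← hL, ← hR]
    have i1 : IntervalIntegrable (fun t => ((∑ i, (ff K t * lm2 (slice K t) i -
        ff K t * lm (slice K t) i ^ 2 - ff K t)) / 2) - c * ff K t) volume 0 (top K) := by
      refine IntervalIntegrable.sub (IntervalIntegrable.div_const ?_ 2) (iff0.const_mul c)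
      have := IntervalIntegrable.sum Finset.univ
        (fun (i : Fin n) _ => ((if2 i).sub (ifq i)).sub iff0)
      refine this.congr (fun t _ => ?_)
      simp
    have i2 : IntervalIntegrable (fun t => Real.log (vol K) * ff K t - ff K t * gg K t -
        ∑ i, (ff K t + ff K t * lm (slice K t) i)) volume 0 (top K) := by
      refine IntervalIntegrable.sub ((iff0.const_mul _).sub ifg) ?_
      have := IntervalIntegrable.sum Finset.univ (fun (i : Fin n) _ => iff0.add (ifl i))
      refine this.congr (fun t _ => ?_)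
      simp
    refine intervalIntegral.integral_mono_on_of_le_Ioo hH.le i1 i2 fun t ht => ?_
    have ht' : t ∈ Ico (0 : ℝ) (top K) := ⟨ht.1.le, ht.2⟩
    have hf := ff_pos h ht'
    have h1 := mul_le_mul_of_nonneg_left (ih t ht') hf.le
    have h2 : Real.log (vol (slice K t)) = Real.log (vol K) - gg K t := by
      rw [gg, ff, Real.log_div (slice_corner h ht'.1 ht'.2).vol_pos.ne' h.vol_pos.ne']
      ring
    have h3 : ff K t * ((∑ i, VV (slice K t) i) / 2 - c) =
        ((∑ i, (ff K t * lm2 (slice K t) i -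
        ff K t * lm (slice K t) i ^ 2 - ff K t)) / 2) - c * ff K t := by
      rw [mul_sub, mul_div_assoc', Finset.mul_sum, mul_comm c]
      congr 2
      refine Finset.sum_congr rfl fun i _ => ?_
      rw [VV]
      ring
    have h4 : ff K t * DTC (slice K t) = Real.log (vol K) * ff K t - ff K t * gg K t -
        ∑ i, (ff K t + ff K t * lm (slice K t) i) := by
      rw [DTC, h2, mul_sub, Finset.mul_sum, mul_sub, mul_comm (Real.log (vol K))]
      congr 1
      refine Finset.sum_congr rfl fun i _ => ?_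
      ring
    rw [h3, h4] at h1
    exact h1
  have hs1 : ∑ i : Fin n, (lm2 K i.succ -
        (∫ t in (0 : ℝ)..top K, ff K t * lm (slice K t) i ^ 2) - 1) =
      ∑ i : Fin n, VV K i.succ - ∑ i : Fin n,
        ((∫ t in (0 : ℝ)..top K, ff K t * lm (slice K t) i ^ 2) -
        (∫ t in (0 : ℝ)..top K, ff K t * lm (slice K t) i) ^ 2) := by
    rw [← Finset.sum_sub_distrib]
    refine Finset.sum_congr rfl fun i _ => ?_
    rw [VV, ← step_lm h]
    ring
  rw [hs1] at hineq
  have hs2 : DTC K = Real.log (vol K) - (1 + lm K 0) - ∑ i : Fin n, (1 + lm K i.succ) := by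
    rw [DTC, Fin.sum_univ_succ]
    ring
  have hs3 : ∑ i, VV K i = VV K 0 + ∑ i : Fin n, VV K i.succ := Fin.sum_univ_succ _
  have hs4 : VV K 0 = lm2 K 0 - lm K 0 ^ 2 - 1 := rfl
  rw [hs2, hs3]
  linarith

theorem potential (n : ℕ) {K : Set (Fin (n + 1) → ℝ)} (h : Corner (n + 1) K) :
    (∑ i, VV K i) / 2 - n * X0 ≤ DTC K := by
  induction n with
  | zero =>
    rw [DTC_one h, Finset.sum_eq_zero fun i _ => VV_one h i]
    simp
  | succ n ih =>
    have h1 := potential_step (n + 1) h (n * X0)
      (fun t ht => ih (slice_corner h ht.1 ht.2))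
    push_cast
    linarith

end Vale.Agent.P254U
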