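import Vale.Agent.Lib.P254U.PLT
import Vale.Agent.Lib.P254U.SliceConv
import Vale.Agent.Lib.P254U.Lip
import Vale.Agent.Lib.P254U.LogMean

/-!
P254U/VSQ: the infinitesimal consequences of the tilted Prekopa-Leindler inequality.

`second_diff`: fix `τ < top K`.  Third absolute moments `mean |LL - lamL|^3` are bounded by some `M`
uniformly over the slices `t ∈ [0,τ]` (numerator at most a constant times the integrals over
`slice K 0`, `vol (slice K t) ≥ vol (slice K τ) > 0`).  Divide `pl_tilt` (heights `t+δ`, `t-δ`, tilt `a`)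
by `vol (slice (t+δ)) * vol (slice (t-δ))`, take logarithms:
`log mean_{t+δ} exp(a LL) + log mean_{t-δ} exp(-a LL) ≤ D + ∑ aθ(log(1+aθ) - log(1-aθ))`,
`D = gg(t+δ) + gg(t-δ) - 2 gg(t)`, and `b (log(1+b) - log(1-b)) ≤ 2 b^2 + 2 |b|^3` so the sum is
`≤ 2a^2 + 2 |a|^3` for `|a| ≤ 1/2` (as `∑ θ_i^2 = 1`).
With `log_mean_exp_ge` and `|varL (t±δ) - varL t| ≤ C δ`: for `|a| ≤ a0(ω)`, `δ ≤ δ1(ω)`:
`a e ≤ D + (2 - V + ω) a^2`, `e = lamL(t+δ) - lamL(t-δ)`, `V = varL (slice K t)`.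
`|e| ≤ 2 C δ` (`lip_lamL`), so `a = e / (2 (2 - V + ω))` is admissible for small `δ`
(`2 - V + ω ≥ ω` by `varL_le_two`) and gives `e^2 ≤ 4 (2 - V + ω) D`.

`varL_le_two`: the same with `δ = 0`: `a^2 V - C |a|^3 ≤ 2 a^2 + 2 |a|^3`, let `a → 0`.
-/

open MeasureTheory Set

namespace Vale.Agent.P254U

variable {n : ℕ}

private theorem VSQ_term_nonneg {b : ℝ} (h0 : 0 ≤ b) (hb : b ≤ 1 / 2) :
    b * (Real.log (1 + b) - Real.log (1 - b)) ≤ 2 * b ^ 2 + 2 * b ^ 3 := by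
  have h1 : Real.log (1 + b) ≤ b := by
    have := Real.log_le_sub_one_of_pos (show (0 : ℝ) < 1 + b by linarith)
    linarith
  have h2 : -Real.log (1 - b) ≤ b + 2 * b ^ 2 := by
    have h3 : (0 : ℝ) < 1 - b := by linarith
    have h4 := Real.log_le_sub_one_of_pos (inv_pos.2 h3)
    rw [Real.log_inv] at h4
    have h5 : (1 - b)⁻¹ - 1 ≤ b + 2 * b ^ 2 := by
      have h6 : (1 - b)⁻¹ ≤ 1 + b + 2 * b ^ 2 := by
        rw [inv_le_iff_one_le_mul₀ h3]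
        nlinarith [sq_nonneg b, mul_nonneg (sq_nonneg b) (show (0 : ℝ) ≤ 1 - 2 * b by linarith)]
      linarith
    linarith
  nlinarith

private theorem VSQ_term {b : ℝ} (hb : |b| ≤ 1 / 2) :
    b * (Real.log (1 + b) - Real.log (1 - b)) ≤ 2 * b ^ 2 + 2 * |b| ^ 3 := by
  rcases le_total 0 b with h | h
  · rw [abs_of_nonneg h] at hb ⊢
    exact VSQ_term_nonneg h hb
  · rw [abs_of_nonpos h] at hb ⊢
    have h1 := VSQ_term_nonneg (b := -b) (by linarith) hb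
    have e1 : (1 : ℝ) + -b = 1 - b := by ring
    have e2 : (1 : ℝ) - -b = 1 + b := by ring
    rw [e1, e2] at h1
    have e3 : b * (Real.log (1 + b) - Real.log (1 - b)) =
        -b * (Real.log (1 - b) - Real.log (1 + b)) := by ring
    rw [e3]
    have e4 : 2 * b ^ 2 = 2 * (-b) ^ 2 := by ring
    rw [e4]
    exact h1

private theorem VSQ_theta_sq {θ : Fin n → ℝ} (hθ : ∑ i, θ i ^ 2 = 1) (i : Fin n) :
    θ i ^ 2 ≤ 1 := by
  rw [← hθ]
  exact Finset.single_le_sum (f := fun i => θ i ^ 2) (fun j _ => sq_nonneg _) (Finset.mem_univ i)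

private theorem VSQ_theta_abs {θ : Fin n → ℝ} (hθ : ∑ i, θ i ^ 2 = 1) (i : Fin n) :
    |θ i| ≤ 1 := by
  have h := VSQ_theta_sq hθ i
  rw [← sq_abs] at h
  nlinarith [abs_nonneg (θ i)]

private theorem VSQ_sum_le {θ : Fin n → ℝ} (hθ : ∑ i, θ i ^ 2 = 1) {a : ℝ} (ha : |a| ≤ 1 / 2) :
    ∑ i, a * θ i * (Real.log (1 + a * θ i) - Real.log (1 - a * θ i)) ≤
      2 * a ^ 2 + 2 * |a| ^ 3 := by
  have h1 : ∀ i ∈ Finset.univ, a * θ i * (Real.log (1 + a * θ i) - Real.log (1 - a * θ i)) ≤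
      (2 * a ^ 2 + 2 * |a| ^ 3) * θ i ^ 2 := by
    intro i _
    have h2 := VSQ_theta_abs hθ i
    have h3 : |a * θ i| ≤ 1 / 2 := by
      rw [abs_mul]
      calc |a| * |θ i| ≤ 1 / 2 * 1 := mul_le_mul ha h2 (abs_nonneg _) (by norm_num)
        _ = 1 / 2 := by norm_num
    have h4 := VSQ_term h3
    have h5 : |a * θ i| ^ 3 ≤ |a| ^ 3 * θ i ^ 2 := by
      rw [abs_mul, mul_pow]
      refine mul_le_mul_of_nonneg_left ?_ (pow_nonneg (abs_nonneg _) 3)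
      have h6 : |θ i| ^ 3 = |θ i| ^ 2 * |θ i| := by ring
      rw [h6, sq_abs]
      exact mul_le_of_le_one_right (sq_nonneg _) h2
    have h7 : (a * θ i) ^ 2 = a ^ 2 * θ i ^ 2 := by ring
    rw [h7] at h4
    linarith
  calc _ ≤ ∑ i, (2 * a ^ 2 + 2 * |a| ^ 3) * θ i ^ 2 := Finset.sum_le_sum h1
    _ = (2 * a ^ 2 + 2 * |a| ^ 3) * ∑ i, θ i ^ 2 := by rw [Finset.mul_sum]
    _ = 2 * a ^ 2 + 2 * |a| ^ 3 := by rw [hθ, mul_one]

private theorem VSQ_exp_pos {K : Set (Fin n → ℝ)} (h : Corner n K) (θ : Fin n → ℝ) {a : ℝ}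
    (ha : ∀ i, |a * θ i| < 1) : 0 < ∫ x in K, Real.exp (a * LL θ x) := by
  have h1 : IntegrableOn (fun x : Fin n → ℝ => Real.exp (a * LL θ x)) K :=
    h.integrableOn_exp_LL θ ha
  have hne : (volume.restrict K : Measure (Fin n → ℝ)) ≠ 0 := by
    intro h0
    have h2 : volume K = 0 := by
      rw [← Measure.restrict_apply_univ K, h0]
      rfl
    have h3 := h.vol_pos
    unfold vol at h3
    rw [h2] at h3
    simp at h3
  have : NeZero (volume.restrict K : Measure (Fin n → ℝ)) := ⟨hne⟩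
  exact integral_exp_pos h1

private theorem VSQ_core {K : Set (Fin (n + 1) → ℝ)} (h : Corner (n + 1) K) {t1 t2 : ℝ}
    (h1 : t1 ∈ Ico (0 : ℝ) (top K)) (h2 : t2 ∈ Ico (0 : ℝ) (top K)) {θ : Fin n → ℝ}
    (hθ : ∑ i, θ i ^ 2 = 1) {a M : ℝ} (ha : |a| ≤ 1 / 2)
    (hM1 : mean (slice K t1) (fun x => |LL θ x - lamL (slice K t1) θ| ^ 3) ≤ M)
    (hM2 : mean (slice K t2) (fun x => |LL θ x - lamL (slice K t2) θ| ^ 3) ≤ M)
    (hs : |a| ^ 3 * M / 6 ≤ 1 / 2) :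
    a * (lamL (slice K t1) θ - lamL (slice K t2) θ) +
        (a ^ 2 / 2 * varL (slice K t1) θ + a ^ 2 / 2 * varL (slice K t2) θ) - |a| ^ 3 * M / 3 -
        (a ^ 2 / 2 * varL (slice K t1) θ + |a| ^ 3 * M / 6) ^ 2 -
        (a ^ 2 / 2 * varL (slice K t2) θ + |a| ^ 3 * M / 6) ^ 2 ≤
      gg K t1 + gg K t2 - 2 * gg K ((t1 + t2) / 2) + (2 * a ^ 2 + 2 * |a| ^ 3) := by
  have hc1 := slice_corner h h1.1 h1.2
  have hc2 := slice_corner h h2.1 h2.2
  have hm : (t1 + t2) / 2 ∈ Ico (0 : ℝ) (top K) :=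
    ⟨by linarith [h1.1, h2.1], by linarith [h1.2, h2.2]⟩
  have hcm := slice_corner h hm.1 hm.2
  have ha1 : ∀ i, |a * θ i| < 1 := by
    intro i
    rw [abs_mul]
    calc |a| * |θ i| ≤ 1 / 2 * 1 := mul_le_mul ha (VSQ_theta_abs hθ i) (abs_nonneg _) (by norm_num)
      _ < 1 := by norm_num
  have ha2 : ∀ i, |-a * θ i| < 1 := by
    intro i
    rw [neg_mul, abs_neg]
    exact ha1 i
  have hs' : |-a| ^ 3 * M / 6 ≤ 1 / 2 := by rw [abs_neg]; exact hs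
  have hl1 := log_mean_exp_ge hc1 θ hM1 ha1 hs
  have hl2 := log_mean_exp_ge hc2 θ hM2 ha2 hs'
  rw [abs_neg, neg_sq] at hl2
  have hpl := pl_tilt h h1 h2 θ ha1
  have hS := VSQ_sum_le hθ ha
  have hA := VSQ_exp_pos hc1 θ ha1
  have hB := VSQ_exp_pos hc2 θ ha2
  have hv1 := hc1.vol_pos
  have hv2 := hc2.vol_pos
  have hvm := hcm.vol_pos
  have hvK := h.vol_pos
  have hlog := Real.log_le_log (mul_pos hA hB) hpl
  rw [Real.log_mul hA.ne' hB.ne', Real.log_mul (pow_pos hvm 2).ne' (Real.exp_pos _).ne',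
    Real.log_exp, Real.log_pow] at hlog
  have e1 : Real.log (mean (slice K t1) (fun x => Real.exp (a * LL θ x))) =
      Real.log (∫ x in slice K t1, Real.exp (a * LL θ x)) - Real.log (vol (slice K t1)) := by
    unfold mean
    rw [Real.log_div hA.ne' hv1.ne']
  have e2 : Real.log (mean (slice K t2) (fun x => Real.exp (-a * LL θ x))) =
      Real.log (∫ x in slice K t2, Real.exp (-a * LL θ x)) - Real.log (vol (slice K t2)) := by
    unfold mean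
    rw [Real.log_div hB.ne' hv2.ne']
  rw [e1] at hl1
  rw [e2] at hl2
  have g1 : gg K t1 = Real.log (vol K) - Real.log (vol (slice K t1)) := by
    unfold gg ff
    rw [Real.log_div hv1.ne' hvK.ne']
    ring
  have g2 : gg K t2 = Real.log (vol K) - Real.log (vol (slice K t2)) := by
    unfold gg ff
    rw [Real.log_div hv2.ne' hvK.ne']
    ring
  have gm : gg K ((t1 + t2) / 2) = Real.log (vol K) - Real.log (vol (slice K ((t1 + t2) / 2))) := by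
    unfold gg ff
    rw [Real.log_div hvm.ne' hvK.ne']
    ring
  rw [g1, g2, gm]
  have e3 : ((2 : ℕ) : ℝ) = 2 := by norm_num
  rw [e3] at hlog
  linarith

private theorem VSQ_vol_anti {K : Set (Fin (n + 1) → ℝ)} (h : Corner (n + 1) K) {s t : ℝ}
    (h0 : 0 ≤ s) (hst : s ≤ t) : vol (slice K t) ≤ vol (slice K s) := by
  unfold vol
  exact ENNReal.toReal_mono (slice_compact h s).measure_lt_top.ne
    (measure_mono (slice_anti h h0 hst))

private theorem VSQ_cube_add {a b : ℝ} (ha : 0 ≤ a) (hb : 0 ≤ b) :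
    (a + b) ^ 3 ≤ 4 * (a ^ 3 + b ^ 3) := by
  nlinarith [mul_nonneg (add_nonneg ha hb) (sq_nonneg (a - b))]

private theorem VSQ_third {K : Set (Fin (n + 1) → ℝ)} (h : Corner (n + 1) K) {τ : ℝ} (h0 : 0 ≤ τ)
    (hτ : τ < top K) (θ : Fin n → ℝ) :
    ∃ M : ℝ, 0 ≤ M ∧ ∀ t : ℝ, 0 ≤ t → t ≤ τ →
      mean (slice K t) (fun x => |LL θ x - lamL (slice K t) θ| ^ 3) ≤ M := by
  have hc0 := slice_corner h le_rfl (lt_of_le_of_lt h0 hτ)
  have hcτ := slice_corner h h0 hτ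
  have hvτ := hcτ.vol_pos
  have hv0 := hc0.vol_pos
  have i1 : IntegrableOn (fun x : Fin n → ℝ => |LL θ x|) (slice K 0) := by
    have := hc0.integrableOn_abs_LL θ 0 1
    simpa using this
  have i3 : IntegrableOn (fun x : Fin n → ℝ => |LL θ x| ^ 3) (slice K 0) := by
    have := hc0.integrableOn_abs_LL θ 0 3
    simpa using this
  have hI1 : 0 ≤ ∫ x in slice K 0, |LL θ x| := integral_nonneg fun x => abs_nonneg _
  have hI3 : 0 ≤ ∫ x in slice K 0, |LL θ x| ^ 3 :=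
    integral_nonneg fun x => pow_nonneg (abs_nonneg _) 3
  set I1 : ℝ := ∫ x in slice K 0, |LL θ x| with hI1d
  set I3 : ℝ := ∫ x in slice K 0, |LL θ x| ^ 3 with hI3d
  set Λ : ℝ := I1 / vol (slice K τ) with hΛ
  have hΛ0 : 0 ≤ Λ := div_nonneg hI1 hvτ.le
  refine ⟨(4 * (I3 + Λ ^ 3 * vol (slice K 0))) / vol (slice K τ), by positivity, ?_⟩
  intro t ht htτ
  have hct := slice_corner h ht (lt_of_le_of_lt htτ hτ)
  have hvt := hct.vol_pos
  have hvle : vol (slice K τ) ≤ vol (slice K t) := VSQ_vol_anti h ht htτ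
  have hsub : slice K t ⊆ slice K 0 := slice_anti h le_rfl ht
  have hc : |lamL (slice K t) θ| ≤ Λ := by
    unfold lamL mean
    rw [abs_div, abs_of_pos hvt, hΛ]
    refine div_le_div₀ hI1 ?_ hvτ hvle
    calc |∫ x in slice K t, LL θ x| ≤ ∫ x in slice K t, |LL θ x| := abs_integral_le_integral_abs
      _ ≤ I1 := setIntegral_mono_set i1 (Filter.Eventually.of_forall fun x => abs_nonneg _)
          (Filter.Eventually.of_forall hsub)
  set c : ℝ := lamL (slice K t) θ with hcd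
  unfold mean
  refine div_le_div₀ (by positivity) ?_ hvτ hvle
  have hle : ∀ x : Fin n → ℝ, |LL θ x - c| ^ 3 ≤ 4 * (|LL θ x| ^ 3 + Λ ^ 3) := by
    intro x
    calc |LL θ x - c| ^ 3 ≤ (|LL θ x| + Λ) ^ 3 := by
          refine pow_le_pow_left₀ (abs_nonneg _) ?_ 3
          have := abs_sub (LL θ x) c
          linarith
      _ ≤ 4 * (|LL θ x| ^ 3 + Λ ^ 3) := VSQ_cube_add (abs_nonneg _) hΛ0
  calc ∫ x in slice K t, |LL θ x - c| ^ 3 ≤ ∫ x in slice K 0, |LL θ x - c| ^ 3 :=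
        setIntegral_mono_set (hc0.integrableOn_abs_LL θ c 3)
          (Filter.Eventually.of_forall fun x => pow_nonneg (abs_nonneg _) 3)
          (Filter.Eventually.of_forall hsub)
    _ ≤ ∫ x in slice K 0, 4 * (|LL θ x| ^ 3 + Λ ^ 3) := by
        have hconst : IntegrableOn (fun _ : Fin n → ℝ => Λ ^ 3) (slice K 0) :=
          integrableOn_const (slice_compact h 0).measure_lt_top.ne
        exact integral_mono (hc0.integrableOn_abs_LL θ c 3) ((i3.add hconst).const_mul 4) hle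
    _ = 4 * (I3 + Λ ^ 3 * vol (slice K 0)) := by
        have hconst : IntegrableOn (fun _ : Fin n → ℝ => Λ ^ 3) (slice K 0) :=
          integrableOn_const (slice_compact h 0).measure_lt_top.ne
        rw [integral_const_mul, integral_add i3 hconst, setIntegral_const]
        simp only [smul_eq_mul, Measure.real, vol]
        ring

private theorem VSQ_varL_nonneg {K : Set (Fin n → ℝ)} (h : Corner n K) (θ : Fin n → ℝ) :
    0 ≤ varL K θ := by
  unfold varL mean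
  exact div_nonneg (integral_nonneg fun x => sq_nonneg _) h.vol_pos.le

theorem varL_le_two {K : Set (Fin (n + 1) → ℝ)} (h : Corner (n + 1) K) {t : ℝ}
    (ht : t ∈ Ico (0 : ℝ) (top K)) {θ : Fin n → ℝ} (hθ : ∑ i, θ i ^ 2 = 1) :
    varL (slice K t) θ ≤ 2 := by
  obtain ⟨M, hM0, hM⟩ := VSQ_third h ht.1 ht.2 θ
  have hMt := hM t ht.1 le_rfl
  have hV0 := VSQ_varL_nonneg (slice_corner h ht.1 ht.2) θ
  set V : ℝ := varL (slice K t) θ with hV
  set C : ℝ := 2 + M / 3 + 2 * (V / 2 + M / 6) ^ 2 with hC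
  have hC0 : 0 < C := by positivity
  by_contra hcon
  have hcon' := not_le.1 hcon
  set a : ℝ := min (1 / 2) (min ((V - 2) / (2 * C)) (1 / (M + 1))) with had
  have ha0 : 0 < a := by
    refine lt_min (by norm_num) (lt_min ?_ ?_)
    · exact div_pos (by linarith) (by linarith)
    · exact div_pos one_pos (by linarith)
  have ha1 : a ≤ 1 / 2 := min_le_left _ _
  have ha2 : a ≤ (V - 2) / (2 * C) := (min_le_right _ _).trans (min_le_left _ _)
  have ha3 : a ≤ 1 / (M + 1) := (min_le_right _ _).trans (min_le_right _ _)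
  have haM : a * (M + 1) ≤ 1 := by
    rw [le_div_iff₀ (by linarith)] at ha3
    exact ha3
  have haC : a * C ≤ (V - 2) / 2 := by
    rw [le_div_iff₀ (by linarith)] at ha2
    linarith
  have hs : |a| ^ 3 * M / 6 ≤ 1 / 2 := by
    rw [abs_of_pos ha0]
    have h1 : a ^ 3 * M ≤ 1 := by
      have h2 : a * M ≤ 1 := by nlinarith
      have h3 : a ^ 2 ≤ 1 := by nlinarith
      have h4 : 0 ≤ a * M := mul_nonneg ha0.le hM0
      calc a ^ 3 * M = a ^ 2 * (a * M) := by ring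
        _ ≤ 1 * 1 := mul_le_mul h3 h2 h4 zero_le_one
        _ = 1 := one_mul 1
    linarith
  have hcore := VSQ_core h ht ht hθ (a := a) (by rwa [abs_of_pos ha0]) hMt hMt hs
  have em : (t + t) / 2 = t := by ring
  rw [em, abs_of_pos ha0, ← hV] at hcore
  have h5 : (a ^ 2 / 2 * V + a ^ 3 * M / 6) ^ 2 ≤ a ^ 3 * (V / 2 + M / 6) ^ 2 := by
    have h6 : a ^ 2 / 2 * V + a ^ 3 * M / 6 ≤ a ^ 2 * (V / 2 + M / 6) := by
      have h7 : a ^ 3 ≤ a ^ 2 := by nlinarith [sq_nonneg a]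
      have h8 : a ^ 3 * M ≤ a ^ 2 * M := mul_le_mul_of_nonneg_right h7 hM0
      nlinarith
    have h9 : 0 ≤ a ^ 2 / 2 * V + a ^ 3 * M / 6 := by positivity
    calc (a ^ 2 / 2 * V + a ^ 3 * M / 6) ^ 2 ≤ (a ^ 2 * (V / 2 + M / 6)) ^ 2 :=
          pow_le_pow_left₀ h9 h6 2
      _ = a ^ 4 * (V / 2 + M / 6) ^ 2 := by ring
      _ ≤ a ^ 3 * (V / 2 + M / 6) ^ 2 := by
          refine mul_le_mul_of_nonneg_right ?_ (sq_nonneg _)
          have h10 : 0 ≤ a ^ 3 := by positivity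
          nlinarith
  have h11 : a ^ 2 * V ≤ 2 * a ^ 2 + a ^ 3 * C := by
    rw [hC]
    nlinarith
  have h12 : V ≤ 2 + a * C := by
    have h13 : a ^ 2 * V ≤ a ^ 2 * (2 + a * C) := by
      calc a ^ 2 * V ≤ 2 * a ^ 2 + a ^ 3 * C := h11
        _ = a ^ 2 * (2 + a * C) := by ring
    exact le_of_mul_le_mul_left h13 (by positivity)
  linarith

private theorem VSQ_sq {r M W : ℝ} (hr0 : 0 ≤ r) (hr1 : r ≤ 1 / 2) (hM0 : 0 ≤ M) (hW0 : 0 ≤ W)
    (hW2 : W ≤ 2) : (r ^ 2 / 2 * W + r ^ 3 * M / 6) ^ 2 ≤ r ^ 3 * (1 + M / 6) ^ 2 := by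
  have h6 : r ^ 2 / 2 * W + r ^ 3 * M / 6 ≤ r ^ 2 * (1 + M / 6) := by
    have h7 : r ^ 3 ≤ r ^ 2 := by nlinarith [sq_nonneg r]
    have h8 : r ^ 3 * M ≤ r ^ 2 * M := mul_le_mul_of_nonneg_right h7 hM0
    have h9 : r ^ 2 * W ≤ r ^ 2 * 2 := mul_le_mul_of_nonneg_left hW2 (sq_nonneg r)
    linarith
  have h9 : 0 ≤ r ^ 2 / 2 * W + r ^ 3 * M / 6 := by positivity
  calc (r ^ 2 / 2 * W + r ^ 3 * M / 6) ^ 2 ≤ (r ^ 2 * (1 + M / 6)) ^ 2 :=
        pow_le_pow_left₀ h9 h6 2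
    _ = r ^ 4 * (1 + M / 6) ^ 2 := by ring
    _ ≤ r ^ 3 * (1 + M / 6) ^ 2 := by
        refine mul_le_mul_of_nonneg_right ?_ (sq_nonneg _)
        have h10 : 0 ≤ r ^ 3 := by positivity
        have h11 : r ^ 4 = r ^ 3 * r := by ring
        rw [h11]
        exact mul_le_of_le_one_right h10 (by linarith)

private theorem VSQ_main {V V1 V2 D x r M ω : ℝ}
    (hcore : x + (r ^ 2 / 2 * V1 + r ^ 2 / 2 * V2) - r ^ 3 * M / 3 -
      (r ^ 2 / 2 * V1 + r ^ 3 * M / 6) ^ 2 - (r ^ 2 / 2 * V2 + r ^ 3 * M / 6) ^ 2 ≤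
      D + (2 * r ^ 2 + 2 * r ^ 3))
    (hq1 : (r ^ 2 / 2 * V1 + r ^ 3 * M / 6) ^ 2 ≤ r ^ 3 * (1 + M / 6) ^ 2)
    (hq2 : (r ^ 2 / 2 * V2 + r ^ 3 * M / 6) ^ 2 ≤ r ^ 3 * (1 + M / 6) ^ 2)
    (haC : r * (2 + M / 3 + 2 * (1 + M / 6) ^ 2) ≤ ω / 2)
    (hVV : V ≤ (V1 + V2) / 2 + ω / 2) : x ≤ D + (2 - V + ω) * r ^ 2 := by
  have h14 : r ^ 2 * (r * (2 + M / 3 + 2 * (1 + M / 6) ^ 2)) ≤ r ^ 2 * (ω / 2) :=
    mul_le_mul_of_nonneg_left haC (sq_nonneg r)
  have h15 : r ^ 2 * (r * (2 + M / 3 + 2 * (1 + M / 6) ^ 2)) =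
      2 * r ^ 3 + r ^ 3 * M / 3 + 2 * (r ^ 3 * (1 + M / 6) ^ 2) := by ring
  have h16 : r ^ 2 * V ≤ r ^ 2 * ((V1 + V2) / 2 + ω / 2) :=
    mul_le_mul_of_nonneg_left hVV (sq_nonneg r)
  rw [h15] at h14
  have h17 : r ^ 2 * ((V1 + V2) / 2 + ω / 2) =
      r ^ 2 / 2 * V1 + r ^ 2 / 2 * V2 + r ^ 2 * (ω / 2) := by ring
  rw [h17] at h16
  have h18 : (2 - V + ω) * r ^ 2 = 2 * r ^ 2 - r ^ 2 * V + (r ^ 2 * (ω / 2) + r ^ 2 * (ω / 2)) := by
    ring
  rw [h18]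
  linarith

private theorem VSQ_final {e P D : ℝ} (hP0 : 0 < P)
    (hmain : e / (2 * P) * e ≤ D + P * (e / (2 * P)) ^ 2) : e ^ 2 ≤ 4 * P * D := by
  have h17 : e / (2 * P) * e = 2 * (e ^ 2 / (4 * P)) := by
    field_simp
    ring
  have h18 : P * (e / (2 * P)) ^ 2 = e ^ 2 / (4 * P) := by
    field_simp
    ring
  rw [h17, h18] at hmain
  have h20 : e ^ 2 / (4 * P) ≤ D := by linarith
  rw [div_le_iff₀ (by linarith)] at h20
  linarith

private theorem VSQ_r3 {r M : ℝ} (hr0 : 0 ≤ r) (hr1 : r ≤ 1 / 2) (hM0 : 0 ≤ M)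
    (haM : r * (M + 1) ≤ 1) : r ^ 3 * M / 6 ≤ 1 / 2 := by
  have h1 : r ^ 3 * M ≤ 1 := by
    have h2 : r * M ≤ 1 := by nlinarith
    have h3 : r ^ 2 ≤ 1 := by nlinarith
    have h4 : 0 ≤ r * M := mul_nonneg hr0 hM0
    calc r ^ 3 * M = r ^ 2 * (r * M) := by ring
      _ ≤ 1 * 1 := mul_le_mul h3 h2 h4 zero_le_one
      _ = 1 := one_mul 1
  linarith

/-- the statement with all constants explicit -/
private theorem VSQ_step {K : Set (Fin (n + 1) → ℝ)} (h : Corner (n + 1) K) {τ : ℝ}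
    (hτ : τ < top K) {θ : Fin n → ℝ} (hθ : ∑ i, θ i ^ 2 = 1) {ω : ℝ} (hω : 0 < ω)
    {M : ℝ} (hM0 : 0 ≤ M) (hM : ∀ t : ℝ, 0 ≤ t → t ≤ τ →
      mean (slice K t) (fun x => |LL θ x - lamL (slice K t) θ| ^ 3) ≤ M)
    {a0 : ℝ} (hb1 : a0 ≤ 1 / 2)
    (hb2 : a0 * (2 + M / 3 + 2 * (1 + M / 6) ^ 2) ≤ ω / 2) (hb3 : a0 * (M + 1) ≤ 1)
    {t δ : ℝ} (hδ : 0 < δ) (htm : 0 ≤ t - δ) (htp : t + δ ≤ τ)
    (hVV : varL (slice K t) θ ≤
      (varL (slice K (t + δ)) θ + varL (slice K (t - δ)) θ) / 2 + ω / 2)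
    (he : |lamL (slice K (t + δ)) θ - lamL (slice K (t - δ)) θ| ≤ a0 * (2 * ω)) :
    (lamL (slice K (t + δ)) θ - lamL (slice K (t - δ)) θ) ^ 2 ≤
      4 * (2 - varL (slice K t) θ + ω) * (gg K (t + δ) + gg K (t - δ) - 2 * gg K t) := by
  have ht1 : t + δ ∈ Ico (0 : ℝ) (top K) := ⟨by linarith, by linarith⟩
  have ht2 : t - δ ∈ Ico (0 : ℝ) (top K) := ⟨by linarith, by linarith⟩
  have ht0 : t ∈ Ico (0 : ℝ) (top K) := ⟨by linarith, by linarith⟩
  have hV := varL_le_two h ht0 hθ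
  have hP0 : 0 < 2 - varL (slice K t) θ + ω := by linarith
  have hPω : ω ≤ 2 - varL (slice K t) θ + ω := by linarith
  refine VSQ_final hP0 ?_
  have haa : |(lamL (slice K (t + δ)) θ - lamL (slice K (t - δ)) θ) /
      (2 * (2 - varL (slice K t) θ + ω))| ≤ a0 := by
    rw [abs_div, abs_of_pos (show (0 : ℝ) < 2 * (2 - varL (slice K t) θ + ω) by linarith),
      div_le_iff₀ (by linarith)]
    have ha0 : 0 ≤ a0 := by
      by_contra hcon
      have h1 := mul_neg_of_neg_of_pos (not_le.1 hcon) (show (0 : ℝ) < 2 * ω by linarith)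
      have h2 := abs_nonneg (lamL (slice K (t + δ)) θ - lamL (slice K (t - δ)) θ)
      linarith
    have h2 : a0 * (2 * ω) ≤ a0 * (2 * (2 - varL (slice K t) θ + ω)) :=
      mul_le_mul_of_nonneg_left (by linarith) ha0
    linarith
  have hr0 := abs_nonneg ((lamL (slice K (t + δ)) θ - lamL (slice K (t - δ)) θ) /
      (2 * (2 - varL (slice K t) θ + ω)))
  have hr1 := haa.trans hb1
  have hrC : |(lamL (slice K (t + δ)) θ - lamL (slice K (t - δ)) θ) /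
      (2 * (2 - varL (slice K t) θ + ω))| * (2 + M / 3 + 2 * (1 + M / 6) ^ 2) ≤ ω / 2 :=
    (mul_le_mul_of_nonneg_right haa (by positivity)).trans hb2
  have hrM : |(lamL (slice K (t + δ)) θ - lamL (slice K (t - δ)) θ) /
      (2 * (2 - varL (slice K t) θ + ω))| * (M + 1) ≤ 1 :=
    (mul_le_mul_of_nonneg_right haa (by linarith)).trans hb3
  have hcore := VSQ_core h ht1 ht2 hθ hr1 (hM _ ht1.1 htp) (hM _ ht2.1 (by linarith))
    (VSQ_r3 hr0 hr1 hM0 hrM)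
  have em : (t + δ + (t - δ)) / 2 = t := by ring
  have hq1 := VSQ_sq hr0 hr1 hM0 (VSQ_varL_nonneg (slice_corner h ht1.1 ht1.2) θ)
    (varL_le_two h ht1 hθ)
  have hq2 := VSQ_sq hr0 hr1 hM0 (VSQ_varL_nonneg (slice_corner h ht2.1 ht2.2) θ)
    (varL_le_two h ht2 hθ)
  rw [em, ← sq_abs ((lamL (slice K (t + δ)) θ - lamL (slice K (t - δ)) θ) /
      (2 * (2 - varL (slice K t) θ + ω)))] at hcore
  have hmain := VSQ_main hcore hq1 hq2 hrC hVV
  rw [sq_abs] at hmain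
  exact hmain

theorem second_diff {K : Set (Fin (n + 1) → ℝ)} (h : Corner (n + 1) K) {τ : ℝ} (h0 : 0 ≤ τ)
    (hτ : τ < top K) {θ : Fin n → ℝ} (hθ : ∑ i, θ i ^ 2 = 1) {ω : ℝ} (hω : 0 < ω) :
    ∃ δ0 : ℝ, 0 < δ0 ∧ ∀ δ : ℝ, 0 < δ → δ < δ0 → ∀ t : ℝ, 0 ≤ t - δ → t + δ ≤ τ →
      (lamL (slice K (t + δ)) θ - lamL (slice K (t - δ)) θ) ^ 2 ≤
        4 * (2 - varL (slice K t) θ + ω) * (gg K (t + δ) + gg K (t - δ) - 2 * gg K t) := by
  obtain ⟨M, hM0, hM⟩ := VSQ_third h h0 hτ θ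
  obtain ⟨Cl, hCl0, hCl⟩ := lip_lamL h h0 hτ θ
  obtain ⟨Cv, hCv0, hCv⟩ := lip_varL h h0 hτ θ
  have hC0 : 0 < 2 + M / 3 + 2 * (1 + M / 6) ^ 2 := by positivity
  obtain ⟨a0, ha0, hb1, hb2, hb3⟩ : ∃ a0 : ℝ, 0 < a0 ∧ a0 ≤ 1 / 2 ∧
      a0 * (2 + M / 3 + 2 * (1 + M / 6) ^ 2) ≤ ω / 2 ∧ a0 * (M + 1) ≤ 1 := by
    refine ⟨min (1 / 2) (min (ω / 2 / (2 + M / 3 + 2 * (1 + M / 6) ^ 2)) (1 / (M + 1))),
      lt_min (by norm_num) (lt_min (by positivity) (by positivity)), min_le_left _ _, ?_, ?_⟩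
    · rw [← le_div_iff₀ hC0]
      exact (min_le_right _ _).trans (min_le_left _ _)
    · rw [← le_div_iff₀ (by linarith)]
      exact (min_le_right _ _).trans (min_le_right _ _)
  refine ⟨min (ω / (2 * (Cv + 1))) (a0 * ω / (Cl + 1)), lt_min (by positivity) (by positivity), ?_⟩
  intro δ hδ hδ0 t htm htp
  have hd1 : δ ≤ ω / (2 * (Cv + 1)) := hδ0.le.trans (min_le_left _ _)
  have hd2 : δ ≤ a0 * ω / (Cl + 1) := hδ0.le.trans (min_le_right _ _)
  have hl := hCl (t - δ) (t + δ) (by linarith) (by linarith) (by linarith)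
  have hv1 := hCv t (t + δ) (by linarith) (by linarith) (by linarith)
  have hv2 := hCv (t - δ) t (by linarith) (by linarith) (by linarith)
  have hCvδ : Cv * δ ≤ ω / 2 := by
    have h1 : δ * (2 * (Cv + 1)) ≤ ω := by
      rwa [le_div_iff₀ (by positivity)] at hd1
    linarith
  refine VSQ_step h hτ hθ hω hM0 hM hb1 hb2 hb3 hδ htm htp ?_ ?_
  · have h1 := le_abs_self (varL (slice K t) θ - varL (slice K (t + δ)) θ)
    have h2 := neg_abs_le (varL (slice K (t - δ)) θ - varL (slice K t) θ)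
    have e1 : t + δ - t = δ := by ring
    have e2 : t - (t - δ) = δ := by ring
    rw [e1] at hv1
    rw [e2] at hv2
    linarith
  · have e1 : t + δ - (t - δ) = 2 * δ := by ring
    rw [e1] at hl
    rw [abs_sub_comm]
    have h1 : δ * (Cl + 1) ≤ a0 * ω := by
      rwa [le_div_iff₀ (by positivity)] at hd2
    have h2 : Cl * (2 * δ) ≤ 2 * (δ * (Cl + 1)) := by linarith
    linarith

end Vale.Agent.P254U
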