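import Vale.Agent.Lib.P254U.Star
import Vale.Agent.Lib.P254U.IntA

/-!
P254U/VarSum: total variance of the conditional log-means.

For `τ < H = top K`, apply `int_bound` with `f = ff`, `g = gg`, `S = SS`, `R = RR`,
`e2 = ∑ i, EE K (Pi.single i 1) t ^ 2` (`star`).
`lm (slice K t) i = lamL (slice K t) (Pi.single i 1) =: λ_i t`, `EE_i t = S t λ_i t - P_i t`,
`P_i t = ∫_t^H ff λ_i`.  Since `(P_i^2/S)' = -2 f λ_i P_i/S + P_i^2 f/S^2`,
`(f/S^2) EE_i^2 = f λ_i^2 + (P_i^2/S)'`, so
`∫_0^τ (f/S^2) EE_i^2 = ∫_0^τ f λ_i^2 + P_i(τ)^2/S(τ) - P_i(0)^2 ≥ ∫_0^τ f λ_i^2 - P_i(0)^2`.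
(`f, λ_i` are continuous on `[0,H)`; `f λ_i^2 ≤ f * lm2` is integrable on `[0,H]`.)
Let `τ → H`: `∫_0^τ f λ_i^2 → ∫_0^H f λ_i^2`; `R τ f τ/S τ → 0` because `R τ ≤ (H-τ) S τ` and `f ≤ f 0`;
`g τ S τ`: `S τ ≤ (H-τ) f τ`, `g τ f τ = - f τ log f τ` is bounded above, so `limsup ≤ 0`;
`∫_0^τ g f → ∫_0^H g f` (`g f = - f log f` bounded, measurable).
-/

open MeasureTheory Set

namespace Vale.Agent.P254U

variable {n : ℕ}

private theorem VarSum_LL_single {m : ℕ} (i : Fin m) (x : Fin m → ℝ) :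
    LL (Pi.single i 1) x = Real.log (x i) := by
  unfold LL
  rw [Finset.sum_eq_single i]
  · rw [Pi.single_eq_same, one_mul]
  · intro b _ hb
    rw [Pi.single_eq_of_ne hb, zero_mul]
  · intro h
    exact absurd (Finset.mem_univ i) h

private theorem VarSum_lamL_single {m : ℕ} (K : Set (Fin m → ℝ)) (i : Fin m) :
    lamL K (Pi.single i 1) = lm K i := by
  unfold lamL lm
  congr 1
  funext x
  exact VarSum_LL_single i x

private theorem VarSum_ff_nonneg (K : Set (Fin (n + 1) → ℝ)) (t : ℝ) : 0 ≤ ff K t :=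
  div_nonneg ENNReal.toReal_nonneg ENNReal.toReal_nonneg

theorem intervalIntegrable_ff {K : Set (Fin (n + 1) → ℝ)} (h : Corner (n + 1) K) :
    IntervalIntegrable (ff K) volume 0 (top K) :=
  (intervalIntegrable_vol_slice h).div_const _

theorem intervalIntegrable_ff_gg {K : Set (Fin (n + 1) → ℝ)} (h : Corner (n + 1) K) :
    IntervalIntegrable (fun t => ff K t * gg K t) volume 0 (top K) := by
  have hH := (top_pos h).le
  have h1 : (fun t => ff K t * gg K t) = fun t => Real.negMulLog (ff K t) := by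
    funext t
    unfold gg Real.negMulLog
    ring
  rw [h1]
  have h2 := intervalIntegrable_ff h
  rw [intervalIntegrable_iff_integrableOn_Ioc_of_le hH] at h2 ⊢
  -- bound of negMulLog on [0, f 0]
  obtain ⟨C, hC⟩ := (isCompact_Icc (a := (0 : ℝ)) (b := ff K 0)).exists_bound_of_continuousOn
    (f := Real.negMulLog) Real.continuous_negMulLog.continuousOn
  have hm : AEStronglyMeasurable (fun t => Real.negMulLog (ff K t))
      (volume.restrict (Ioc 0 (top K))) :=
    Real.continuous_negMulLog.comp_aestronglyMeasurable h2.aestronglyMeasurable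
  refine Integrable.of_bound (C := C) hm ?_
  rw [ae_restrict_iff' measurableSet_Ioc]
  refine Filter.Eventually.of_forall fun t ht => hC _ ⟨VarSum_ff_nonneg K t, ?_⟩
  exact ff_anti h (mem_Ici.2 le_rfl) (mem_Ici.2 ht.1.le) ht.1.le

private theorem VarSum_ff_mean (K : Set (Fin (n + 1) → ℝ)) (φ : (Fin n → ℝ) → ℝ) (t : ℝ)
    (hfin : volume (slice K t) ≠ ⊤) :
    ff K t * mean (slice K t) φ = (∫ y in slice K t, φ y) / vol K := by
  unfold ff mean
  by_cases h0 : vol (slice K t) = 0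
  · have h1 : volume (slice K t) = 0 := by
      unfold vol at h0
      rw [ENNReal.toReal_eq_zero_iff] at h0
      rcases h0 with h0 | h0
      · exact h0
      · exact absurd h0 hfin
    have h2 : ∫ y in slice K t, φ y = 0 := setIntegral_measure_zero _ h1
    rw [h2, h0]
    simp
  · field_simp

private theorem VarSum_fin {K : Set (Fin (n + 1) → ℝ)} (h : Corner (n + 1) K) (t : ℝ) :
    volume (slice K t) ≠ ⊤ := (slice_compact h t).measure_lt_top.ne

theorem intervalIntegrable_ff_lm {K : Set (Fin (n + 1) → ℝ)} (h : Corner (n + 1) K) (i : Fin n) :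
    IntervalIntegrable (fun t => ff K t * lm (slice K t) i) volume 0 (top K) := by
  have h1 : (fun t => ff K t * lm (slice K t) i) =
      fun t => (∫ y in slice K t, Real.log (y i)) / vol K := by
    funext t
    exact VarSum_ff_mean K _ t (VarSum_fin h t)
  rw [h1]
  have h2 : IntegrableOn (fun x : Fin (n + 1) → ℝ => Real.log (x i.succ)) K := by
    have := h.integrableOn_log i.succ 1
    simpa using this
  have h3 := intervalIntegrable_slices h h2
  simp only [Fin.cons_succ] at h3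
  exact h3.div_const _

private theorem VarSum_sq_le {K : Set (Fin n → ℝ)} (h : Corner n K) (i : Fin n) :
    lm K i ^ 2 ≤ lm2 K i := by
  have hv := h.vol_pos
  have i1 : IntegrableOn (fun x : Fin n → ℝ => Real.log (x i)) K := by
    simpa using h.integrableOn_log i 1
  have i2 : IntegrableOn (fun x : Fin n → ℝ => Real.log (x i) ^ 2) K := h.integrableOn_log i 2
  set c := lm K i with hc
  have i0 : IntegrableOn (fun _ : Fin n → ℝ => c ^ 2) K :=
    integrableOn_const h.volume_ne_top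
  have h1 : 0 ≤ ∫ x in K, (Real.log (x i) - c) ^ 2 :=
    integral_nonneg fun x => sq_nonneg _
  have h2 : ∫ x in K, (Real.log (x i) - c) ^ 2 =
      (∫ x in K, Real.log (x i) ^ 2) - 2 * c * (∫ x in K, Real.log (x i)) + c ^ 2 * vol K := by
    have e : (fun x : Fin n → ℝ => (Real.log (x i) - c) ^ 2) =
        fun x => (Real.log (x i) ^ 2 - 2 * c * Real.log (x i)) + c ^ 2 := by
      funext x
      ring
    have i3 : IntegrableOn (fun x : Fin n → ℝ => 2 * c * Real.log (x i)) K := i1.const_mul _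
    have i4 : IntegrableOn (fun x : Fin n → ℝ => Real.log (x i) ^ 2 - 2 * c * Real.log (x i)) K :=
      i2.sub i3
    rw [e, integral_add i4 i0, integral_sub i2 i3,
      integral_const_mul, setIntegral_const, smul_eq_mul]
    unfold vol
    rw [measureReal_def]
    ring
  have h3 : ∫ x in K, Real.log (x i) = c * vol K := by
    rw [hc]
    unfold lm mean
    field_simp
  have h4 : ∫ x in K, Real.log (x i) ^ 2 = lm2 K i * vol K := by
    unfold lm2 mean
    field_simp
  rw [h2, h3, h4] at h1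
  have h5 : 0 ≤ (lm2 K i - c ^ 2) * vol K := by linarith [h1]
  have h6 : 0 ≤ lm2 K i - c ^ 2 := nonneg_of_mul_nonneg_left h5 hv
  linarith

theorem intervalIntegrable_ff_lm_sq {K : Set (Fin (n + 1) → ℝ)} (h : Corner (n + 1) K)
    (i : Fin n) :
    IntervalIntegrable (fun t => ff K t * lm (slice K t) i ^ 2) volume 0 (top K) := by
  have hH := top_pos h
  -- the majorant
  have hmaj : IntervalIntegrable (fun t => ff K t * lm2 (slice K t) i) volume 0 (top K) := by
    have h1 : (fun t => ff K t * lm2 (slice K t) i) =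
        fun t => (∫ y in slice K t, Real.log (y i) ^ 2) / vol K := by
      funext t
      exact VarSum_ff_mean K _ t (VarSum_fin h t)
    rw [h1]
    have h3 := intervalIntegrable_slices h (h.integrableOn_log i.succ 2)
    simp only [Fin.cons_succ] at h3
    exact h3.div_const _
  have hf := intervalIntegrable_ff h
  have hfl := intervalIntegrable_ff_lm h i
  rw [intervalIntegrable_iff_integrableOn_Ioo_of_le hH.le] at hmaj hf hfl ⊢
  have hae : (fun t => (ff K t * lm (slice K t) i) ^ 2 / ff K t) =ᵐ[volume.restrict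
      (Ioo 0 (top K))] fun t => ff K t * lm (slice K t) i ^ 2 := by
    filter_upwards [ae_restrict_mem measurableSet_Ioo] with t ht
    have h1 := (ff_pos h (t := t) ⟨ht.1.le, ht.2⟩).ne'
    field_simp
  have hmeas : AEStronglyMeasurable (fun t => ff K t * lm (slice K t) i ^ 2)
      (volume.restrict (Ioo 0 (top K))) := by
    refine AEStronglyMeasurable.congr ?_ hae
    exact ((hfl.aemeasurable.pow_const 2).div hf.aemeasurable).aestronglyMeasurable
  refine Integrable.mono' hmaj hmeas ?_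
  filter_upwards [ae_restrict_mem measurableSet_Ioo] with t ht
  have h1 := (ff_pos h (t := t) ⟨ht.1.le, ht.2⟩)
  have h2 := VarSum_sq_le (slice_corner h ht.1.le ht.2) i
  rw [Real.norm_eq_abs, abs_of_nonneg (mul_nonneg h1.le (sq_nonneg _))]
  exact mul_le_mul_of_nonneg_left h2 h1.le

/-- one dimensional identity -/
private theorem VarSum_id {H τ : ℝ} (hτ0 : 0 < τ) (hτ : τ < H) {f lam : ℝ → ℝ}
    (hf : ContinuousOn f (Ico 0 H)) (hl : ContinuousOn lam (Ico 0 H))
    (hfi : IntervalIntegrable f volume 0 H)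
    (hfl : IntervalIntegrable (fun t => f t * lam t) volume 0 H) {S P : ℝ → ℝ}
    (hS : ∀ t, S t = ∫ u in t..H, f u) (hP : ∀ t, P t = ∫ u in t..H, f u * lam u)
    (hpos : ∀ t ∈ Icc 0 τ, 0 < S t) (h1 : S 0 = 1) :
    ∫ t in (0 : ℝ)..τ, f t * lam t ^ 2 ≤
      (∫ t in (0 : ℝ)..τ, f t / S t ^ 2 * (S t * lam t - P t) ^ 2) + P 0 ^ 2 := by
  have hH : 0 < H := hτ0.trans hτ
  have hS' : S = fun t => ∫ u in t..H, f u := funext hS
  have hP' : P = fun t => ∫ u in t..H, f u * lam u := funext hP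
  have hsub : Icc 0 τ ⊆ Ico 0 H := fun t ht => ⟨ht.1, lt_of_le_of_lt ht.2 hτ⟩
  have hsub' : Icc 0 τ ⊆ uIcc 0 H := by
    rw [uIcc_of_le hH.le]
    exact fun t ht => ⟨ht.1, ht.2.trans hτ.le⟩
  have cS : ContinuousOn S (Icc 0 τ) := by
    rw [hS']
    refine ContinuousOn.mono ?_ hsub'
    refine intervalIntegral.continuousOn_primitive_interval_left ?_
    rw [uIcc_of_le hH.le]
    exact (intervalIntegrable_iff_integrableOn_Icc_of_le hH.le).1 hfi
  have cP : ContinuousOn P (Icc 0 τ) := by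
    rw [hP']
    refine ContinuousOn.mono ?_ hsub'
    refine intervalIntegral.continuousOn_primitive_interval_left ?_
    rw [uIcc_of_le hH.le]
    exact (intervalIntegrable_iff_integrableOn_Icc_of_le hH.le).1 hfl
  have cf : ContinuousOn f (Icc 0 τ) := hf.mono hsub
  have cl : ContinuousOn lam (Icc 0 τ) := hl.mono hsub
  have cfl : ContinuousOn (fun t => f t * lam t) (Ico 0 H) := hf.mul hl
  have hio : Ioo 0 H ⊆ Ico 0 H := Ioo_subset_Ico_self
  have dS : ∀ t ∈ Ioo 0 τ, HasDerivAt S (-f t) t := by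
    intro t ht
    have htH : t ∈ Ioo 0 H := ⟨ht.1, ht.2.trans hτ⟩
    rw [hS']
    refine intervalIntegral.integral_hasDerivAt_left ?_ ?_ ?_
    · refine hfi.mono_set ?_
      rw [uIcc_of_le hH.le, uIcc_of_le htH.2.le]
      exact Icc_subset_Icc_left htH.1.le
    · exact (hf.mono hio).stronglyMeasurableAtFilter isOpen_Ioo t htH
    · exact (hf.mono hio).continuousAt (Ioo_mem_nhds htH.1 htH.2)
  have dP : ∀ t ∈ Ioo 0 τ, HasDerivAt P (-(f t * lam t)) t := by
    intro t ht
    have htH : t ∈ Ioo 0 H := ⟨ht.1, ht.2.trans hτ⟩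
    rw [hP']
    refine intervalIntegral.integral_hasDerivAt_left ?_ ?_ ?_
    · refine hfl.mono_set ?_
      rw [uIcc_of_le hH.le, uIcc_of_le htH.2.le]
      exact Icc_subset_Icc_left htH.1.le
    · exact (cfl.mono hio).stronglyMeasurableAtFilter isOpen_Ioo t htH
    · exact (cfl.mono hio).continuousAt (Ioo_mem_nhds htH.1 htH.2)
  have hne : ∀ t ∈ Icc 0 τ, S t ≠ 0 := fun t ht => (hpos t ht).ne'
  -- the two integrands
  have c1 : ContinuousOn (fun t => f t * lam t ^ 2) (Icc 0 τ) := cf.mul (cl.pow 2)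
  have c2 : ContinuousOn (fun t => f t / S t ^ 2 * (S t * lam t - P t) ^ 2) (Icc 0 τ) :=
    (cf.div (cS.pow 2) fun t ht => pow_ne_zero 2 (hne t ht)).mul (((cS.mul cl).sub cP).pow 2)
  have ii1 : IntervalIntegrable (fun t => f t * lam t ^ 2) volume 0 τ := by
    refine ContinuousOn.intervalIntegrable ?_
    rwa [uIcc_of_le hτ0.le]
  have ii2 : IntervalIntegrable (fun t => f t / S t ^ 2 * (S t * lam t - P t) ^ 2) volume 0 τ := by
    refine ContinuousOn.intervalIntegrable ?_
    rwa [uIcc_of_le hτ0.le]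
  have key := intervalIntegral.integral_eq_sub_of_hasDerivAt_of_le (f := fun t => P t ^ 2 / S t)
    (f' := fun t => f t / S t ^ 2 * (S t * lam t - P t) ^ 2 - f t * lam t ^ 2) hτ0.le
    ((cP.pow 2).div cS hne) ?_ (ii2.sub ii1)
  · rw [intervalIntegral.integral_sub ii2 ii1] at key
    have h2 : 0 ≤ P τ ^ 2 / S τ := div_nonneg (sq_nonneg _) (hpos τ ⟨hτ0.le, le_rfl⟩).le
    rw [h1, div_one] at key
    linarith
  · intro t ht
    have hne' := hne t ⟨ht.1.le, ht.2.le⟩
    have h2 := ((dP t ht).pow 2).div (dS t ht) hne'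
    refine h2.congr_deriv ?_
    have e2 : ((2 : ℕ) : ℝ) = 2 := by norm_num
    have e1 : P t ^ (2 - 1) = P t := by norm_num
    simp only [e1, e2, Pi.pow_apply]
    rw [div_eq_iff (pow_ne_zero 2 hne'), sub_mul, div_mul_eq_mul_div, div_mul_cancel₀ _
      (pow_ne_zero 2 hne')]
    ring

private theorem VarSum_cont_of_lip {H : ℝ} {u : ℝ → ℝ}
    (hu : ∀ τ, 0 ≤ τ → τ < H → ∃ C : ℝ, 0 ≤ C ∧ ∀ s t : ℝ, 0 ≤ s → s ≤ t → t ≤ τ →
      |u s - u t| ≤ C * (t - s)) : ContinuousOn u (Ico 0 H) := by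
  intro t ht
  obtain ⟨τ, h1, h2⟩ := exists_between ht.2
  obtain ⟨C, hC, hlip⟩ := hu τ (ht.1.trans h1.le) h2
  have hL : ∀ x ∈ Icc 0 τ, ∀ y ∈ Icc 0 τ, |u x - u y| ≤ C * |x - y| := by
    intro x hx y hy
    rcases le_total x y with hxy | hxy
    · have := hlip x y hx.1 hxy hy.2
      rwa [abs_sub_comm x y, abs_of_nonneg (sub_nonneg.2 hxy)]
    · have := hlip y x hy.1 hxy hx.2
      rwa [abs_sub_comm (u x) (u y), abs_of_nonneg (sub_nonneg.2 hxy)]
  have hc : ContinuousOn u (Icc 0 τ) := by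
    have : LipschitzOnWith (Real.toNNReal C) u (Icc 0 τ) := by
      refine LipschitzOnWith.of_dist_le_mul fun x hx y hy => ?_
      rw [Real.dist_eq, Real.dist_eq, Real.coe_toNNReal C hC]
      exact hL x hx y hy
    exact this.continuousOn
  refine (hc t ⟨ht.1, h1.le⟩).mono_of_mem_nhdsWithin ?_
  have h3 : Iio τ ∈ nhdsWithin t (Ico 0 H) := mem_nhdsWithin_of_mem_nhds (Iio_mem_nhds h1)
  filter_upwards [h3, self_mem_nhdsWithin] with x hx hx'
  exact ⟨hx'.1, hx.le⟩

private theorem VarSum_ff_lip {K : Set (Fin (n + 1) → ℝ)} (h : Corner (n + 1) K) {τ : ℝ}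
    (h0 : 0 ≤ τ) (hτ : τ < top K) :
    ∃ C : ℝ, 0 ≤ C ∧ ∀ s t : ℝ, 0 ≤ s → s ≤ t → t ≤ τ → |ff K s - ff K t| ≤ C * (t - s) := by
  obtain ⟨C, hC, hl⟩ := lip_vol h h0 hτ
  have hv := h.vol_pos
  refine ⟨C / vol K, div_nonneg hC hv.le, fun s t h1 h2 h3 => ?_⟩
  have h4 := hl s t h1 h2 h3
  unfold ff
  rw [← sub_div, abs_div, abs_of_pos hv, div_mul_eq_mul_div]
  exact div_le_div_of_nonneg_right h4 hv.le

private theorem VarSum_ff_cont {K : Set (Fin (n + 1) → ℝ)} (h : Corner (n + 1) K) :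
    ContinuousOn (ff K) (Ico 0 (top K)) :=
  VarSum_cont_of_lip fun _ h0 hτ => VarSum_ff_lip h h0 hτ

private theorem VarSum_lam_cont {K : Set (Fin (n + 1) → ℝ)} (h : Corner (n + 1) K)
    (θ : Fin n → ℝ) : ContinuousOn (fun t => lamL (slice K t) θ) (Ico 0 (top K)) :=
  VarSum_cont_of_lip fun _ h0 hτ => lip_lamL h h0 hτ θ

private theorem VarSum_gg_lip {K : Set (Fin (n + 1) → ℝ)} (h : Corner (n + 1) K) {τ : ℝ}
    (h0 : 0 ≤ τ) (hτ : τ < top K) :
    ∃ C : ℝ, 0 ≤ C ∧ ∀ s ∈ Icc (0 : ℝ) τ, ∀ t ∈ Icc (0 : ℝ) τ, |gg K s - gg K t| ≤ C * |s - t| := by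
  obtain ⟨C, hC, hl⟩ := VarSum_ff_lip h h0 hτ
  have hfτ : 0 < ff K τ := ff_pos h ⟨h0, hτ⟩
  refine ⟨C / ff K τ, div_nonneg hC hfτ.le, ?_⟩
  have key : ∀ s t : ℝ, 0 ≤ s → s ≤ t → t ≤ τ → |gg K s - gg K t| ≤ C / ff K τ * (t - s) := by
    intro s t h1 h2 h3
    have hs : 0 < ff K s := ff_pos h ⟨h1, lt_of_le_of_lt (h2.trans h3) hτ⟩
    have ht : 0 < ff K t := ff_pos h ⟨h1.trans h2, lt_of_le_of_lt h3 hτ⟩
    have hst : ff K t ≤ ff K s := ff_anti h (mem_Ici.2 h1) (mem_Ici.2 (h1.trans h2)) h2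
    have htτ : ff K τ ≤ ff K t := ff_anti h (mem_Ici.2 (h1.trans h2)) (mem_Ici.2 h0) h3
    have e1 : gg K s - gg K t = -(Real.log (ff K s / ff K t)) := by
      unfold gg
      rw [Real.log_div hs.ne' ht.ne']
      ring
    have h4 : 0 ≤ Real.log (ff K s / ff K t) :=
      Real.log_nonneg ((one_le_div ht).2 hst)
    rw [e1, abs_neg, abs_of_nonneg h4]
    have h5 : Real.log (ff K s / ff K t) ≤ ff K s / ff K t - 1 :=
      Real.log_le_sub_one_of_pos (div_pos hs ht)
    have h6 : ff K s / ff K t - 1 = (ff K s - ff K t) / ff K t := by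
      field_simp
    have h7 : (ff K s - ff K t) / ff K t ≤ (ff K s - ff K t) / ff K τ :=
      div_le_div_of_nonneg_left (sub_nonneg.2 hst) hfτ htτ
    have h8 := (le_abs_self _).trans (hl s t h1 h2 h3)
    calc Real.log (ff K s / ff K t) ≤ (ff K s - ff K t) / ff K τ := by
          rw [h6] at h5
          exact h5.trans h7
      _ ≤ (C * (t - s)) / ff K τ := div_le_div_of_nonneg_right h8 hfτ.le
      _ = C / ff K τ * (t - s) := by ring
  intro s hs t ht
  rcases le_total s t with hst | hst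
  · rw [abs_sub_comm s t, abs_of_nonneg (sub_nonneg.2 hst)]
    exact key s t hs.1 hst ht.2
  · rw [abs_sub_comm (gg K s), abs_of_nonneg (sub_nonneg.2 hst)]
    exact key t s ht.1 hst hs.2

private theorem VarSum_SS_anti {K : Set (Fin (n + 1) → ℝ)} (h : Corner (n + 1) K) :
    AntitoneOn (SS K) (Icc 0 (top K)) := by
  have hH := top_pos h
  have hfi := intervalIntegrable_ff h
  intro s hs t ht hst
  unfold SS
  have i1 : IntervalIntegrable (ff K) volume s t := by
    refine hfi.mono_set ?_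
    rw [uIcc_of_le hst, uIcc_of_le hH.le]
    exact Icc_subset_Icc hs.1 ht.2
  have i2 : IntervalIntegrable (ff K) volume t (top K) := by
    refine hfi.mono_set ?_
    rw [uIcc_of_le ht.2, uIcc_of_le hH.le]
    exact Icc_subset_Icc_left ht.1
  rw [← intervalIntegral.integral_add_adjacent_intervals i1 i2]
  have h1 : 0 ≤ ∫ u in s..t, ff K u :=
    intervalIntegral.integral_nonneg hst fun u _ => VarSum_ff_nonneg K u
  linarith

private theorem VarSum_SS_int {K : Set (Fin (n + 1) → ℝ)} (h : Corner (n + 1) K) :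
    IntervalIntegrable (SS K) volume 0 (top K) := by
  refine AntitoneOn.intervalIntegrable ?_
  rw [uIcc_of_le (top_pos h).le]
  exact VarSum_SS_anti h

private theorem VarSum_step {K : Set (Fin (n + 1) → ℝ)} (h : Corner (n + 1) K) {τ : ℝ}
    (h0 : 0 < τ) (hτ : τ < top K) :
    ∑ i : Fin n, ((∫ t in (0 : ℝ)..τ, ff K t * lm (slice K t) i ^ 2) -
        (∫ t in (0 : ℝ)..top K, ff K t * lm (slice K t) i) ^ 2) ≤
      4 * RR K τ * ff K τ / SS K τ + 2 * gg K τ * SS K τ - 4 * RR K 0 * ff K 0 - 2 * gg K 0 +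
        2 * (1 - SS K τ) + 2 * ∫ t in (0 : ℝ)..τ, gg K t * ff K t := by
  have hH := top_pos h
  have hfi := intervalIntegrable_ff h
  have cf := VarSum_ff_cont h
  have hsub : Icc 0 τ ⊆ Ico 0 (top K) := fun t ht => ⟨ht.1, lt_of_le_of_lt ht.2 hτ⟩
  have hsub' : Icc 0 τ ⊆ uIcc 0 (top K) := by
    rw [uIcc_of_le hH.le]
    exact fun t ht => ⟨ht.1, ht.2.trans hτ.le⟩
  have hSpos : ∀ t ∈ Icc 0 τ, 0 < SS K t := fun t ht =>
    SS_pos h ht.1 (lt_of_le_of_lt ht.2 hτ)
  have cS : ContinuousOn (SS K) (Icc 0 τ) := by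
    refine ContinuousOn.mono ?_ hsub'
    refine intervalIntegral.continuousOn_primitive_interval_left ?_
    rw [uIcc_of_le hH.le]
    exact (intervalIntegrable_iff_integrableOn_Icc_of_le hH.le).1 hfi
  have hlm : ∀ (i : Fin n) (t : ℝ), lamL (slice K t) (Pi.single i 1) = lm (slice K t) i :=
    fun i t => VarSum_lamL_single _ i
  have hEE : ∀ (i : Fin n) (t : ℝ), EE K (Pi.single i 1) t =
      SS K t * lm (slice K t) i - ∫ u in t..top K, ff K u * lm (slice K u) i := by
    intro i t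
    unfold EE
    simp only [hlm]
  have cl : ∀ i : Fin n, ContinuousOn (fun t => lm (slice K t) i) (Ico 0 (top K)) := by
    intro i
    have := VarSum_lam_cont h (Pi.single i 1 : Fin n → ℝ)
    simpa only [hlm] using this
  have cP : ∀ i : Fin n, ContinuousOn (fun t => ∫ u in t..top K, ff K u * lm (slice K u) i)
      (Icc 0 τ) := by
    intro i
    refine ContinuousOn.mono ?_ hsub'
    refine intervalIntegral.continuousOn_primitive_interval_left ?_
    rw [uIcc_of_le hH.le]
    exact (intervalIntegrable_iff_integrableOn_Icc_of_le hH.le).1 (intervalIntegrable_ff_lm h i)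
  have cE : ∀ i : Fin n, ContinuousOn (fun t => EE K (Pi.single i 1) t) (Icc 0 τ) := by
    intro i
    simp only [hEE]
    exact (cS.mul ((cl i).mono hsub)).sub (cP i)
  have hb := int_bound (H := top K) (τ := τ) h0 hτ (f := ff K) (g := gg K) (S := SS K) (R := RR K)
    (e2 := fun t => ∑ i : Fin n, EE K (Pi.single i 1) t ^ 2)
    (fun t ht => (exp_neg_gg h (hsub ht)).symm) (VarSum_gg_lip h h0.le hτ)
    (fun t ht => by
      unfold SS
      have i1 : IntervalIntegrable (ff K) volume t τ := by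
        refine hfi.mono_set ?_
        rw [uIcc_of_le ht.2, uIcc_of_le hH.le]
        exact Icc_subset_Icc ht.1 hτ.le
      have i2 : IntervalIntegrable (ff K) volume τ (top K) := by
        refine hfi.mono_set ?_
        rw [uIcc_of_le hτ.le, uIcc_of_le hH.le]
        exact Icc_subset_Icc_left h0.le
      rw [← intervalIntegral.integral_add_adjacent_intervals i1 i2]
      ring)
    (SS_pos h h0.le hτ)
    (fun t ht => by
      unfold RR
      have hSi := VarSum_SS_int h
      have i1 : IntervalIntegrable (SS K) volume t τ := by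
        refine hSi.mono_set ?_
        rw [uIcc_of_le ht.2, uIcc_of_le hH.le]
        exact Icc_subset_Icc ht.1 hτ.le
      have i2 : IntervalIntegrable (SS K) volume τ (top K) := by
        refine hSi.mono_set ?_
        rw [uIcc_of_le hτ.le, uIcc_of_le hH.le]
        exact Icc_subset_Icc_left h0.le
      rw [← intervalIntegral.integral_add_adjacent_intervals i1 i2]
      ring)
    (continuousOn_finset_sum _ fun i _ => (cE i).pow 2)
    (fun t ht G hG => by
      have := star h ht.1 (ht.2.trans hτ) hG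
      unfold GG at this
      exact this)
  rw [SS_zero h] at hb
  have hid : ∀ i : Fin n, (∫ t in (0 : ℝ)..τ, ff K t * lm (slice K t) i ^ 2) -
      (∫ t in (0 : ℝ)..top K, ff K t * lm (slice K t) i) ^ 2 ≤
      ∫ t in (0 : ℝ)..τ, ff K t / SS K t ^ 2 * EE K (Pi.single i 1) t ^ 2 := by
    intro i
    have h2 := VarSum_id h0 hτ cf (cl i) hfi (intervalIntegrable_ff_lm h i)
      (S := SS K) (P := fun t => ∫ u in t..top K, ff K u * lm (slice K u) i)
      (fun t => rfl) (fun t => rfl) hSpos (SS_zero h)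
    simp only [hEE]
    linarith
  have hci : ∀ i : Fin n, IntervalIntegrable
      (fun t => ff K t / SS K t ^ 2 * EE K (Pi.single i 1) t ^ 2) volume 0 τ := by
    intro i
    refine ContinuousOn.intervalIntegrable ?_
    rw [uIcc_of_le h0.le]
    exact ((cf.mono hsub).div (cS.pow 2) fun t ht => pow_ne_zero 2 (hSpos t ht).ne').mul
      ((cE i).pow 2)
  have hsum : ∑ i : Fin n, (∫ t in (0 : ℝ)..τ, ff K t / SS K t ^ 2 *
      EE K (Pi.single i 1) t ^ 2) =
      ∫ t in (0 : ℝ)..τ, ff K t / SS K t ^ 2 * ∑ i : Fin n, EE K (Pi.single i 1) t ^ 2 := by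
    rw [← intervalIntegral.integral_finset_sum fun i _ => hci i]
    congr 1
    funext t
    rw [Finset.mul_sum]
  calc _ ≤ ∑ i : Fin n, (∫ t in (0 : ℝ)..τ, ff K t / SS K t ^ 2 *
        EE K (Pi.single i 1) t ^ 2) := Finset.sum_le_sum fun i _ => hid i
    _ = ∫ t in (0 : ℝ)..τ, ff K t / SS K t ^ 2 * ∑ i : Fin n, EE K (Pi.single i 1) t ^ 2 := hsum
    _ ≤ _ := hb
    _ = _ := by ring

private theorem VarSum_err {K : Set (Fin (n + 1) → ℝ)} (h : Corner (n + 1) K) {τ : ℝ}
    (h0 : 0 < τ) (hτ : τ < top K) :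
    4 * RR K τ * ff K τ / SS K τ + 2 * gg K τ * SS K τ - 4 * RR K 0 * ff K 0 - 2 * gg K 0 +
        2 * (1 - SS K τ) ≤ (4 * ff K 0 + 2) * (top K - τ) + 2 - 2 * gg K 0 -
        4 * ff K 0 * RR K 0 := by
  have hH := top_pos h
  have hS := SS_pos h h0.le hτ
  have hf := ff_pos h (t := τ) ⟨h0.le, hτ⟩
  have hf0 : ff K τ ≤ ff K 0 := ff_anti h (mem_Ici.2 le_rfl) (mem_Ici.2 h0.le) h0.le
  have hR : RR K τ ≤ (top K - τ) * SS K τ := by
    unfold RR
    have h1 : ∫ u in τ..top K, SS K u ≤ ∫ _ in τ..top K, SS K τ := by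
      refine intervalIntegral.integral_mono_on hτ.le ?_ ?_ ?_
      · refine (VarSum_SS_int h).mono_set ?_
        rw [uIcc_of_le hτ.le, uIcc_of_le hH.le]
        exact Icc_subset_Icc_left h0.le
      · exact intervalIntegrable_const
      · intro u hu
        exact VarSum_SS_anti h ⟨h0.le, hτ.le⟩ ⟨h0.le.trans hu.1, hu.2⟩ hu.1
    rwa [intervalIntegral.integral_const, smul_eq_mul] at h1
  have hSf : SS K τ ≤ (top K - τ) * ff K τ := by
    have h1 : ∫ u in τ..top K, ff K u ≤ ∫ _ in τ..top K, ff K τ := by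
      refine intervalIntegral.integral_mono_on hτ.le ?_ ?_ ?_
      · refine (intervalIntegrable_ff h).mono_set ?_
        rw [uIcc_of_le hτ.le, uIcc_of_le hH.le]
        exact Icc_subset_Icc_left h0.le
      · exact intervalIntegrable_const
      · intro u hu
        exact ff_anti h (mem_Ici.2 h0.le) (mem_Ici.2 (h0.le.trans hu.1)) hu.1
    rw [intervalIntegral.integral_const, smul_eq_mul] at h1
    exact h1
  have hd : 0 ≤ top K - τ := sub_nonneg.2 hτ.le
  have t1 : 4 * RR K τ * ff K τ / SS K τ ≤ 4 * ff K 0 * (top K - τ) := by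
    rw [div_le_iff₀ hS]
    have h1 : RR K τ * ff K τ ≤ (top K - τ) * SS K τ * ff K 0 := by
      calc RR K τ * ff K τ ≤ ((top K - τ) * SS K τ) * ff K τ :=
            mul_le_mul_of_nonneg_right hR hf.le
        _ ≤ ((top K - τ) * SS K τ) * ff K 0 :=
            mul_le_mul_of_nonneg_left hf0 (mul_nonneg hd hS.le)
    nlinarith [h1]
  have hgf : gg K τ * ff K τ ≤ 1 := by
    have h1 := Real.one_sub_inv_le_log_of_pos hf
    have h2 : gg K τ ≤ (ff K τ)⁻¹ - 1 := by
      unfold gg
      linarith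
    have h3 := mul_le_mul_of_nonneg_right h2 hf.le
    have h4 : ((ff K τ)⁻¹ - 1) * ff K τ = 1 - ff K τ := by
      field_simp
    rw [h4] at h3
    linarith
  have t2 : 2 * gg K τ * SS K τ ≤ 2 * (top K - τ) := by
    rcases le_total (gg K τ) 0 with hg | hg
    · have h1 : gg K τ * SS K τ ≤ 0 := mul_nonpos_of_nonpos_of_nonneg hg hS.le
      linarith
    · have h1 : gg K τ * SS K τ ≤ gg K τ * ((top K - τ) * ff K τ) :=
        mul_le_mul_of_nonneg_left hSf hg
      have h2 : gg K τ * ((top K - τ) * ff K τ) = (top K - τ) * (gg K τ * ff K τ) := by ring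
      have h3 : (top K - τ) * (gg K τ * ff K τ) ≤ (top K - τ) * 1 :=
        mul_le_mul_of_nonneg_left hgf hd
      linarith
  nlinarith [t1, t2, hS]

theorem var_sum_le {K : Set (Fin (n + 1) → ℝ)} (h : Corner (n + 1) K) :
    ∑ i : Fin n, ((∫ t in (0 : ℝ)..top K, ff K t * lm (slice K t) i ^ 2) -
        (∫ t in (0 : ℝ)..top K, ff K t * lm (slice K t) i) ^ 2) ≤
      2 + 2 * (∫ t in (0 : ℝ)..top K, ff K t * gg K t) - 2 * gg K 0 -
        4 * ff K 0 * RR K 0 := by
  have hH := top_pos h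
  have hmem : top K ∈ uIcc 0 (top K) := right_mem_uIcc
  -- continuity of the primitives at the top
  have hev : ∀ᶠ τ in nhdsWithin (top K) (Iio (top K)), τ ∈ Ioo 0 (top K) := by
    have h1 : Ioi (0 : ℝ) ∈ nhdsWithin (top K) (Iio (top K)) :=
      mem_nhdsWithin_of_mem_nhds (Ioi_mem_nhds hH)
    filter_upwards [h1, self_mem_nhdsWithin] with τ h2 h3
    exact ⟨h2, h3⟩
  have hprim : ∀ u : ℝ → ℝ, IntervalIntegrable u volume 0 (top K) →
      Filter.Tendsto (fun τ => ∫ t in (0 : ℝ)..τ, u t) (nhdsWithin (top K) (Iio (top K)))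
        (nhds (∫ t in (0 : ℝ)..top K, u t)) := by
    intro u hu
    have h1 := intervalIntegral.continuousOn_primitive_interval' hu left_mem_uIcc (top K) hmem
    refine Filter.Tendsto.mono_left h1 ?_
    rw [nhdsWithin_le_iff]
    filter_upwards [hev] with τ h2
    rw [uIcc_of_le hH.le]
    exact ⟨h2.1.le, h2.2.le⟩
  have hlim1 : Filter.Tendsto (fun τ => ∑ i : Fin n,
      ((∫ t in (0 : ℝ)..τ, ff K t * lm (slice K t) i ^ 2) -
        (∫ t in (0 : ℝ)..top K, ff K t * lm (slice K t) i) ^ 2))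
      (nhdsWithin (top K) (Iio (top K)))
      (nhds (∑ i : Fin n, ((∫ t in (0 : ℝ)..top K, ff K t * lm (slice K t) i ^ 2) -
        (∫ t in (0 : ℝ)..top K, ff K t * lm (slice K t) i) ^ 2))) :=
    tendsto_finset_sum _ fun i _ =>
      (hprim _ (intervalIntegrable_ff_lm_sq h i)).sub_const _
  have hlim2 : Filter.Tendsto (fun τ => (4 * ff K 0 + 2) * (top K - τ) + 2 - 2 * gg K 0 -
        4 * ff K 0 * RR K 0 + 2 * ∫ t in (0 : ℝ)..τ, ff K t * gg K t)
      (nhdsWithin (top K) (Iio (top K)))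
      (nhds ((4 * ff K 0 + 2) * (top K - top K) + 2 - 2 * gg K 0 -
        4 * ff K 0 * RR K 0 + 2 * ∫ t in (0 : ℝ)..top K, ff K t * gg K t)) := by
    have h1 : Filter.Tendsto (fun τ : ℝ => (4 * ff K 0 + 2) * (top K - τ) + 2 - 2 * gg K 0 -
        4 * ff K 0 * RR K 0) (nhdsWithin (top K) (Iio (top K)))
        (nhds ((4 * ff K 0 + 2) * (top K - top K) + 2 - 2 * gg K 0 -
        4 * ff K 0 * RR K 0)) := by
      refine Filter.Tendsto.mono_left ?_ nhdsWithin_le_nhds
      have hc : Continuous fun τ : ℝ => (4 * ff K 0 + 2) * (top K - τ) + 2 - 2 * gg K 0 -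
        4 * ff K 0 * RR K 0 := by fun_prop
      exact hc.tendsto (top K)
    exact h1.add ((hprim _ (intervalIntegrable_ff_gg h)).const_mul 2)
  have hle : ∀ᶠ τ in nhdsWithin (top K) (Iio (top K)), ∑ i : Fin n,
      ((∫ t in (0 : ℝ)..τ, ff K t * lm (slice K t) i ^ 2) -
        (∫ t in (0 : ℝ)..top K, ff K t * lm (slice K t) i) ^ 2) ≤
      (4 * ff K 0 + 2) * (top K - τ) + 2 - 2 * gg K 0 -
        4 * ff K 0 * RR K 0 + 2 * ∫ t in (0 : ℝ)..τ, ff K t * gg K t := by
    filter_upwards [hev] with τ h2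
    have h3 := VarSum_step h h2.1 h2.2
    have h4 := VarSum_err h h2.1 h2.2
    have h5 : ∫ t in (0 : ℝ)..τ, gg K t * ff K t = ∫ t in (0 : ℝ)..τ, ff K t * gg K t := by
      congr 1
      funext t
      ring
    rw [h5] at h3
    linarith
  haveI : (nhdsWithin (top K) (Iio (top K))).NeBot := nhdsLT_neBot _
  have := le_of_tendsto_of_tendsto hlim1 hlim2 hle
  rw [sub_self, mul_zero] at this
  linarith

end Vale.Agent.P254U
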